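import Vale.Agent.P159.H864.Cel0

/-!
P159, module CELL (helper864), part 2 (CE2, CE3): masses `t (1 - P) + τ P` and invariance under the
translations of the cells.

* `MC N l t τ = t • (1 - cellP) + τ • cellP` : symmetric, `τ |u|² ≤ qf ≤ t |u|²`, row sums `τ`,
  off-diagonal entries `≤ 0`, inverse, action on cell functions; `MC_post`, `post_MC`.
* `CT A` : invariance under cell translations (and symmetry), `CInv μ`; `ti_Gc`.
* `Gc`, `PiC`, symbols `Gck`, `PiCk` on the cell torus.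
-/

set_option linter.unusedSectionVars false

namespace Vale.Agent.P159.H864

open Finset Matrix MeasureTheory
open Vale.Agent.P159.TM.H764 (Gh cN sN dt ch EE frm grd)
open Vale.Agent.P159.TM.H104 (EM Ex Cv K3 Lg li nh Gr)
open Vale.Agent.P159.H37
open Vale.Agent.P159.TM.Spec (V)
open Vale.Agent.P159.TM.SpecC (wT ms)

noncomputable section

/-! ### masses -/

section mass

variable {N l : ℕ} [NeZero N] {t τ : ℝ}

/-- the mass `t (1 - P) + τ P` -/
def MC (N l : ℕ) [NeZero N] (t τ : ℝ) : Matrix (V N) (V N) ℝ :=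
  t • (1 - cellP N l) + τ • cellP N l

lemma MC_eq (N l : ℕ) [NeZero N] (t τ : ℝ) :
    MC N l t τ = t • (1 : Matrix (V N) (V N) ℝ) - (t - τ) • cellP N l := by
  unfold MC
  rw [smul_sub, sub_smul]
  abel

lemma MC_self (N l : ℕ) [NeZero N] (t : ℝ) : MC N l t t = t • (1 : Matrix (V N) (V N) ℝ) := by
  rw [MC_eq, sub_self, zero_smul, sub_zero]

lemma MC_tr (N l : ℕ) [NeZero N] (t τ : ℝ) : (MC N l t τ)ᵀ = MC N l t τ := by
  rw [MC_eq, Matrix.transpose_sub, Matrix.transpose_smul, Matrix.transpose_smul,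
    Matrix.transpose_one, cellP_tr]

/-- prior plus information of the observation -/
lemma MC_add (N l : ℕ) [NeZero N] (t τ τ' : ℝ) :
    MC N l t τ' + (τ - τ') • cellP N l = MC N l t τ := by
  rw [MC_eq, MC_eq, sub_add, ← sub_smul]
  congr 2
  ring

lemma MC_add_gram (N l : ℕ) [NeZero N] {t τ τ' : ℝ} (h : τ' ≤ τ) :
    MC N l t τ' + (√(τ - τ') • cob N l)ᵀ * (√(τ - τ') • cob N l) = MC N l t τ := by
  rw [Matrix.transpose_smul, Matrix.smul_mul, Matrix.mul_smul, smul_smul,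
    Real.mul_self_sqrt (sub_nonneg.2 h)]
  exact MC_add N l t τ τ'

/-- posterior of the prior with mass `t (1 - P) + τ' P` under the observation of the cells with
precision `τ - τ'` -/
lemma post_MC (w : (V N → ℤ) → ℝ) {t τ τ' : ℝ} (h : τ' ≤ τ) :
    post (wM w (MC N l t τ')) (√(τ - τ') • cob N l) = wM w (MC N l t τ) := by
  rw [post_wM, MC_add_gram N l h]

/-- posterior with scalar mass `t` -/
lemma post_MC_wt (b : ℝ) {t τ : ℝ} (h : τ ≤ t) :
    post (wM (wT b N) (MC N l t τ)) (√(t - τ) • cob N l) = wt N b t := by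
  rw [post_MC _ h, MC_self]
  rfl

lemma qf_smul_mat {V' : Type*} [Fintype V'] (c : ℝ) (A : Matrix V' V' ℝ) (u : V' → ℝ) :
    qf (c • A) u = c * qf A u := by
  unfold qf
  rw [Finset.mul_sum]
  refine Finset.sum_congr rfl fun x _ => ?_
  rw [Finset.mul_sum]
  exact Finset.sum_congr rfl fun y _ => by rw [Matrix.smul_apply, smul_eq_mul]; ring

lemma bf_smul_mat {V' : Type*} [Fintype V'] (c : ℝ) (A : Matrix V' V' ℝ) (u v : V' → ℝ) :
    bf (c • A) u v = c * bf A u v := by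
  unfold bf
  rw [Finset.mul_sum]
  refine Finset.sum_congr rfl fun x _ => ?_
  rw [Finset.mul_sum]
  exact Finset.sum_congr rfl fun y _ => by rw [Matrix.smul_apply, smul_eq_mul]; ring

variable [NeZero (N / l)]

lemma MC_one (hl : l ∣ N) (t τ : ℝ) : MC N l t τ *ᵥ (fun _ => 1) = fun _ => τ := by
  rw [MC_eq, Matrix.sub_mulVec, Matrix.smul_mulVec, Matrix.smul_mulVec, Matrix.one_mulVec,
    cellP_one hl]
  funext x
  simp only [Pi.sub_apply, Pi.smul_apply, smul_eq_mul]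
  ring

lemma MC_row (hl : l ∣ N) (t τ : ℝ) (x : V N) : ∑ y, MC N l t τ x y = τ := by
  have h := congrFun (MC_one (N := N) hl t τ) x
  have e : (MC N l t τ *ᵥ fun _ => 1) x = ∑ y, MC N l t τ x y * 1 := rfl
  rw [e] at h
  simpa only [mul_one] using h

lemma MC_off (hl : l ∣ N) (h : τ ≤ t) {x y : V N} (hxy : x ≠ y) : MC N l t τ x y ≤ 0 := by
  rw [MC_eq, Matrix.sub_apply, Matrix.smul_apply, Matrix.smul_apply, Matrix.one_apply_ne hxy,
    smul_zero, zero_sub, smul_eq_mul, neg_nonpos]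
  exact mul_nonneg (sub_nonneg.2 h) (cellP_nonneg hl x y)

lemma qf_MC (N l : ℕ) [NeZero N] (t τ : ℝ) (u : V N → ℝ) :
    qf (MC N l t τ) u = t * ∑ x, u x ^ 2 - (t - τ) * qf (cellP N l) u := by
  rw [MC_eq, qf_sub_mat, qf_smul_one, qf_smul_mat]

lemma qf_MC' (hl : l ∣ N) (t τ : ℝ) (u : V N → ℝ) :
    qf (MC N l t τ) u =
      t * ∑ x, (u x - (cellP N l *ᵥ u) x) ^ 2 + τ * ∑ c, (cobV N l *ᵥ u) c ^ 2 := by
  rw [qf_MC, qf_cellP hl, qf_cellP_add hl]
  ring

lemma qf_MC_ge (hl : l ∣ N) (h : τ ≤ t) (u : V N → ℝ) :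
    τ * ∑ x, u x ^ 2 ≤ qf (MC N l t τ) u := by
  rw [qf_MC]
  have h1 := mul_le_mul_of_nonneg_left (qf_cellP_le hl u) (sub_nonneg.2 h)
  linarith

lemma qf_MC_le (hl : l ∣ N) (h : τ ≤ t) (u : V N → ℝ) :
    qf (MC N l t τ) u ≤ t * ∑ x, u x ^ 2 := by
  rw [qf_MC]
  have h1 := mul_nonneg (sub_nonneg.2 h) (qf_cellP_nonneg hl u)
  linarith

lemma qf_MC_mono (hl : l ∣ N) {τ τ' : ℝ} (h : τ' ≤ τ) (u : V N → ℝ) :
    qf (MC N l t τ') u ≤ qf (MC N l t τ) u := by
  rw [qf_MC, qf_MC]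
  have h1 := mul_le_mul_of_nonneg_right h (qf_cellP_nonneg hl u)
  linarith

lemma MC_mul (hl : l ∣ N) (t τ t' τ' : ℝ) : MC N l t τ * MC N l t' τ' = MC N l (t * t') (τ * τ') := by
  have h := cellP_mul_self hl
  have e1 : (1 - cellP N l) * (1 - cellP N l) = 1 - cellP N l := by
    rw [Matrix.mul_sub, Matrix.mul_one, Matrix.sub_mul, Matrix.one_mul, h, sub_self, sub_zero]
  have e2 : (1 - cellP N l) * cellP N l = 0 := by
    rw [Matrix.sub_mul, Matrix.one_mul, h, sub_self]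
  have e3 : cellP N l * (1 - cellP N l) = 0 := by
    rw [Matrix.mul_sub, Matrix.mul_one, h, sub_self]
  unfold MC
  rw [Matrix.add_mul, Matrix.mul_add, Matrix.mul_add, Matrix.smul_mul, Matrix.smul_mul,
    Matrix.smul_mul, Matrix.smul_mul, Matrix.mul_smul, Matrix.mul_smul, Matrix.mul_smul,
    Matrix.mul_smul, e1, e2, e3, h, smul_zero, smul_zero, smul_zero, smul_zero, add_zero, zero_add,
    smul_smul, smul_smul]

lemma MC_one_one (N l : ℕ) [NeZero N] : MC N l 1 1 = 1 := by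
  rw [MC_self, one_smul]

lemma MC_inv (hl : l ∣ N) (ht : t ≠ 0) (hτ : τ ≠ 0) : (MC N l t τ)⁻¹ = MC N l t⁻¹ τ⁻¹ := by
  refine Matrix.inv_eq_right_inv ?_
  rw [MC_mul hl, mul_inv_cancel₀ ht, mul_inv_cancel₀ hτ, MC_one_one]

lemma MC_det (hl : l ∣ N) (ht : t ≠ 0) (hτ : τ ≠ 0) : IsUnit (MC N l t τ).det := by
  have h : MC N l t τ * MC N l t⁻¹ τ⁻¹ = 1 := by
    rw [MC_mul hl, mul_inv_cancel₀ ht, mul_inv_cancel₀ hτ, MC_one_one]
  exact (Matrix.isUnit_iff_isUnit_det _).1 (IsUnit.of_mul_eq_one _ h)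

lemma MC_mul_tr (hl : l ∣ N) (t τ : ℝ) : MC N l t τ * (cobV N l)ᵀ = τ • (cobV N l)ᵀ := by
  rw [MC_eq, Matrix.sub_mul, Matrix.smul_mul, Matrix.smul_mul, Matrix.one_mul, cellP_mul_tr hl,
    ← sub_smul]
  congr 1
  ring

lemma cobV_mul_MC (hl : l ∣ N) (t τ : ℝ) : cobV N l * MC N l t τ = τ • cobV N l := by
  rw [MC_eq, Matrix.mul_sub, Matrix.mul_smul, Matrix.mul_smul, Matrix.mul_one, cobV_mul_cellP hl,
    ← sub_smul]
  congr 1
  ring

/-- sources of cell backgrounds -/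
lemma MC_mulVec_tr (hl : l ∣ N) (t τ : ℝ) (φ : V (N / l) → ℝ) :
    MC N l t τ *ᵥ ((cobV N l)ᵀ *ᵥ φ) = τ • ((cobV N l)ᵀ *ᵥ φ) := by
  rw [Matrix.mulVec_mulVec, MC_mul_tr hl, Matrix.smul_mulVec]

lemma em_MC {b : ℝ} (hb : 0 ≤ b) (hl : l ∣ N) (hτ : 0 < τ) (h : τ ≤ t) :
    EM (wM (wT b N) (MC N l t τ)) := em_wTM hb hτ (qf_MC_ge hl h)

end mass

/-! ### invariance under cell translations -/

section ct

variable {N l : ℕ} [NeZero N] [NeZero (N / l)]

/-- symmetric and invariant under the translations of the cells -/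
structure CT (l : ℕ) [NeZero (N / l)] (A : Matrix (V N) (V N) ℝ) : Prop where
  tr : ∀ (a : V (N / l)) (x y : V N), A (x + up a) (y + up a) = A x y
  sy : ∀ x y, A x y = A y x

variable {A B : Matrix (V N) (V N) ℝ}

lemma TI.ct (h : TI A) : CT l A := ⟨fun a x y => h.tr (up a) x y, h.sy⟩

lemma CT.transpose (h : CT l A) : Aᵀ = A := by
  ext x y
  exact h.sy y x

lemma CT.zero : CT l (0 : Matrix (V N) (V N) ℝ) := TI.zero.ct

lemma CT.one : CT l (1 : Matrix (V N) (V N) ℝ) := TI.one.ct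

lemma CT.add (hA : CT l A) (hB : CT l B) : CT l (A + B) :=
  ⟨fun a x y => by rw [Matrix.add_apply, Matrix.add_apply, hA.tr, hB.tr],
    fun x y => by rw [Matrix.add_apply, Matrix.add_apply, hA.sy, hB.sy]⟩

lemma CT.smul (c : ℝ) (hA : CT l A) : CT l (c • A) :=
  ⟨fun a x y => by rw [Matrix.smul_apply, Matrix.smul_apply, hA.tr],
    fun x y => by rw [Matrix.smul_apply, Matrix.smul_apply, hA.sy]⟩

lemma CT.neg (hA : CT l A) : CT l (-A) :=
  ⟨fun a x y => by rw [Matrix.neg_apply, Matrix.neg_apply, hA.tr],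
    fun x y => by rw [Matrix.neg_apply, Matrix.neg_apply, hA.sy]⟩

lemma CT.sub (hA : CT l A) (hB : CT l B) : CT l (A - B) := by
  rw [sub_eq_add_neg]
  exact hA.add hB.neg

/-- congruence `A B A` -/
lemma CT.conj (hA : CT l A) (hB : CT l B) : CT l (A * B * A) := by
  constructor
  · intro a x y
    rw [Matrix.mul_apply, Matrix.mul_apply, ← Equiv.sum_comp (Equiv.addRight (up a))]
    refine Finset.sum_congr rfl fun z _ => ?_
    rw [Equiv.coe_addRight, hA.tr, Matrix.mul_apply, Matrix.mul_apply,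
      ← Equiv.sum_comp (Equiv.addRight (up a))]
    congr 1
    refine Finset.sum_congr rfl fun z' _ => ?_
    rw [Equiv.coe_addRight, hA.tr, hB.tr]
  · intro x y
    have h : (A * B * A)ᵀ = A * B * A := by
      rw [Matrix.transpose_mul, Matrix.transpose_mul, hA.transpose, hB.transpose, Matrix.mul_assoc]
    have h2 := congrFun (congrFun h y) x
    exact h2

/-- permutation matrices -/
lemma CT.inv (hA : CT l A) : CT l A⁻¹ := by
  constructor
  · intro a x y
    have h : A.submatrix (Equiv.addRight (up a)) (Equiv.addRight (up a)) = A := by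
      ext x y
      exact hA.tr a x y
    have h2 : (A.submatrix (Equiv.addRight (up a : V N)) (Equiv.addRight (up a : V N)))⁻¹ =
        A⁻¹.submatrix (Equiv.addRight (up a)) (Equiv.addRight (up a)) :=
      Matrix.inv_submatrix_equiv A _ _
    rw [h] at h2
    have h3 := congrFun (congrFun h2 x) y
    exact h3.symm
  · intro x y
    have h : A⁻¹ᵀ = A⁻¹ := by rw [Matrix.transpose_nonsing_inv, hA.transpose]
    exact congrFun (congrFun h y) x

lemma ct_cellP (hl : l ∣ N) : CT l (cellP N l) := by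
  constructor
  · intro a x y
    rw [cellP_apply hl, cellP_apply hl, cl_add_up hl, cl_add_up hl]
    simp only [add_left_inj]
  · intro x y
    exact congrFun (congrFun (cellP_tr N l) y) x

lemma ct_MC (hl : l ∣ N) (t τ : ℝ) : CT l (MC N l t τ) :=
  ((CT.one.sub (ct_cellP hl)).smul t).add ((ct_cellP hl).smul τ)

/-- weights invariant under cell translations -/
def CInv (l : ℕ) [NeZero (N / l)] (μ : (V N → ℤ) → ℝ) : Prop :=
  ∀ a : V (N / l), Inv μ (tra (up a))

lemma TInv.cinv {μ : (V N → ℤ) → ℝ} (h : TInv μ) : CInv l μ := fun a => h (up a)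

lemma cinv_wM {w : (V N → ℤ) → ℝ} (hw : CInv l w) {M : Matrix (V N) (V N) ℝ} (hM : CT l M) :
    CInv l (wM w M) := fun a => inv_wM (hw a) fun x y => hM.tr a x y

lemma cinv_post {w : (V N → ℤ) → ℝ} (hw : CInv l w) {I : Type*} [Fintype I]
    {P : Matrix I (V N) ℝ} (hP : CT l (Pᵀ * P)) : CInv l (post w P) :=
  fun a => inv_post (hw a) fun x y => hP.tr a x y

theorem ct_Gm {μ : (V N → ℤ) → ℝ} (hμ : CInv l μ) : CT l (Gm μ) :=
  ⟨fun a x y => Gm_perm (hμ a) x y, fun x y => Cm_symm _ x y⟩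

theorem cinv_MC (hl : l ∣ N) (b t τ : ℝ) : CInv l (wM (wT b N) (MC N l t τ)) :=
  cinv_wM (tinv_wT b).cinv (ct_MC hl t τ)

/-- the cell matrix of a matrix -/
def Gc (l : ℕ) [NeZero (N / l)] (A : Matrix (V N) (V N) ℝ) : Matrix (V (N / l)) (V (N / l)) ℝ :=
  cobV N l * A * (cobV N l)ᵀ

lemma Gc_apply (A : Matrix (V N) (V N) ℝ) (c c' : V (N / l)) :
    Gc l A c c' = ((l : ℝ) ^ 2)⁻¹ * ∑ x ∈ univ.filter (fun x : V N => cl x = c),
      ∑ y ∈ univ.filter (fun y : V N => cl y = c'), A x y := by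
  unfold Gc
  rw [Matrix.mul_apply]
  have e1 : ∀ y : V N, (cobV N l * A) c y * (cobV N l)ᵀ y c' =
      if cl y = c' then ((l : ℝ) ^ 2)⁻¹ *
        ∑ x ∈ univ.filter (fun x : V N => cl x = c), A x y else 0 := by
    intro y
    rw [Matrix.transpose_apply, cobV_apply]
    by_cases h : cl y = c'
    · rw [if_pos h, if_pos h, Matrix.mul_apply, Finset.sum_filter, Finset.mul_sum, Finset.sum_mul]
      refine Finset.sum_congr rfl fun x _ => ?_
      rw [cobV_apply]
      split_ifs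
      · rw [sq, mul_inv]
        ring
      · ring
    · rw [if_neg h, if_neg h, mul_zero]
  rw [Finset.sum_congr rfl fun y _ => e1 y, ← Finset.sum_filter, ← Finset.mul_sum,
    Finset.sum_comm]

lemma qf_Gc (A : Matrix (V N) (V N) ℝ) (φ : V (N / l) → ℝ) :
    qf (Gc l A) φ = qf A ((cobV N l)ᵀ *ᵥ φ) := by
  unfold Gc
  rw [qf_eq, qf_eq, ← Matrix.mulVec_mulVec, ← Matrix.mulVec_mulVec, Matrix.dotProduct_mulVec,
    ← Matrix.mulVec_transpose]

lemma bf_Gc (A : Matrix (V N) (V N) ℝ) (φ ψ : V (N / l) → ℝ) :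
    bf (Gc l A) φ ψ = bf A ((cobV N l)ᵀ *ᵥ φ) ((cobV N l)ᵀ *ᵥ ψ) := by
  unfold Gc
  rw [bf_eq, bf_eq, ← Matrix.mulVec_mulVec, ← Matrix.mulVec_mulVec, Matrix.dotProduct_mulVec,
    ← Matrix.mulVec_transpose]

lemma Gc_add (A B : Matrix (V N) (V N) ℝ) : Gc l (A + B) = Gc l A + Gc l B := by
  unfold Gc
  rw [Matrix.mul_add, Matrix.add_mul]

lemma Gc_sub (A B : Matrix (V N) (V N) ℝ) : Gc l (A - B) = Gc l A - Gc l B := by
  unfold Gc
  rw [Matrix.mul_sub, Matrix.sub_mul]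

lemma Gc_smul (c : ℝ) (A : Matrix (V N) (V N) ℝ) : Gc l (c • A) = c • Gc l A := by
  unfold Gc
  rw [Matrix.mul_smul, Matrix.smul_mul]

lemma Gc_one (hl : l ∣ N) : Gc l (1 : Matrix (V N) (V N) ℝ) = 1 := by
  unfold Gc
  rw [Matrix.mul_one, cobV_mul_tr hl]

lemma Gc_cellP (hl : l ∣ N) : Gc l (cellP N l) = 1 := by
  unfold Gc
  rw [cobV_mul_cellP hl, cobV_mul_tr hl]

lemma Gc_MC (hl : l ∣ N) (t τ : ℝ) : Gc l (MC N l t τ) = τ • 1 := by
  unfold Gc
  rw [cobV_mul_MC hl, Matrix.smul_mul, cobV_mul_tr hl]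

lemma Gc_nonneg {A : Matrix (V N) (V N) ℝ} (h : ∀ x y, 0 ≤ A x y) (c c' : V (N / l)) :
    0 ≤ Gc l A c c' := by
  rw [Gc_apply]
  exact mul_nonneg (by positivity) (Finset.sum_nonneg fun _ _ => Finset.sum_nonneg fun _ _ => h _ _)

lemma Gc_le {A B : Matrix (V N) (V N) ℝ} (h : ∀ u, qf A u ≤ qf B u) (φ : V (N / l) → ℝ) :
    qf (Gc l A) φ ≤ qf (Gc l B) φ := by
  rw [qf_Gc, qf_Gc]
  exact h _

lemma trace_Gc (hl : l ∣ N) (A : Matrix (V N) (V N) ℝ) :
    (Gc l A).trace = (cellP N l * A).trace := by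
  unfold Gc
  rw [Matrix.trace_mul_comm, ← Matrix.mul_assoc, cellP_eq hl]

/-- the cell matrix of a cell-translation invariant matrix is translation invariant on the cell
torus -/
theorem ti_Gc (hl : l ∣ N) (hA : CT l A) : TI (Gc l A) := by
  constructor
  · intro a c c'
    have e : ∀ (c : V (N / l)) (f : V N → ℝ),
        ∑ x ∈ univ.filter (fun x : V N => cl x = c + a), f x =
          ∑ x ∈ univ.filter (fun x : V N => cl x = c), f (x + up a) := by
      intro c f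
      rw [Finset.sum_filter, Finset.sum_filter, ← Equiv.sum_comp (Equiv.addRight (up a))]
      refine Finset.sum_congr rfl fun x _ => ?_
      simp only [Equiv.coe_addRight, cl_add_up hl, add_left_inj]
    rw [Gc_apply, Gc_apply, e]
    congr 1
    refine Finset.sum_congr rfl fun x _ => ?_
    rw [e]
    exact Finset.sum_congr rfl fun y _ => hA.tr a x y
  · intro c c'
    have h : (Gc l A)ᵀ = Gc l A := by
      unfold Gc
      rw [Matrix.transpose_mul, Matrix.transpose_mul, Matrix.transpose_transpose, hA.transpose,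
        Matrix.mul_assoc]
    exact congrFun (congrFun h c') c

theorem ti_Gc_Gm (hl : l ∣ N) {μ : (V N → ℤ) → ℝ} (hμ : CInv l μ) : TI (Gc l (Gm μ)) :=
  ti_Gc hl (ct_Gm hμ)

end ct

end

end Vale.Agent.P159.H864
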