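import Vale.Agent.P159.H864.Fou1
import Vale.Agent.P159.TM.H41.Ker2

/-!
P159, module FOU (helper864), part 3: the torus letters `wt, Gt, Ght, Pik` of `H37/Spec0` and the
kernel `TM.H41.G` of the old library.

* `em_wTM` : `wM (wT b N) M` is a weight of the calculus for every mass `M ≥ m0 > 0`;
  `em_wt, ev_wt, wt_pos, tinv_wt`.
* `wt_eq_bw`, `Cm_wt`, `Gt_eq_G`, `Ght_eq_Gh` : dictionary (`t = ξ⁻²`).
* `Gt_nonneg, Gt_neg, Gt_ref, Gt_swp, Gt_le_zero` ; `Ght_pos, Ght_le, Ght_neg, Ght_ref, Ght_swp`.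
* `Pik_nonneg`, `Ght_mono` (E7), `Pik_mono` (`Π_{t'}(k) ≤ Π_t(k)` for `t' ≤ t`).
* `QU_iff_sym` : the one scale hypothesis, mode by mode.
* `AM` : the second derivative `A = M - M G M` of the free energy; `sym_AM`, `A = t Π / (t + Π)`.
-/

set_option linter.unusedSectionVars false

namespace Vale.Agent.P159.H864

open Finset Matrix MeasureTheory
open Vale.Agent.P159.TM.H764 (Gh cN sN dt ch EE frm grd)
open Vale.Agent.P159.TM.H104 (EM Ex Cv K3 Lg li nh Gr)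
open Vale.Agent.P159.H37
open Vale.Agent.P159.TM.Spec (V)
open Vale.Agent.P159.TM.SpecC (wT ms)

noncomputable section

variable {N : ℕ} [NeZero N] {b : ℝ}

/-! ### positivity and boundedness of the torus weight -/

lemma wI_pos' {b : ℝ} (hb : 0 < b) (n : ℤ) : 0 < H353.wI b n := by
  rw [H353.wI_eq]
  refine mul_pos (Real.exp_pos _) ?_
  have h := (H353.summable_aw_col hb.le n).le_tsum n.natAbs fun k _ => H353.aw_nonneg hb.le k n
  refine lt_of_lt_of_le ?_ h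
  unfold H353.aw H353.cb
  rw [← two_mul, Nat.choose_self]
  positivity

lemma wT_pos (hb : 0 < b) (h : V N → ℤ) : 0 < wT b N h :=
  Finset.prod_pos fun _ _ => mul_pos (wI_pos' hb _) (wI_pos' hb _)

lemma wT_nonneg (hb : 0 ≤ b) (h : V N → ℤ) : 0 ≤ wT b N h := (TM.H41.wt_wT hb).nonneg h

lemma wM_pos (hb : 0 < b) (M : Matrix (V N) (V N) ℝ) (h : V N → ℤ) : 0 < wM (wT b N) M h :=
  mul_pos (wT_pos hb h) (Real.exp_pos _)

/-- the massive torus weight is a weight of the calculus -/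
theorem em_wTM (hb : 0 ≤ b) {M : Matrix (V N) (V N) ℝ} {m0 : ℝ} (hm0 : 0 < m0)
    (hM : ∀ u : V N → ℝ, m0 * ∑ x, u x ^ 2 ≤ qf M u) : EM (wM (wT b N) M) := by
  obtain ⟨C, hC⟩ := (TM.H41.wt_wT (N := N) hb).bdd
  exact em_wM (wT_nonneg hb) hC (TM.H41.wt_wT hb).pos hm0 hM

theorem ev_wTM (M : Matrix (V N) (V N) ℝ) : Ev (wM (wT b N) M) :=
  ev_wM (fun h => TM.H41.even_wT h) M

/-! ### scalar mass -/

theorem em_wt (hb : 0 ≤ b) {t : ℝ} (ht : 0 < t) : EM (wt N b t) :=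
  em_wTM hb ht fun u => by rw [qf_smul_one]

theorem ev_wt (t : ℝ) : Ev (wt N b t) := ev_wTM _

theorem wt_pos (hb : 0 < b) (t : ℝ) (h : V N → ℤ) : 0 < wt N b t h := wM_pos hb _ h

theorem ti_smul_one (t : ℝ) : TI (t • (1 : Matrix (V N) (V N) ℝ)) := TI.one.smul t

theorem tinv_wt (t : ℝ) : TInv (wt N b t) := tinv_wM (tinv_wT b) (ti_smul_one t)

lemma inv_wt_ref1 (t : ℝ) : Inv (wt N b t) ref1 := by
  refine inv_wM (inv_wT_ref1 b) fun x y => ?_
  rw [Matrix.smul_apply, Matrix.smul_apply, Matrix.one_apply, Matrix.one_apply]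
  simp only [EmbeddingLike.apply_eq_iff_eq]

lemma inv_wt_swp (t : ℝ) : Inv (wt N b t) swp := by
  refine inv_wM (inv_wT_swp b) fun x y => ?_
  rw [Matrix.smul_apply, Matrix.smul_apply, Matrix.one_apply, Matrix.one_apply]
  simp only [EmbeddingLike.apply_eq_iff_eq]

/-- the weight with scalar mass is the weight with equal site masses -/
theorem wt_eq_bw (t : ℝ) : wt N b t = TM.H104.bw (wT b N) fun _ => t := by
  funext h
  unfold wt wM TM.H104.bw TM.H870.gr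
  congr 2
  rw [qf_smul_one, mul_div_assoc, mul_comm t, div_mul_eq_mul_div, Finset.sum_mul, Finset.sum_div]
  congr 1
  refine Finset.sum_congr rfl fun x _ => ?_
  simp only [re, Pi.zero_apply, sub_zero]
  ring

theorem Cv_wt {t : ℝ} (ht : t ≠ 0) (J : V N → ℝ) (F F' : (V N → ℤ) → ℝ) :
    Cv (wt N b t) J F F' = TM.H104.Cf (wT b N) (fun _ => t) (t⁻¹ • J) F F' := by
  rw [TM.H104.Cf_eq, wt_eq_bw]
  congr 1
  funext x
  simp only [TM.H104.mf, Pi.smul_apply, smul_eq_mul]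
  rw [mul_inv_cancel_left₀ ht]

theorem Ex_wt {t : ℝ} (ht : t ≠ 0) (J : V N → ℝ) (F : (V N → ℤ) → ℝ) :
    Ex (wt N b t) J F = TM.H870.Ex (wT b N) (fun _ => t) (t⁻¹ • J) F := by
  rw [TM.H104.Ex_eq, wt_eq_bw]
  congr 1
  funext x
  simp only [TM.H104.mf, Pi.smul_apply, smul_eq_mul]
  rw [mul_inv_cancel_left₀ ht]

lemma ms_eq (ξ : ℝ) : (ms ξ : V N → ℝ) = fun _ => 1 / ξ ^ 2 := rfl

/-- covariances of the torus model at source `0`: old and new letters -/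
theorem Gt_eq_G {ξ : ℝ} (hξ : 0 < ξ) (z : V N) : Gt N b (1 / ξ ^ 2) z = TM.H41.G b N ξ z := by
  unfold Gt Gm Cm
  rw [Matrix.of_apply, Cv_wt (by positivity), smul_zero]
  rfl

theorem Gt_eq_G' {t : ℝ} (ht : 0 < t) (z : V N) : Gt N b t z = TM.H41.G b N (1 / √t) z := by
  rw [← Gt_eq_G (by positivity)]
  congr 1
  rw [div_pow, one_pow, Real.sq_sqrt ht.le, one_div_one_div]

theorem Ght_eq_Gh {ξ : ℝ} (hξ : 0 < ξ) (k : V N) : Ght N b (1 / ξ ^ 2) k = Gh (TM.H41.G b N ξ) k := by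
  unfold Ght Gh
  exact Finset.sum_congr rfl fun z _ => by rw [Gt_eq_G hξ]

theorem Ght_eq_Gh' {t : ℝ} (ht : 0 < t) (k : V N) : Ght N b t k = Gh (TM.H41.G b N (1 / √t)) k := by
  unfold Ght Gh
  exact Finset.sum_congr rfl fun z _ => by rw [Gt_eq_G' ht]

theorem ti_Gm_wt (t : ℝ) : TI (Gm (wt N b t)) := ti_Gm (tinv_wt t)

theorem Gm_wt (t : ℝ) (x y : V N) : Gm (wt N b t) x y = Gt N b t (y - x) := (ti_Gm_wt t).eq x y

theorem sym_Gm_wt (t : ℝ) (k : V N) : sym (Gm (wt N b t)) k = Ght N b t k := rfl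

theorem Gt_neg (t : ℝ) (z : V N) : Gt N b t (-z) = Gt N b t z := (ti_Gm_wt t).ev z

theorem Gt_ref (t : ℝ) (z : V N) : Gt N b t (-z.1, z.2) = Gt N b t z := by
  have h := Gm_perm (inv_wt_ref1 (b := b) t) 0 z
  have e0 : ref1 (0 : V N) = 0 := by ext <;> simp [ref1_apply]
  rw [e0, ref1_apply] at h
  exact h

theorem Gt_swp (t : ℝ) (z : V N) : Gt N b t (z.2, z.1) = Gt N b t z := by
  have h := Gm_perm (inv_wt_swp (b := b) t) 0 z
  have e0 : swp (0 : V N) = 0 := by ext <;> simp [swp_apply]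
  rw [e0, swp_apply] at h
  exact h

/-- all covariances are non-negative -/
theorem Gt_nonneg (hb : 0 ≤ b) {t : ℝ} (ht : 0 < t) (z : V N) : 0 ≤ Gt N b t z := by
  rw [Gt_eq_G' ht]
  exact TM.H41.G_nonneg hb (by positivity) z

theorem Gm_wt_nonneg (hb : 0 ≤ b) {t : ℝ} (ht : 0 < t) (x y : V N) : 0 ≤ Gm (wt N b t) x y := by
  rw [Gm_wt]
  exact Gt_nonneg hb ht _

theorem Gt_eq_sum (t : ℝ) (z : V N) :
    Gt N b t z = ((N : ℝ) ^ 2)⁻¹ * ∑ k, Ght N b t k * cN (dt k z) := by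
  have h := (ti_Gm_wt (b := b) t).inversion 0 z
  simp only [sub_zero] at h
  exact h

theorem Gt_zero_eq (t : ℝ) : Gt N b t 0 = ((N : ℝ) ^ 2)⁻¹ * ∑ k, Ght N b t k :=
  (ti_Gm_wt (b := b) t).diag_eq 0

/-- susceptibility -/
theorem Ght_zero_eq (t : ℝ) : Ght N b t 0 = ∑ z, Gt N b t z := by
  show Gh (Gt N b t) 0 = _
  unfold Gh
  refine Finset.sum_congr rfl fun z _ => ?_
  have h : (0 : V N).1 * z.1 + (0 : V N).2 * z.2 = 0 := by simp
  rw [h, TM.H764.cN_zero, mul_one]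

/-! ### the symbols -/

theorem Ght_neg (t : ℝ) (k : V N) : Ght N b t (-k) = Ght N b t k := sym_neg_arg _ k

theorem Ght_nonneg (hb : 0 ≤ b) {t : ℝ} (ht : 0 < t) (k : V N) : 0 ≤ Ght N b t k :=
  sym_Gm_nonneg (em_wt hb ht) (tinv_wt t) k

theorem Ght_pos (hb : 0 < b) {t : ℝ} (ht : 0 < t) (k : V N) : 0 < Ght N b t k :=
  sym_Gm_pos (em_wt hb.le ht) (tinv_wt t) (wt_pos hb t) k

theorem Ght_le (hb : 0 ≤ b) {t : ℝ} (ht : 0 < t) (k : V N) : Ght N b t k ≤ 1 / t := by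
  rw [Ght_eq_Gh' ht]
  refine (TM.H41.Gh_le hb (by positivity) k).trans (le_of_eq ?_)
  rw [div_pow, one_pow, Real.sq_sqrt ht.le]

theorem Ght_le_inv (hb : 0 ≤ b) {t : ℝ} (ht : 0 < t) (k : V N) : Ght N b t k ≤ t⁻¹ := by
  rw [← one_div]
  exact Ght_le hb ht k

theorem Ght_ref (t : ℝ) (k : V N) : Ght N b t (-k.1, k.2) = Ght N b t k := by
  show Gh (Gt N b t) _ = Gh (Gt N b t) k
  unfold Gh
  rw [← Equiv.sum_comp (ref1 (N := N))]
  refine Finset.sum_congr rfl fun z _ => ?_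
  have e : ref1 z = (-z.1, z.2) := rfl
  rw [e, Gt_ref]
  congr 2
  simp only [neg_mul_neg]

theorem Ght_swp (t : ℝ) (k : V N) : Ght N b t (k.2, k.1) = Ght N b t k := by
  show Gh (Gt N b t) _ = Gh (Gt N b t) k
  unfold Gh
  rw [← Equiv.sum_comp (swp (N := N))]
  refine Finset.sum_congr rfl fun z _ => ?_
  have e : swp z = (z.2, z.1) := rfl
  rw [e, Gt_swp]
  congr 2
  simp only
  ring

/-! ### the self energy -/

theorem ti_PiM_wt (b t : ℝ) : TI (PiM (wT b N) (t • (1 : Matrix (V N) (V N) ℝ))) :=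
  ti_PiM (tinv_wT b) (ti_smul_one t)

theorem sym_PiM_wt (hb : 0 < b) {t : ℝ} (ht : 0 < t) (k : V N) :
    sym (PiM (wT b N) (t • (1 : Matrix (V N) (V N) ℝ))) k = Pik N b t k := by
  unfold PiM
  have h1 : TI (Gm (wM (wT b N) (t • (1 : Matrix (V N) (V N) ℝ)))) := ti_Gm_wt t
  rw [sym_sub, sym_smul_one, sym_inv' h1 fun k => (Ght_pos hb ht k).ne']
  rfl

theorem Pik_neg (t : ℝ) (k : V N) : Pik N b t (-k) = Pik N b t k := by
  unfold Pik
  rw [Ght_neg]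

theorem Pik_ref (t : ℝ) (k : V N) : Pik N b t (-k.1, k.2) = Pik N b t k := by
  unfold Pik
  rw [Ght_ref]

theorem Pik_swp (t : ℝ) (k : V N) : Pik N b t (k.2, k.1) = Pik N b t k := by
  unfold Pik
  rw [Ght_swp]

theorem Pik_nonneg (hb : 0 < b) {t : ℝ} (ht : 0 < t) (k : V N) : 0 ≤ Pik N b t k := by
  unfold Pik
  rw [sub_nonneg]
  have h := Ght_le_inv hb.le ht k
  have h0 := Ght_pos hb ht k
  rw [le_inv_comm₀ ht h0]
  exact h

theorem Ght_eq_inv (_hb : 0 < b) {t : ℝ} (_ht : 0 < t) (k : V N) :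
    Ght N b t k = (t + Pik N b t k)⁻¹ := by
  unfold Pik
  rw [add_sub_cancel, inv_inv]

/-- **E7**: the covariance increases when the mass decreases, in the strong form -/
theorem Ght_e7 (hb : 0 ≤ b) {t t' : ℝ} (ht' : 0 < t') (h : t' ≤ t) (k : V N) :
    Ght N b t k * (1 + (t - t') * Ght N b t' k) ≤ Ght N b t' k := by
  have ht : 0 < t := ht'.trans_le h
  have h1 : (1 : ℝ) / √t ≤ 1 / √t' :=
    one_div_le_one_div_of_le (Real.sqrt_pos.2 ht') (Real.sqrt_le_sqrt h)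
  have h2 := TM.H41.e7 (N := N) hb (by positivity : (0 : ℝ) < 1 / √t) h1 k
  have e : ∀ s : ℝ, 0 < s → 1 / (1 / √s) ^ 2 = s := fun s hs => by
    rw [div_pow, one_pow, Real.sq_sqrt hs.le, one_div_one_div]
  rw [e t ht, e t' ht', ← Ght_eq_Gh' ht, ← Ght_eq_Gh' ht'] at h2
  exact h2

theorem Ght_mono (hb : 0 ≤ b) {t t' : ℝ} (ht' : 0 < t') (h : t' ≤ t) (k : V N) :
    Ght N b t k ≤ Ght N b t' k := by
  have h1 := Ght_e7 (N := N) hb ht' h k
  have h2 := Ght_nonneg (N := N) hb ht' k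
  have h3 := Ght_nonneg (N := N) hb (ht'.trans_le h) k
  nlinarith [mul_nonneg h3 (mul_nonneg (sub_nonneg.2 h) h2)]

/-- the self energy increases with the mass -/
theorem Pik_mono (hb : 0 < b) {t t' : ℝ} (ht' : 0 < t') (h : t' ≤ t) (k : V N) :
    Pik N b t' k ≤ Pik N b t k := by
  have ht : 0 < t := ht'.trans_le h
  have h1 := Ght_e7 (N := N) hb.le ht' h k
  have h2 := Ght_pos (N := N) hb ht' k
  have h3 := Ght_pos (N := N) hb ht k
  unfold Pik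
  have h4 : (Ght N b t' k)⁻¹ + (t - t') ≤ (Ght N b t k)⁻¹ := by
    have e : (Ght N b t' k)⁻¹ + (t - t') = (1 + (t - t') * Ght N b t' k) / Ght N b t' k := by
      field_simp
    rw [e, ← one_div, div_le_div_iff₀ h2 h3, one_mul, mul_comm]
    exact h1
  linarith

/-- Loewner form of `Pik_mono` -/
theorem PiM_wt_mono (hb : 0 < b) {t t' : ℝ} (ht' : 0 < t') (h : t' ≤ t) (u : V N → ℝ) :
    qf (PiM (wT b N) (t' • (1 : Matrix (V N) (V N) ℝ))) u ≤
      qf (PiM (wT b N) (t • (1 : Matrix (V N) (V N) ℝ))) u := by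
  refine (qf_le_iff (ti_PiM_wt b t') (ti_PiM_wt b t)).2 (fun k => ?_) u
  rw [sym_PiM_wt hb ht', sym_PiM_wt hb (ht'.trans_le h)]
  exact Pik_mono hb ht' h k

theorem qf_PiM_wt_nonneg (hb : 0 < b) {t : ℝ} (ht : 0 < t) (u : V N → ℝ) :
    0 ≤ qf (PiM (wT b N) (t • (1 : Matrix (V N) (V N) ℝ))) u := by
  refine (psd_iff (ti_PiM_wt b t)).2 (fun k => ?_) u
  rw [sym_PiM_wt hb ht]
  exact Pik_nonneg hb ht k

theorem qf_Gm_wt_le (hb : 0 ≤ b) {t : ℝ} (ht : 0 < t) (u : V N → ℝ) :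
    qf (Gm (wt N b t)) u ≤ t⁻¹ * ∑ x, u x ^ 2 := by
  rw [← qf_smul_one]
  refine (qf_le_iff (ti_Gm_wt t) (ti_smul_one t⁻¹)).2 (fun k => ?_) u
  rw [sym_Gm_wt, sym_smul_one]
  exact Ght_le_inv hb ht k

/-! ### the second derivative of the free energy -/

/-- `A = M - M G M`, the second derivative at `0` of `F ↦ - log Z_M(F)` -/
def AM (w : (V N → ℤ) → ℝ) (M : Matrix (V N) (V N) ℝ) : Matrix (V N) (V N) ℝ :=
  M - M * Gm (wM w M) * M

theorem ti_AM {w : (V N → ℤ) → ℝ} (hw : TInv w) {M : Matrix (V N) (V N) ℝ} (hM : TI M) :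
    TI (AM w M) := hM.sub ((hM.mul (ti_Gm (tinv_wM hw hM))).mul hM)

theorem sym_AM {w : (V N → ℤ) → ℝ} (hw : TInv w) {M : Matrix (V N) (V N) ℝ} (hM : TI M)
    (k : V N) : sym (AM w M) k = sym M k - sym M k ^ 2 * sym (Gm (wM w M)) k := by
  have hG : TI (Gm (wM w M)) := ti_Gm (tinv_wM hw hM)
  unfold AM
  rw [sym_sub, sym_mul (hM.mul hG) hM, sym_mul hM hG]
  ring

theorem sym_AM_wt (t : ℝ) (k : V N) :
    sym (AM (wT b N) (t • (1 : Matrix (V N) (V N) ℝ))) k = t - t ^ 2 * Ght N b t k := by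
  rw [sym_AM (tinv_wT b) (ti_smul_one t), sym_smul_one]
  rfl

/-- `A = t Π / (t + Π)` -/
theorem sym_AM_wt' (hb : 0 < b) {t : ℝ} (ht : 0 < t) (k : V N) :
    sym (AM (wT b N) (t • (1 : Matrix (V N) (V N) ℝ))) k = t * Pik N b t k / (t + Pik N b t k) := by
  have h := Pik_nonneg (N := N) hb ht k
  rw [sym_AM_wt, Ght_eq_inv hb ht]
  field_simp
  ring

/-- the second derivative of `TM.H104.U` at the background `0` -/
theorem ddU_eq_qf (hb : 0 ≤ b) {ξ : ℝ} (hξ : 0 < ξ) (u : V N → ℝ) :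
    TM.H104.ddU (wT b N) (ms ξ) 0 u u =
      qf (AM (wT b N) ((1 / ξ ^ 2) • (1 : Matrix (V N) (V N) ℝ))) u := by
  rw [TM.H41.ddU_frm hb hξ]
  unfold AM
  rw [qf_sub_mat, qf_smul_one]
  congr 1
  rw [smul_one_mul, mul_smul_one, smul_smul]
  have e : ∀ (c : ℝ) (A : Matrix (V N) (V N) ℝ), qf (c • A) u = c * qf A u := by
    intro c A
    unfold qf
    rw [Finset.mul_sum]
    refine Finset.sum_congr rfl fun x _ => ?_
    rw [Finset.mul_sum]
    exact Finset.sum_congr rfl fun y _ => by rw [Matrix.smul_apply, smul_eq_mul]; ring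
  rw [e]
  have h2 : qf (Gm (wM (wT b N) ((1 / ξ ^ 2) • (1 : Matrix (V N) (V N) ℝ)))) u =
      frm (TM.H41.G b N ξ) u := by
    refine (qf_eq_frm (ti_Gm_wt (b := b) (1 / ξ ^ 2)) u).trans ?_
    congr 1
    funext z
    exact Gt_eq_G hξ z
  rw [h2]
  congr 1
  field_simp

/-- the one scale hypothesis `QU` of the old library, mode by mode -/
theorem QU_iff_sym (hb : 0 ≤ b) {ξ : ℝ} (hξ : 0 < ξ) (y a : ℝ) :
    TM.SpecC.QU (wT b N) ξ y a ↔
      ∀ k : V N, 1 / ξ ^ 2 - (1 / ξ ^ 2) ^ 2 * Ght N b (1 / ξ ^ 2) k ≤ y / ξ ^ 2 + a * EE k := by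
  have hB : TI ((y / ξ ^ 2) • (1 : Matrix (V N) (V N) ℝ) + a • lapM) :=
    (TI.one.smul _).add (ti_lapM.smul _)
  have h := qf_le_iff (ti_AM (tinv_wT b) (ti_smul_one (N := N) (1 / ξ ^ 2))) hB
  simp only [sym_AM_wt, sym_add, sym_smul_one, sym_smul a, sym_lapM] at h
  rw [← h]
  unfold TM.SpecC.QU
  refine forall_congr' fun u => ?_
  rw [ddU_eq_qf hb hξ, qf_add_mat, qf_smul_one, TM.H41.dirE_eq]
  have e : qf (a • (lapM : Matrix (V N) (V N) ℝ)) u = a * grd u := by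
    rw [← qf_lapM]
    unfold qf
    rw [Finset.mul_sum]
    refine Finset.sum_congr rfl fun x _ => ?_
    rw [Finset.mul_sum]
    exact Finset.sum_congr rfl fun y _ => by rw [Matrix.smul_apply, smul_eq_mul]; ring
  rw [e]

/-- the height of the potential: `y_ξ = 1 - t Ĝ_t(0) = Π_t(0) / (t + Π_t(0))` -/
def yt (N : ℕ) [NeZero N] (b t : ℝ) : ℝ := 1 - t * Ght N b t 0

theorem yt_eq (hb : 0 < b) {t : ℝ} (ht : 0 < t) :
    yt N b t = Pik N b t 0 / (t + Pik N b t 0) := by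
  have h := Pik_nonneg (N := N) hb ht 0
  unfold yt
  rw [Ght_eq_inv hb ht]
  field_simp
  ring

theorem yt_nonneg (hb : 0 ≤ b) {t : ℝ} (ht : 0 < t) : 0 ≤ yt N b t := by
  unfold yt
  have h := Ght_le_inv (N := N) hb ht 0
  have h2 : t * Ght N b t 0 ≤ t * t⁻¹ := mul_le_mul_of_nonneg_left h ht.le
  rw [mul_inv_cancel₀ ht.ne'] at h2
  linarith

theorem yt_lt_one (hb : 0 < b) {t : ℝ} (ht : 0 < t) : yt N b t < 1 := by
  unfold yt
  have h := mul_pos ht (Ght_pos (N := N) hb ht 0)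
  linarith

theorem ddU_one_yt (hb : 0 ≤ b) {ξ : ℝ} (hξ : 0 < ξ) :
    TM.H104.ddU (wT b N) (ms ξ) 0 (fun _ => 1) (fun _ => 1) =
      (N : ℝ) ^ 2 / ξ ^ 2 * yt N b (1 / ξ ^ 2) := by
  rw [TM.H41.ddU_one hb hξ]
  unfold yt
  rw [Ght_eq_Gh hξ]
  congr 2
  ring

end

end Vale.Agent.P159.H864
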