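import Vale.Agent.P159.H789.Ray
import Vale.Agent.P159.H789.Tor
import Vale.Agent.P159.H663.Prop
import Vale.Agent.P159.H864.Fou2

/-!
P159 (helper864): domination by the mass form, for every mass form.

`w` bounded, `M` symmetric coercive, `(PK)`:
* `ZM_bdd` : `Z_M(F) ≤ C` for all `F`;
* `Lg_dom` : `log Z(J) - log Z(0) ≤ <J, M⁻¹ J> / 2`, `ZM_le` : `Z_M(F) ≤ Z_M(0)`;
* `Gm_dom` : `G ≤ M⁻¹`;  `qf_inv_anti` : `0 < A ≤ B → B⁻¹ ≤ A⁻¹`;  `PiM_nonneg`, `AM_nonneg`.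
* `PiM_post_le` : `Π_{M'} ≤ Π_M` for `M = M' + Pᵀ P`.
* `inv_gram_le` : `(C G Cᵀ)⁻¹ ≤ C G⁻¹ Cᵀ` for `C Cᵀ = 1`.
-/

set_option linter.unusedSectionVars false

namespace Vale.Agent.P159.H864

open Finset Matrix MeasureTheory
open Vale.Agent.P159.TM.H104 (EM Ex Cv K3 Lg li nh Gr)
open Vale.Agent.P159.H37

noncomputable section

section dom

variable {V : Type*} [Fintype V]

/-- the discrete Gaussian sums are bounded uniformly in the background -/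
lemma gauss_bdd (V : Type*) [Fintype V] {m0 : ℝ} (hm0 : 0 < m0) :
    ∃ C : ℝ, ∀ F : V → ℝ, (Summable fun h : V → ℤ => Real.exp (-(m0 * ∑ x, (re h x - F x) ^ 2 / 2))) ∧
      ∑' h : V → ℤ, Real.exp (-(m0 * ∑ x, (re h x - F x) ^ 2 / 2)) ≤ C := by
  have hE : EM (TM.H104.bw (fun _ : V → ℤ => (1 : ℝ)) fun _ : V => m0 / 2) :=
    TM.H104.em_bw (Wb := 1) (fun _ => by positivity) (fun _ => zero_le_one) (fun _ => le_rfl)
      ⟨0, one_pos⟩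
  have hs : Summable fun h : V → ℤ => Real.exp (-(m0 / 4 * ∑ x, re h x ^ 2)) := by
    refine (hE.sum 0).congr fun h => ?_
    unfold TM.H104.bw TM.H870.gr
    rw [zero_mul, Real.exp_zero, mul_one, one_mul]
    congr 2
    rw [Finset.mul_sum]
    refine Finset.sum_congr rfl fun x _ => ?_
    simp only [Pi.zero_apply, sub_zero, re]
    ring
  set K : ℝ := Real.exp (m0 / 2 * Fintype.card V) with hK
  have hb : ∀ (f : V → ℝ), (∀ x, 0 ≤ f x ∧ f x ≤ 1) → ∀ h : V → ℤ,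
      Real.exp (-(m0 * ∑ x, (re h x - f x) ^ 2 / 2)) ≤
        K * Real.exp (-(m0 / 4 * ∑ x, re h x ^ 2)) := by
    intro f hf h
    rw [hK, ← Real.exp_add]
    refine Real.exp_le_exp.2 ?_
    have h1 : ∀ x, re h x ^ 2 / 4 - 1 / 2 ≤ (re h x - f x) ^ 2 / 2 := by
      intro x
      obtain ⟨h0, h1⟩ := hf x
      nlinarith [sq_nonneg (re h x - 2 * f x)]
    have h2 : ∑ x, (re h x ^ 2 / 4 - 1 / 2) ≤ ∑ x, (re h x - f x) ^ 2 / 2 :=
      Finset.sum_le_sum fun x _ => h1 x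
    rw [Finset.sum_sub_distrib, Finset.sum_const, ← Finset.sum_div, Finset.card_univ,
      nsmul_eq_mul] at h2
    have h3 := mul_le_mul_of_nonneg_left h2 hm0.le
    have h4 : ∑ x, (re h x - f x) ^ 2 / 2 = ∑ x, (re h x - f x) ^ 2 / 2 := rfl
    nlinarith
  have hf : ∀ (f : V → ℝ), (∀ x, 0 ≤ f x ∧ f x ≤ 1) →
      (Summable fun h : V → ℤ => Real.exp (-(m0 * ∑ x, (re h x - f x) ^ 2 / 2))) ∧
      ∑' h : V → ℤ, Real.exp (-(m0 * ∑ x, (re h x - f x) ^ 2 / 2)) ≤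
        K * ∑' h : V → ℤ, Real.exp (-(m0 / 4 * ∑ x, re h x ^ 2)) := by
    intro f hf
    have hs1 := hs.mul_left K
    have hs2 : Summable fun h : V → ℤ => Real.exp (-(m0 * ∑ x, (re h x - f x) ^ 2 / 2)) :=
      Summable.of_nonneg_of_le (fun h => (Real.exp_pos _).le) (hb f hf) hs1
    refine ⟨hs2, ?_⟩
    rw [← tsum_mul_left]
    exact hs2.tsum_le_tsum (hb f hf) hs1
  refine ⟨K * ∑' h : V → ℤ, Real.exp (-(m0 / 4 * ∑ x, re h x ^ 2)), fun F => ?_⟩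
  have e : ∀ h : V → ℤ, Real.exp (-(m0 * ∑ x, (re (h + fun x => ⌊F x⌋) x - F x) ^ 2 / 2)) =
      Real.exp (-(m0 * ∑ x, (re h x - Int.fract (F x)) ^ 2 / 2)) := by
    intro h
    congr 4
    funext x
    have : (re (h + fun x => ⌊F x⌋) x - F x) = re h x - Int.fract (F x) := by
      unfold re Int.fract
      simp only [Pi.add_apply]
      push_cast
      ring
    rw [this]
  obtain ⟨h1, h2⟩ := hf (fun x => Int.fract (F x)) fun x => ⟨Int.fract_nonneg _, (Int.fract_lt_one _).le⟩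
  constructor
  · rw [← (Equiv.addRight fun x => ⌊F x⌋).summable_iff]
    exact h1.congr fun h => (e h).symm
  · rw [← (Equiv.addRight fun x => ⌊F x⌋).tsum_eq]
    refine (le_of_eq ?_).trans h2
    exact tsum_congr e

/-- the partition function is bounded uniformly in the background -/
theorem ZM_bdd {w : (V → ℤ) → ℝ} {Wb : ℝ} (hw0 : ∀ h, 0 ≤ w h) (hwb : ∀ h, w h ≤ Wb)
    {M : Matrix V V ℝ} {m0 : ℝ} (hm0 : 0 < m0) (hM : ∀ u : V → ℝ, m0 * ∑ x, u x ^ 2 ≤ qf M u) :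
    ∃ C : ℝ, 0 < C ∧ ∀ F : V → ℝ, ZM w M F ≤ C := by
  obtain ⟨C, hC⟩ := gauss_bdd V hm0
  have hW : 0 ≤ Wb := (hw0 0).trans (hwb 0)
  have h0 : 0 ≤ C := (tsum_nonneg fun h => (Real.exp_pos _).le).trans (hC 0).2
  refine ⟨Wb * C + 1, by nlinarith [mul_nonneg hW h0], fun F => ?_⟩
  obtain ⟨h1, h2⟩ := hC F
  have hle : ∀ h : V → ℤ, w h * Real.exp (-(qf M (re h - F) / 2)) ≤
      Wb * Real.exp (-(m0 * ∑ x, (re h x - F x) ^ 2 / 2)) := by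
    intro h
    refine mul_le_mul (hwb h) (Real.exp_le_exp.2 ?_) (Real.exp_pos _).le hW
    have h3 := hM (re h - F)
    simp only [Pi.sub_apply] at h3
    rw [← Finset.sum_div]
    linarith
  have hs := h1.mul_left Wb
  unfold ZM
  have hs2 : Summable fun h : V → ℤ => w h * Real.exp (-(qf M (re h - F) / 2)) :=
    Summable.of_nonneg_of_le (fun h => mul_nonneg (hw0 h) (Real.exp_pos _).le) hle hs
  have h4 := hs2.tsum_le_tsum hle hs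
  rw [tsum_mul_left] at h4
  have h5 := mul_le_mul_of_nonneg_left h2 hW
  linarith

variable [DecidableEq V]

lemma pow_pos_of_ne {a : ℝ} (h : a ≠ 0) : 0 < a ^ 2 := by positivity

/-- a coercive matrix is invertible -/
theorem coer_det {M : Matrix V V ℝ} {m0 : ℝ} (hm0 : 0 < m0)
    (hM : ∀ u : V → ℝ, m0 * ∑ x, u x ^ 2 ≤ qf M u) : IsUnit M.det := by
  rw [isUnit_iff_ne_zero]
  intro h
  obtain ⟨v, hv, h1⟩ := Matrix.exists_mulVec_eq_zero_iff.2 h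
  have h2 := hM v
  rw [qf_eq, h1, dotProduct_zero] at h2
  have h3 : 0 < ∑ x, v x ^ 2 := by
    obtain ⟨x, hx⟩ := Function.ne_iff.1 hv
    exact Finset.sum_pos' (fun _ _ => sq_nonneg _) ⟨x, Finset.mem_univ _, pow_pos_of_ne hx⟩
  nlinarith

/-- a positive definite matrix (quadratic form) is invertible -/
theorem pd_det {A : Matrix V V ℝ} (hA : ∀ u : V → ℝ, u ≠ 0 → 0 < qf A u) : IsUnit A.det := by
  rw [isUnit_iff_ne_zero]
  intro h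
  obtain ⟨v, hv, h1⟩ := Matrix.exists_mulVec_eq_zero_iff.2 h
  have h2 := hA v hv
  rw [qf_eq, h1, dotProduct_zero] at h2
  exact lt_irrefl _ h2

/-- `log Z(J) = <J, M⁻¹ J>/2 + log Z_M(M⁻¹ J)` -/
theorem Lg_eq_ZM (w : (V → ℤ) → ℝ) {M : Matrix V V ℝ} (hMs : Mᵀ = M) (hd : IsUnit M.det)
    (hE : EM (wM w M)) (J : V → ℝ) :
    Lg (wM w M) J = qf M⁻¹ J / 2 + Real.log (ZM w M (M⁻¹ *ᵥ J)) := by
  have h1 := ZM_eq w hMs (M⁻¹ *ᵥ J)
  rw [Matrix.mulVec_mulVec, Matrix.mul_nonsing_inv _ hd, Matrix.one_mulVec] at h1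
  have h2 : qf M (M⁻¹ *ᵥ J) = qf M⁻¹ J := by
    rw [qf_eq, qf_eq, Matrix.mulVec_mulVec, Matrix.mul_nonsing_inv _ hd, Matrix.one_mulVec,
      dotProduct_comm]
  rw [h1, h2, Real.log_mul (Real.exp_pos _).ne' (Zs_pos hE J).ne', Real.log_exp]
  have h3 : Real.log (Zs (wM w M) J) = Lg (wM w M) J := rfl
  rw [h3]
  ring

/-- **domination**: sub-Gaussian bound with the mass form -/
theorem Lg_dom {w : (V → ℤ) → ℝ} {Wb : ℝ} (hw0 : ∀ h, 0 ≤ w h) (hwb : ∀ h, w h ≤ Wb)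
    {M : Matrix V V ℝ} (hMs : Mᵀ = M) {m0 : ℝ} (hm0 : 0 < m0)
    (hM : ∀ u : V → ℝ, m0 * ∑ x, u x ^ 2 ≤ qf M u) (hE : EM (wM w M)) (he : Ev (wM w M))
    (hK : PK (wM w M)) (J : V → ℝ) :
    Lg (wM w M) J - Lg (wM w M) 0 ≤ qf M⁻¹ J / 2 := by
  obtain ⟨C, hC0, hC⟩ := ZM_bdd hw0 hwb hm0 hM
  have hd := coer_det hm0 hM
  have hup : ∀ J : V → ℝ, Lg (wM w M) J - Lg (wM w M) 0 ≤
      qf M⁻¹ J / 2 + (Real.log C - Lg (wM w M) 0) := by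
    intro J
    rw [Lg_eq_ZM w hMs hd hE J]
    have h1 : Real.log (ZM w M (M⁻¹ *ᵥ J)) ≤ Real.log C :=
      Real.log_le_log (ZM_pos hMs hE _) (hC _)
    linarith
  have hdb : ∀ n : ℕ, ∀ J : V → ℝ, (4 : ℝ) ^ n * (Lg (wM w M) J - Lg (wM w M) 0) ≤
      Lg (wM w M) ((2 : ℝ) ^ n • J) - Lg (wM w M) 0 := by
    intro n
    induction n with
    | zero => intro J; simp
    | succ n ih =>
      intro J
      have h1 := ih ((2 : ℝ) • J)
      have h2 := H789.Tq_nonneg hE he hK J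
      unfold Tq at h2
      rw [smul_smul, ← pow_succ] at h1
      refine le_trans ?_ h1
      rw [pow_succ, mul_assoc]
      exact mul_le_mul_of_nonneg_left (by linarith) (by positivity)
  have hfin : ∀ n : ℕ, Lg (wM w M) J - Lg (wM w M) 0 - qf M⁻¹ J / 2 ≤
      (Real.log C - Lg (wM w M) 0) * ((1 : ℝ) / 4) ^ n := by
    intro n
    have h1 := hdb n J
    have h2 := hup ((2 : ℝ) ^ n • J)
    rw [qf_smul] at h2
    have h4 : ((2 : ℝ) ^ n) ^ 2 = 4 ^ n := by rw [← pow_mul, mul_comm, pow_mul]; norm_num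
    rw [h4] at h2
    have h5 : (0 : ℝ) < 4 ^ n := by positivity
    have h6 : (4 : ℝ) ^ n * (1 / 4) ^ n = 1 := by rw [← mul_pow]; norm_num
    have h7 : (4 : ℝ) ^ n * (Lg (wM w M) J - Lg (wM w M) 0 - qf M⁻¹ J / 2) ≤
        (4 : ℝ) ^ n * ((Real.log C - Lg (wM w M) 0) * (1 / 4) ^ n) := by
      have : (4 : ℝ) ^ n * ((Real.log C - Lg (wM w M) 0) * (1 / 4) ^ n) =
          Real.log C - Lg (wM w M) 0 := by
        rw [mul_left_comm, h6, mul_one]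
      rw [this]
      linarith
    exact le_of_mul_le_mul_left h7 h5
  have hlim : Filter.Tendsto (fun n : ℕ => (Real.log C - Lg (wM w M) 0) * ((1 : ℝ) / 4) ^ n)
      Filter.atTop (nhds ((Real.log C - Lg (wM w M) 0) * 0)) :=
    (tendsto_pow_atTop_nhds_zero_of_lt_one (by norm_num) (by norm_num)).const_mul _
  rw [mul_zero] at hlim
  have h := ge_of_tendsto' hlim hfin
  linarith

/-- `Z_M(F) ≤ Z_M(0)` -/
theorem ZM_le {w : (V → ℤ) → ℝ} {Wb : ℝ} (hw0 : ∀ h, 0 ≤ w h) (hwb : ∀ h, w h ≤ Wb)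
    {M : Matrix V V ℝ} (hMs : Mᵀ = M) {m0 : ℝ} (hm0 : 0 < m0)
    (hM : ∀ u : V → ℝ, m0 * ∑ x, u x ^ 2 ≤ qf M u) (hE : EM (wM w M)) (he : Ev (wM w M))
    (hK : PK (wM w M)) (F : V → ℝ) : ZM w M F ≤ ZM w M 0 := by
  have hd := coer_det hm0 hM
  have h1 := Lg_dom hw0 hwb hMs hm0 hM hE he hK (M *ᵥ F)
  rw [Lg_eq_ZM w hMs hd hE, Lg_eq_ZM w hMs hd hE, Matrix.mulVec_mulVec,
    Matrix.nonsing_inv_mul _ hd, Matrix.one_mulVec, Matrix.mulVec_zero, qf_zero_vec] at h1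
  have h2 := ZM_pos hMs hE F
  have h3 := ZM_pos hMs hE 0
  rw [← Real.log_le_log_iff h2 h3]
  linarith

/-- `G ≤ M⁻¹` -/
theorem Gm_dom {w : (V → ℤ) → ℝ} {Wb : ℝ} (hw0 : ∀ h, 0 ≤ w h) (hwb : ∀ h, w h ≤ Wb)
    {M : Matrix V V ℝ} (hMs : Mᵀ = M) {m0 : ℝ} (hm0 : 0 < m0)
    (hM : ∀ u : V → ℝ, m0 * ∑ x, u x ^ 2 ≤ qf M u) (hE : EM (wM w M)) (he : Ev (wM w M))
    (hK : PK (wM w M)) (u : V → ℝ) : qf (Gm (wM w M)) u ≤ qf M⁻¹ u := by
  have h1 := Lg_dom hw0 hwb hMs hm0 hM hE he hK u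
  have h2 := H789.Rs_nonneg hE he hK u
  unfold Rs at h2
  linarith

/-! ### matrices -/

/-- Cauchy-Schwarz for a positive semidefinite form -/
theorem bf_sq_le {A : Matrix V V ℝ} (hAs : Aᵀ = A) (hA : ∀ u, 0 ≤ qf A u) (u v : V → ℝ) :
    bf A u v ^ 2 ≤ qf A u * qf A v := by
  have key : ∀ s : ℝ, 0 ≤ qf A v * (s * s) + (2 * bf A u v) * s + qf A u := by
    intro s
    have h := hA (u + s • v)
    rw [qf_add_vec hAs, bf_smul_right, qf_smul] at h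
    nlinarith
  have h := discrim_le_zero key
  unfold discrim at h
  nlinarith

/-- Cauchy-Schwarz between a form and its inverse -/
theorem dot_sq_le {A : Matrix V V ℝ} (hAs : Aᵀ = A) (hA : ∀ u : V → ℝ, u ≠ 0 → 0 < qf A u)
    (u v : V → ℝ) : (u ⬝ᵥ v) ^ 2 ≤ qf A⁻¹ u * qf A v := by
  have hd := pd_det hA
  have h0 : ∀ u, 0 ≤ qf A u := fun u => by
    by_cases hu : u = 0
    · rw [hu, qf_zero_vec]
    · exact (hA u hu).le
  have h := bf_sq_le hAs h0 (A⁻¹ *ᵥ u) v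
  have e1 : bf A (A⁻¹ *ᵥ u) v = u ⬝ᵥ v := by
    rw [bf_comm hAs, bf_eq, Matrix.mulVec_mulVec, Matrix.mul_nonsing_inv _ hd, Matrix.one_mulVec,
      dotProduct_comm]
  have e2 : qf A (A⁻¹ *ᵥ u) = qf A⁻¹ u := by
    rw [qf_eq, qf_eq, Matrix.mulVec_mulVec, Matrix.mul_nonsing_inv _ hd, Matrix.one_mulVec,
      dotProduct_comm]
  rw [e1, e2] at h
  exact h

/-- the inverse of a positive definite form is positive definite -/
theorem pd_inv {A : Matrix V V ℝ} (hA : ∀ u : V → ℝ, u ≠ 0 → 0 < qf A u) {u : V → ℝ}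
    (hu : u ≠ 0) : 0 < qf A⁻¹ u := by
  have hd := pd_det hA
  have e2 : qf A⁻¹ u = qf A (A⁻¹ *ᵥ u) := by
    rw [qf_eq, qf_eq, Matrix.mulVec_mulVec, Matrix.mul_nonsing_inv _ hd, Matrix.one_mulVec,
      dotProduct_comm]
  rw [e2]
  refine hA _ fun h => hu ?_
  have h2 : A *ᵥ (A⁻¹ *ᵥ u) = 0 := by rw [h, Matrix.mulVec_zero]
  rwa [Matrix.mulVec_mulVec, Matrix.mul_nonsing_inv _ hd, Matrix.one_mulVec] at h2

theorem psd_inv {A : Matrix V V ℝ} (hA : ∀ u : V → ℝ, u ≠ 0 → 0 < qf A u) (u : V → ℝ) :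
    0 ≤ qf A⁻¹ u := by
  by_cases hu : u = 0
  · rw [hu, qf_zero_vec]
  · exact (pd_inv hA hu).le

/-- the inverse is antitone -/
theorem qf_inv_anti {A B : Matrix V V ℝ} (hAs : Aᵀ = A) (_hBs : Bᵀ = B)
    (hA : ∀ u : V → ℝ, u ≠ 0 → 0 < qf A u) (h : ∀ u, qf A u ≤ qf B u) (u : V → ℝ) :
    qf B⁻¹ u ≤ qf A⁻¹ u := by
  have hB : ∀ u : V → ℝ, u ≠ 0 → 0 < qf B u := fun u hu => (hA u hu).trans_le (h u)
  by_cases hu : u = 0
  · rw [hu, qf_zero_vec, qf_zero_vec]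
  have hd := pd_det hB
  have h1 := dot_sq_le hAs hA u (B⁻¹ *ᵥ u)
  have e1 : u ⬝ᵥ (B⁻¹ *ᵥ u) = qf B⁻¹ u := (qf_eq _ _).symm
  have e2 : qf B (B⁻¹ *ᵥ u) = qf B⁻¹ u := by
    rw [qf_eq, qf_eq, Matrix.mulVec_mulVec, Matrix.mul_nonsing_inv _ hd, Matrix.one_mulVec,
      dotProduct_comm]
  have h2 := h (B⁻¹ *ᵥ u)
  rw [e2] at h2
  rw [e1] at h1
  have h3 := pd_inv hB hu
  have h4 := pd_inv hA hu
  have h5 : qf B⁻¹ u * qf B⁻¹ u ≤ qf A⁻¹ u * qf B⁻¹ u := by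
    rw [← pow_two]
    exact h1.trans (mul_le_mul_of_nonneg_left h2 h4.le)
  exact le_of_mul_le_mul_right h5 h3

theorem inv_symm {A : Matrix V V ℝ} (hAs : Aᵀ = A) : A⁻¹ᵀ = A⁻¹ := by
  rw [Matrix.transpose_nonsing_inv, hAs]

/-- `A ≤ B⁻¹` is equivalent to `B ≤ A⁻¹` -/
theorem qf_le_inv {A B : Matrix V V ℝ} (hAs : Aᵀ = A) (hBs : Bᵀ = B)
    (hA : ∀ u : V → ℝ, u ≠ 0 → 0 < qf A u) (hB : ∀ u : V → ℝ, u ≠ 0 → 0 < qf B u)
    (h : ∀ u, qf A u ≤ qf B⁻¹ u) (u : V → ℝ) : qf B u ≤ qf A⁻¹ u := by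
  have h1 := qf_inv_anti hAs (inv_symm hBs) hA h u
  rwa [Matrix.nonsing_inv_nonsing_inv _ (pd_det hB)] at h1

/-- `(C G Cᵀ)⁻¹ ≤ C G⁻¹ Cᵀ` for `C Cᵀ = 1` -/
theorem inv_gram_le {I : Type*} [Fintype I] [DecidableEq I] {C : Matrix I V ℝ} (hC : C * Cᵀ = 1)
    {G : Matrix V V ℝ} (hGs : Gᵀ = G) (hG : ∀ u : V → ℝ, u ≠ 0 → 0 < qf G u) (φ : I → ℝ) :
    qf (C * G * Cᵀ)⁻¹ φ ≤ qf (C * G⁻¹ * Cᵀ) φ := by
  have hinj : ∀ φ : I → ℝ, Cᵀ *ᵥ φ = 0 → φ = 0 := fun φ h => by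
    have h2 : C *ᵥ (Cᵀ *ᵥ φ) = 0 := by rw [h, Matrix.mulVec_zero]
    rwa [Matrix.mulVec_mulVec, hC, Matrix.one_mulVec] at h2
  have hq : ∀ (A : Matrix V V ℝ) (φ : I → ℝ), qf (C * A * Cᵀ) φ = qf A (Cᵀ *ᵥ φ) := fun A φ => by
    rw [qf_eq, qf_eq, ← Matrix.mulVec_mulVec, ← Matrix.mulVec_mulVec, Matrix.dotProduct_mulVec,
      ← Matrix.mulVec_transpose]
  have hpd : ∀ φ : I → ℝ, φ ≠ 0 → 0 < qf (C * G * Cᵀ) φ := fun φ hφ => by
    rw [hq]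
    exact hG _ fun h => hφ (hinj φ h)
  by_cases hφ : φ = 0
  · rw [hφ, qf_zero_vec, qf_zero_vec]
  have hd := pd_det hpd
  set ψ := (C * G * Cᵀ)⁻¹ *ᵥ φ with hψ
  have e1 : qf (C * G * Cᵀ)⁻¹ φ = (Cᵀ *ᵥ φ) ⬝ᵥ (Cᵀ *ᵥ ψ) := by
    rw [Matrix.dotProduct_mulVec, Matrix.vecMul_transpose, Matrix.mulVec_mulVec, hC,
      Matrix.one_mulVec, qf_eq]
  have e2 : qf (C * G * Cᵀ)⁻¹ φ = qf G (Cᵀ *ᵥ ψ) := by
    rw [← hq, hψ, qf_eq, qf_eq, Matrix.mulVec_mulVec, Matrix.mul_nonsing_inv _ hd,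
      Matrix.one_mulVec, dotProduct_comm]
  have h1 := dot_sq_le hGs hG (Cᵀ *ᵥ φ) (Cᵀ *ᵥ ψ)
  rw [← e1, ← e2] at h1
  have h3 := pd_inv hpd hφ
  rw [hq]
  have h4 : qf (C * G * Cᵀ)⁻¹ φ * qf (C * G * Cᵀ)⁻¹ φ ≤
      qf G⁻¹ (Cᵀ *ᵥ φ) * qf (C * G * Cᵀ)⁻¹ φ := by
    rw [← pow_two]
    exact h1
  exact le_of_mul_le_mul_right h4 h3

/-! ### the self energy -/

/-- the standing hypotheses: bounded even weight with (PK), symmetric coercive mass -/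
structure DM (w : (V → ℤ) → ℝ) (M : Matrix V V ℝ) : Prop where
  nn : ∀ h, 0 ≤ w h
  bdd : ∃ Wb, ∀ h, w h ≤ Wb
  symm : Mᵀ = M
  coer : ∃ m0 : ℝ, 0 < m0 ∧ ∀ u : V → ℝ, m0 * ∑ x, u x ^ 2 ≤ qf M u
  em : EM (wM w M)
  ev : Ev (wM w M)
  pk : PK (wM w M)
  gpos : ∀ u : V → ℝ, u ≠ 0 → 0 < qf (Gm (wM w M)) u

variable {w : (V → ℤ) → ℝ} {M : Matrix V V ℝ}

theorem DM.pos (h : DM w M) {u : V → ℝ} (hu : u ≠ 0) : 0 < qf M u := by
  obtain ⟨m0, hm0, hM⟩ := h.coer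
  have h3 : 0 < ∑ x, u x ^ 2 := by
    obtain ⟨x, hx⟩ := Function.ne_iff.1 hu
    exact Finset.sum_pos' (fun _ _ => sq_nonneg _) ⟨x, Finset.mem_univ _, pow_pos_of_ne hx⟩
  exact (mul_pos hm0 h3).trans_le (hM u)

theorem DM.det (h : DM w M) : IsUnit M.det := pd_det fun _ hu => h.pos hu

theorem DM.gdet (h : DM w M) : IsUnit (Gm (wM w M)).det := pd_det h.gpos

theorem DM.gsymm (_h : DM w M) : (Gm (wM w M))ᵀ = Gm (wM w M) := by
  ext x y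
  exact Cm_symm _ _ _

theorem DM.Lg_le (h : DM w M) (J : V → ℝ) : Lg (wM w M) J - Lg (wM w M) 0 ≤ qf M⁻¹ J / 2 := by
  obtain ⟨Wb, hwb⟩ := h.bdd
  obtain ⟨m0, hm0, hM⟩ := h.coer
  exact Lg_dom h.nn hwb h.symm hm0 hM h.em h.ev h.pk J

theorem DM.ZM_le (h : DM w M) (F : V → ℝ) : ZM w M F ≤ ZM w M 0 := by
  obtain ⟨Wb, hwb⟩ := h.bdd
  obtain ⟨m0, hm0, hM⟩ := h.coer
  exact H864.ZM_le h.nn hwb h.symm hm0 hM h.em h.ev h.pk F

theorem DM.G_le (h : DM w M) (u : V → ℝ) : qf (Gm (wM w M)) u ≤ qf M⁻¹ u := by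
  obtain ⟨Wb, hwb⟩ := h.bdd
  obtain ⟨m0, hm0, hM⟩ := h.coer
  exact Gm_dom h.nn hwb h.symm hm0 hM h.em h.ev h.pk u

/-- `M ≤ G⁻¹` -/
theorem DM.M_le (h : DM w M) (u : V → ℝ) : qf M u ≤ qf (Gm (wM w M))⁻¹ u :=
  qf_le_inv h.gsymm h.symm h.gpos (fun _ hu => h.pos hu) h.G_le u

lemma qf_sub_mat' (A B : Matrix V V ℝ) (u : V → ℝ) : qf (A - B) u = qf A u - qf B u := by
  simp only [qf_eq, Matrix.sub_mulVec, dotProduct_sub]

/-- the self energy is positive semidefinite -/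
theorem DM.PiM_nonneg (h : DM w M) (u : V → ℝ) : 0 ≤ qf (PiM w M) u := by
  unfold PiM
  rw [qf_sub_mat']
  exact sub_nonneg.2 (h.M_le u)

/-- the second derivative of the free energy is positive semidefinite -/
theorem DM.A_nonneg (h : DM w M) (u : V → ℝ) : 0 ≤ qf (M - M * Gm (wM w M) * M) u := by
  have e1 : qf (M * Gm (wM w M) * M) u = qf (Gm (wM w M)) (M *ᵥ u) := by
    rw [qf_eq, qf_eq, ← Matrix.mulVec_mulVec, ← Matrix.mulVec_mulVec, Matrix.dotProduct_mulVec,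
      ← Matrix.mulVec_transpose, h.symm]
  have e2 : qf M⁻¹ (M *ᵥ u) = qf M u := by
    rw [qf_eq, qf_eq, Matrix.mulVec_mulVec, Matrix.nonsing_inv_mul _ h.det, Matrix.one_mulVec,
      dotProduct_comm]
  rw [qf_sub_mat', e1, ← e2]
  exact sub_nonneg.2 (h.G_le _)

/-- covariances are larger in every real background -/
theorem DM.gc (h : DM w M) (J u : V → ℝ) : qf (Gm (wM w M)) u ≤ qf (Cm (wM w M) J) u :=
  H789.qf_mono h.em h.ev h.pk J u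

/-- **the self energy increases with the mass**: `Π_{M'} ≤ Π_M`, `M = M' + Pᵀ P` -/
theorem PiM_le {I : Type*} [Fintype I] {M' : Matrix V V ℝ} {P : Matrix I V ℝ} (h' : DM w M')
    (h : DM w (M' + Pᵀ * P)) (u : V → ℝ) : qf (PiM w M') u ≤ qf (PiM w (M' + Pᵀ * P)) u := by
  set Q := Pᵀ * P with hQ
  have hQs : Qᵀ = Q := by rw [hQ, Matrix.transpose_mul, Matrix.transpose_transpose]
  set G := Gm (wM w (M' + Q)) with hG
  have hGs : Gᵀ = G := h.gsymm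
  set K := G⁻¹ - Q with hK
  have hKs : Kᵀ = K := by rw [hK, Matrix.transpose_sub, inv_symm hGs, hQs]
  have hKpos : ∀ u : V → ℝ, u ≠ 0 → 0 < qf K u := fun u hu => by
    have h1 := h.M_le u
    rw [← hG] at h1
    have h2 := h'.pos hu
    rw [hK, qf_sub_mat']
    rw [qf_add_mat] at h1
    linarith
  have hKd := pd_det hKpos
  have hpost : post (wM w M') P = wM w (M' + Q) := post_wM w M' P
  -- the inequality on all vectors
  have h1 : ∀ v : V → ℝ, qf K⁻¹ v ≤ qf (Gm (wM w M')) v := by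
    intro v
    have hg := H663.Gm_ge h'.em P (b := G⁻¹ *ᵥ (K⁻¹ *ᵥ v)) (e := v) (by
      intro J u
      rw [hpost]
      exact h.gc J u) (by
      rw [hpost, ← hG, Matrix.mulVec_mulVec (K⁻¹ *ᵥ v) G, Matrix.mul_nonsing_inv _ h.gdet,
        Matrix.one_mulVec, Matrix.mulVec_mulVec _ Pᵀ P, ← hQ, ← Matrix.sub_mulVec, ← hK,
        Matrix.mulVec_mulVec, Matrix.mul_nonsing_inv _ hKd, Matrix.one_mulVec])
    rw [hpost, ← hG, bf_comm hGs, bf_eq, Matrix.mulVec_mulVec, Matrix.mul_nonsing_inv _ h.gdet,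
      Matrix.one_mulVec, ← qf_eq] at hg
    exact hg
  have hGd' := h'.gdet
  have h2 := qf_inv_anti (inv_symm hKs) h'.gsymm (fun v hv => pd_inv hKpos hv) h1 u
  rw [Matrix.nonsing_inv_nonsing_inv _ hKd] at h2
  unfold PiM
  rw [← hG, qf_sub_mat', qf_sub_mat', qf_add_mat]
  rw [hK, qf_sub_mat'] at h2
  linarith

end dom

/-! ### the torus -/

section torus

open Vale.Agent.P159.TM.Spec (V)
open Vale.Agent.P159.TM.SpecC (wT)

variable {N : ℕ} [NeZero N] {b : ℝ}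

/-- the torus weight with any coercive mass form -/
theorem dm_wT (hb : 0 < b) {M : Matrix (V N) (V N) ℝ} (hMs : Mᵀ = M) {m0 : ℝ} (hm0 : 0 < m0)
    (hM : ∀ u : V N → ℝ, m0 * ∑ x, u x ^ 2 ≤ qf M u) : DM (wT b N) M where
  nn := wT_nonneg hb.le
  bdd := (TM.H41.wt_wT (N := N) hb.le).bdd
  symm := hMs
  coer := ⟨m0, hm0, hM⟩
  em := em_wTM hb.le hm0 hM
  ev := ev_wTM M
  pk := H789.pk_wM_wT' hb.le hm0 hM
  gpos := fun _ hu => qf_Cm_pos (em_wTM hb.le hm0 hM) (wM_pos hb M) 0 hu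

end torus

end

end Vale.Agent.P159.H864
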