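import Vale.Agent.P159.H864.Cel1
import Vale.Agent.P159.H864.Dom

/-!
P159, module CELL (helper864), part 3: the cell covariance `Gc(τ)` and the cell self energy.

* `dm_MC` : the standing hypotheses `DM` for the masses `t (1 - P) + τ P`.
* `Gck N l b t τ k`, `PiCk N l b t τ k` : symbols of the cell covariance / cell self energy of the
  prior with mass `MC N l t τ`, on the cell torus `V (N / l)`.
  `Gck_pos`, `Gck_le`, `PiCk_nonneg`, `PiCk_mono`, `Gck_neg/_ref/_swp`, `PiCk_le_Gc_PiM` (Jensen).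
* `Ech_reindex`, `Ech_cob`, `Ech_tra`, `ti_Gc_Cbar` : the channel in cell letters.
-/

set_option linter.unusedSectionVars false

namespace Vale.Agent.P159.H864

open Finset Matrix MeasureTheory
open Vale.Agent.P159.TM.H764 (Gh cN sN dt ch EE frm grd)
open Vale.Agent.P159.TM.H104 (EM Ex Cv K3 Lg li nh Gr)
open Vale.Agent.P159.H37
open Vale.Agent.P159.TM.Spec (V)
open Vale.Agent.P159.TM.SpecC (wT ms)

noncomputable section

/-! ### symmetries of symbols -/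

section symm

variable {N : ℕ} [NeZero N] {A : Matrix (V N) (V N) ℝ}

lemma sym_ref (h : ∀ z : V N, A 0 (-z.1, z.2) = A 0 z) (k : V N) :
    sym A (-k.1, k.2) = sym A k := by
  unfold sym Gh
  rw [← Equiv.sum_comp (ref1 (N := N))]
  refine Finset.sum_congr rfl fun z _ => ?_
  have e : ref1 z = (-z.1, z.2) := rfl
  rw [e, h]
  congr 2
  simp only [neg_mul_neg]

lemma sym_swp (h : ∀ z : V N, A 0 (z.2, z.1) = A 0 z) (k : V N) :
    sym A (k.2, k.1) = sym A k := by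
  unfold sym Gh
  rw [← Equiv.sum_comp (swp (N := N))]
  refine Finset.sum_congr rfl fun z _ => ?_
  have e : swp z = (z.2, z.1) := rfl
  rw [e, h]
  congr 2
  simp only
  ring

end symm

section cell

variable {N l : ℕ} [NeZero N] [NeZero (N / l)] {b t τ : ℝ}

/-! ### permutations compatible with the cells -/

lemma Gc_perm {e : Equiv.Perm (V N)} {e' : Equiv.Perm (V (N / l))}
    (hc : ∀ x : V N, cl (e x) = e' (cl x)) {A : Matrix (V N) (V N) ℝ}
    (hA : ∀ x y, A (e x) (e y) = A x y) (c c' : V (N / l)) :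
    Gc l A (e' c) (e' c') = Gc l A c c' := by
  have h : ∀ (c : V (N / l)) (f : V N → ℝ),
      ∑ x ∈ univ.filter (fun x : V N => cl x = e' c), f x =
        ∑ x ∈ univ.filter (fun x : V N => cl x = c), f (e x) := by
    intro c f
    rw [Finset.sum_filter, Finset.sum_filter, ← Equiv.sum_comp e]
    refine Finset.sum_congr rfl fun x _ => ?_
    rw [hc x]
    simp only [EmbeddingLike.apply_eq_iff_eq]
  rw [Gc_apply, Gc_apply, h]
  congr 1
  refine Finset.sum_congr rfl fun x _ => ?_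
  rw [h]
  exact Finset.sum_congr rfl fun y _ => hA x y

lemma cellP_perm (hl : l ∣ N) {e : Equiv.Perm (V N)} {e' : Equiv.Perm (V (N / l))}
    (hc : ∀ x : V N, cl (e x) = e' (cl x)) (x y : V N) :
    cellP N l (e x) (e y) = cellP N l x y := by
  rw [cellP_apply hl, cellP_apply hl, hc, hc]
  simp only [EmbeddingLike.apply_eq_iff_eq]

lemma MC_perm (hl : l ∣ N) {e : Equiv.Perm (V N)} {e' : Equiv.Perm (V (N / l))}
    (hc : ∀ x : V N, cl (e x) = e' (cl x)) (t τ : ℝ) (x y : V N) :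
    MC N l t τ (e x) (e y) = MC N l t τ x y := by
  rw [MC_eq, Matrix.sub_apply, Matrix.sub_apply, Matrix.smul_apply, Matrix.smul_apply,
    Matrix.smul_apply, Matrix.smul_apply, cellP_perm hl hc, Matrix.one_apply, Matrix.one_apply]
  simp only [EmbeddingLike.apply_eq_iff_eq]

lemma cobV_perm {e : Equiv.Perm (V N)} {e' : Equiv.Perm (V (N / l))}
    (hc : ∀ x : V N, cl (e x) = e' (cl x)) (c : V (N / l)) (x : V N) :
    cobV N l (e' c) (e x) = cobV N l c x := by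
  rw [cobV_apply, cobV_apply, hc]
  simp only [EmbeddingLike.apply_eq_iff_eq]

/-- the reflection of the torus which maps cells to cells -/
def rfc (N : ℕ) [NeZero N] : Equiv.Perm (V N) := ref1.trans (tra (-1, 0))

lemma rfc_apply (x : V N) : rfc N x = (-x.1 + -1, x.2 + 0) := rfl

lemma cl1_rf (hl : l ∣ N) (z : ZMod N) : (cl1 (-z + -1) : ZMod (N / l)) = -cl1 z + -1 := by
  have hlp := l_pos hl
  set n := N / l with hn
  have hN : l * n = N := Nat.mul_div_cancel' hl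
  set m := z.val with hm
  have hmN : m < N := ZMod.val_lt z
  have hq : m / l < n := Nat.div_lt_div_of_lt_of_dvd hl hmN
  have h1 : -z + -1 = (((N - 1 - m : ℕ)) : ZMod N) := by
    rw [Nat.sub_sub, Nat.cast_sub (by omega), ZMod.natCast_self]
    push_cast
    rw [hm, ZMod.natCast_zmod_val]
    ring
  have h2 : ((((N - 1 - m : ℕ)) : ZMod N)).val = N - 1 - m :=
    ZMod.val_cast_of_lt (by omega)
  have h3 : (N - 1 - m) / l = n - 1 - m / l := by
    have hr := Nat.div_add_mod m l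
    have hr2 := Nat.mod_lt m hlp
    set q := m / l with hq'
    set r := m % l with hr'
    have e1 : N - 1 - m = l * (n - 1 - q) + (l - 1 - r) := by
      have e2 : l * (n - 1 - q) = l * n - l - l * q := by
        rw [Nat.mul_sub, Nat.mul_sub, mul_one]
      have e3 : l * (q + 1) ≤ l * n := Nat.mul_le_mul_left l hq
      rw [Nat.mul_add, mul_one] at e3
      rw [e2, ← hN, ← hr]
      omega
    rw [e1, Nat.mul_add_div hlp, Nat.div_eq_of_lt (by omega), add_zero]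
  unfold cl1
  rw [h1, h2, h3, ← hn, Nat.sub_sub, Nat.cast_sub (by omega), ZMod.natCast_self]
  push_cast
  ring

lemma cl_rfc (hl : l ∣ N) (x : V N) : (cl (rfc N x) : V (N / l)) = rfc (N / l) (cl x) := by
  rw [rfc_apply, rfc_apply]
  refine Prod.ext ?_ ?_
  · exact cl1_rf hl x.1
  · show cl1 (x.2 + 0) = cl1 x.2 + 0
    rw [add_zero, add_zero]

lemma cl_swp (x : V N) : (cl (swp x) : V (N / l)) = swp (cl x) := rfl

lemma cl_tra (hl : l ∣ N) (a : V (N / l)) (x : V N) : cl (tra (up a) x) = tra a (cl x) :=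
  cl_add_up hl x a

lemma inv_comp {V' : Type*} {μ : (V' → ℤ) → ℝ} {e e' : Equiv.Perm V'} (h : Inv μ e)
    (h' : Inv μ e') : Inv μ (e.trans e') := by
  intro f
  have h1 := h' f
  have h2 := h (f ∘ e')
  rw [← h1, ← h2]
  rfl

lemma inv_wT_rfc (b : ℝ) : Inv (wT b N) (rfc N) := inv_comp (inv_wT_ref1 b) (tinv_wT b _)

lemma inv_MC_rfc (hl : l ∣ N) (b t τ : ℝ) : Inv (wM (wT b N) (MC N l t τ)) (rfc N) :=
  inv_wM (inv_wT_rfc b) (MC_perm hl (cl_rfc hl) t τ)

lemma inv_MC_swp (hl : l ∣ N) (b t τ : ℝ) : Inv (wM (wT b N) (MC N l t τ)) swp :=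
  inv_wM (inv_wT_swp b) (MC_perm hl cl_swp t τ)

/-! ### the cell covariance and its symbol -/

/-- standing hypotheses for the cell masses -/
theorem dm_MC (hb : 0 < b) (hl : l ∣ N) (hτ : 0 < τ) (h : τ ≤ t) : DM (wT b N) (MC N l t τ) :=
  dm_wT hb (MC_tr N l t τ) hτ (qf_MC_ge hl h)

/-- the covariance of the prior with mass `t (1 - P) + τ P` -/
def GM (N l : ℕ) [NeZero N] (b t τ : ℝ) : Matrix (V N) (V N) ℝ := Gm (wM (wT b N) (MC N l t τ))

lemma GM_self (N l : ℕ) [NeZero N] (b t : ℝ) : GM N l b t t = Gm (wt N b t) := by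
  unfold GM
  rw [MC_self]
  rfl

lemma ct_GM (hl : l ∣ N) (b t τ : ℝ) : CT l (GM N l b t τ) := ct_Gm (cinv_MC hl b t τ)

lemma ti_Gc_GM (hl : l ∣ N) (b t τ : ℝ) : TI (Gc l (GM N l b t τ)) := ti_Gc hl (ct_GM hl b t τ)

/-- symbol of the cell covariance -/
def Gck (N l : ℕ) [NeZero N] [NeZero (N / l)] (b t τ : ℝ) (k : V (N / l)) : ℝ :=
  sym (Gc l (GM N l b t τ)) k

/-- symbol of the cell self energy -/
def PiCk (N l : ℕ) [NeZero N] [NeZero (N / l)] (b t τ : ℝ) (k : V (N / l)) : ℝ :=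
  (Gck N l b t τ k)⁻¹ - τ

lemma cobV_tr_inj (hl : l ∣ N) {φ : V (N / l) → ℝ} (h : (cobV N l)ᵀ *ᵥ φ = 0) : φ = 0 := by
  have h2 : cobV N l *ᵥ ((cobV N l)ᵀ *ᵥ φ) = 0 := by rw [h, Matrix.mulVec_zero]
  rwa [Matrix.mulVec_mulVec, cobV_mul_tr hl, Matrix.one_mulVec] at h2

lemma Gc_pd (hl : l ∣ N) {A : Matrix (V N) (V N) ℝ} (hA : ∀ u, u ≠ 0 → 0 < qf A u)
    {φ : V (N / l) → ℝ} (hφ : φ ≠ 0) : 0 < qf (Gc l A) φ := by
  rw [qf_Gc]
  exact hA _ fun h => hφ (cobV_tr_inj hl h)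

theorem Gck_pos (hb : 0 < b) (hl : l ∣ N) (hτ : 0 < τ) (h : τ ≤ t) (k : V (N / l)) :
    0 < Gck N l b t τ k :=
  sym_pos_of_pd (ti_Gc_GM hl b t τ) (fun _ hφ => Gc_pd hl (dm_MC hb hl hτ h).gpos hφ) k

theorem Gck_le (hb : 0 < b) (hl : l ∣ N) (hτ : 0 < τ) (h : τ ≤ t) (k : V (N / l)) :
    Gck N l b t τ k ≤ τ⁻¹ := by
  have h1 := (qf_le_iff (ti_Gc_GM hl b t τ) (ti_smul_one (N := N / l) τ⁻¹)).1 (fun φ => by
    rw [qf_Gc, qf_smul_one]
    refine ((dm_MC hb hl hτ h).G_le _).trans (le_of_eq ?_)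
    rw [MC_inv hl (hτ.trans_le h).ne' hτ.ne', qf_eq, MC_mulVec_tr hl, dotProduct_smul, smul_eq_mul,
      ← sq_cobV_tr hl]
    simp only [dotProduct, pow_two]) k
  rwa [sym_smul_one] at h1

theorem PiCk_nonneg (hb : 0 < b) (hl : l ∣ N) (hτ : 0 < τ) (h : τ ≤ t) (k : V (N / l)) :
    0 ≤ PiCk N l b t τ k := by
  unfold PiCk
  rw [sub_nonneg, le_inv_comm₀ hτ (Gck_pos hb hl hτ h k)]
  exact Gck_le hb hl hτ h k

theorem Gck_eq_inv (k : V (N / l)) : Gck N l b t τ k = (τ + PiCk N l b t τ k)⁻¹ := by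
  unfold PiCk
  rw [add_sub_cancel, inv_inv]

theorem Gck_neg (k : V (N / l)) : Gck N l b t τ (-k) = Gck N l b t τ k := sym_neg_arg _ k

theorem Gck_ref (hl : l ∣ N) (k : V (N / l)) : Gck N l b t τ (-k.1, k.2) = Gck N l b t τ k := by
  have hTI := ti_Gc_GM (N := N) hl b t τ
  refine sym_ref (fun z => ?_) k
  have h1 := Gc_perm (l := l) (cl_rfc hl) (A := GM N l b t τ)
    (fun x y => Gm_perm (inv_MC_rfc hl b t τ) x y) 0 z
  rw [hTI.eq, rfc_apply, rfc_apply] at h1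
  rw [← h1]
  congr 1
  refine Prod.ext ?_ ?_
  · simp
  · simp

theorem Gck_swp (hl : l ∣ N) (k : V (N / l)) : Gck N l b t τ (k.2, k.1) = Gck N l b t τ k := by
  have hTI := ti_Gc_GM (N := N) hl b t τ
  refine sym_swp (fun z => ?_) k
  have h1 := Gc_perm (l := l) cl_swp (A := GM N l b t τ)
    (fun x y => Gm_perm (inv_MC_swp hl b t τ) x y) 0 z
  rw [← h1]
  congr 1

theorem PiCk_neg (k : V (N / l)) : PiCk N l b t τ (-k) = PiCk N l b t τ k := by
  unfold PiCk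
  rw [Gck_neg]

theorem PiCk_ref (hl : l ∣ N) (k : V (N / l)) :
    PiCk N l b t τ (-k.1, k.2) = PiCk N l b t τ k := by
  unfold PiCk
  rw [Gck_ref hl]

theorem PiCk_swp (hl : l ∣ N) (k : V (N / l)) :
    PiCk N l b t τ (k.2, k.1) = PiCk N l b t τ k := by
  unfold PiCk
  rw [Gck_swp hl]

/-- the cell matrix of the inverse dominates the inverse of the cell matrix -/
theorem inv_Gc_le (hl : l ∣ N) {G : Matrix (V N) (V N) ℝ} (hGs : Gᵀ = G)
    (hG : ∀ u, u ≠ 0 → 0 < qf G u) (φ : V (N / l) → ℝ) :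
    qf (Gc l G)⁻¹ φ ≤ qf (Gc l G⁻¹) φ := inv_gram_le (cobV_mul_tr hl) hGs hG φ

/-- Jensen: the cell self energy is at most the cell matrix of the self energy -/
theorem PiCk_le_Gc_PiM (hb : 0 < b) (hl : l ∣ N) (hτ : 0 < τ) (h : τ ≤ t) (k : V (N / l)) :
    PiCk N l b t τ k ≤ sym (Gc l (PiM (wT b N) (MC N l t τ))) k := by
  have hD := dm_MC hb hl hτ h
  have hct : CT l (PiM (wT b N) (MC N l t τ)) := (ct_GM hl b t τ).inv.sub (ct_MC hl t τ)
  have h1 := inv_Gc_le hl hD.gsymm hD.gpos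
  have h2 : TI (Gc l (Gm (wM (wT b N) (MC N l t τ)))⁻¹) := ti_Gc hl (ct_GM hl b t τ).inv
  have h3 := (qf_le_iff (ti_Gc_GM (N := N) hl b t τ).inv h2).1 h1 k
  rw [sym_inv' (ti_Gc_GM (N := N) hl b t τ) fun k => (Gck_pos hb hl hτ h k).ne'] at h3
  unfold PiM
  rw [Gc_sub, Gc_MC hl, sym_sub, sym_smul_one]
  unfold PiCk
  exact sub_le_sub_right h3 _

/-- the channel identity on cell functions: `<φ, Gc ε> ≤ <ε, Gc' ε>`, `ε = φ - s Gc φ` -/
theorem Gc_e7 (hb : 0 < b) (hl : l ∣ N) {τ' : ℝ} (hτ : 0 < τ') (h' : τ' ≤ τ) (h : τ ≤ t)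
    (φ : V (N / l) → ℝ) :
    bf (Gc l (GM N l b t τ)) φ (φ - (τ - τ') • (Gc l (GM N l b t τ) *ᵥ φ)) ≤
      qf (Gc l (GM N l b t τ')) (φ - (τ - τ') • (Gc l (GM N l b t τ) *ᵥ φ)) := by
  have hD := dm_MC hb hl (hτ.trans_le h') h
  have hD' := dm_MC (b := b) hb hl hτ (h'.trans h)
  have hpost : post (wM (wT b N) (MC N l t τ')) (√(τ - τ') • cob N l) =
      wM (wT b N) (MC N l t τ) := post_MC _ h'
  have h1 := H663.Gm_ge hD'.em (√(τ - τ') • cob N l) (b := (cobV N l)ᵀ *ᵥ φ)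
    (e := (cobV N l)ᵀ *ᵥ (φ - (τ - τ') • (Gc l (GM N l b t τ) *ᵥ φ))) (by
      intro J u
      rw [hpost]
      exact hD.gc J u) (by
      rw [hpost, Matrix.mulVec_mulVec _ (√(τ - τ') • cob N l)ᵀ, Matrix.transpose_smul,
        Matrix.smul_mul, Matrix.mul_smul, smul_smul, Real.mul_self_sqrt (sub_nonneg.2 h')]
      have e1 : (cob N l)ᵀ * cob N l = cellP N l := rfl
      rw [e1, cellP_eq hl, Matrix.smul_mulVec, ← Matrix.mulVec_mulVec, Matrix.mulVec_sub,
        Matrix.mulVec_smul]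
      congr 3
      unfold Gc GM
      simp only [Matrix.mulVec_mulVec, Matrix.mul_assoc])
  rw [hpost, ← bf_Gc, ← qf_Gc] at h1
  exact h1

/-- **E7 on the cell torus**: the cell self energy increases with the mass -/
theorem PiCk_mono (hb : 0 < b) (hl : l ∣ N) {τ' : ℝ} (hτ : 0 < τ') (h' : τ' ≤ τ) (h : τ ≤ t)
    (k : V (N / l)) : PiCk N l b t τ' k ≤ PiCk N l b t τ k := by
  have hτ0 : 0 < τ := hτ.trans_le h'
  set g := Gck N l b t τ k with hg
  set g' := Gck N l b t τ' k with hg'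
  have hgp : 0 < g := Gck_pos hb hl hτ0 h k
  have hgp' : 0 < g' := Gck_pos hb hl hτ (h'.trans h) k
  have hgle : g ≤ τ⁻¹ := Gck_le hb hl hτ0 h k
  have hTI := ti_Gc_GM (N := N) hl b t τ
  have hTI' := ti_Gc_GM (N := N) hl b t τ'
  set φ : V (N / l) → ℝ := fun x => cN (dt k x) with hφ
  have e1 : Gc l (GM N l b t τ) *ᵥ φ = g • φ := by
    rw [hφ, hTI.mulVec_cN k]
    rfl
  have e1' : Gc l (GM N l b t τ') *ᵥ φ = g' • φ := by
    rw [hφ, hTI'.mulVec_cN k]
    rfl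
  have h1 := Gc_e7 hb hl hτ h' h φ
  rw [e1] at h1
  have e2 : φ - (τ - τ') • g • φ = (1 - (τ - τ') * g) • φ := by
    rw [smul_smul, sub_smul (1 : ℝ), one_smul]
  rw [e2, bf_smul_right, qf_smul, bf_eq, e1, qf_eq, e1', dotProduct_smul, dotProduct_smul,
    smul_eq_mul, smul_eq_mul] at h1
  have hpos : 0 < φ ⬝ᵥ φ := by
    have h2 : φ 0 = 1 := by
      show cN (dt k 0) = 1
      rw [dt_zero, TM.H764.cN_zero]
    have h3 : φ ⬝ᵥ φ = ∑ x, φ x * φ x := rfl
    rw [h3]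
    refine Finset.sum_pos' (fun _ _ => mul_self_nonneg _) ⟨0, Finset.mem_univ _, ?_⟩
    rw [h2]
    norm_num
  have hs : 0 < 1 - (τ - τ') * g := by
    have h3 : τ * g ≤ 1 := by
      have := mul_le_mul_of_nonneg_left hgle hτ0.le
      rwa [mul_inv_cancel₀ hτ0.ne'] at this
    nlinarith [mul_pos hτ hgp]
  have h4 : g ≤ (1 - (τ - τ') * g) * g' := by
    have h5 : (1 - (τ - τ') * g) * (φ ⬝ᵥ φ) * g ≤
        (1 - (τ - τ') * g) * (φ ⬝ᵥ φ) * ((1 - (τ - τ') * g) * g') := by nlinarith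
    exact le_of_mul_le_mul_left h5 (mul_pos hs hpos)
  unfold PiCk
  rw [← hg, ← hg']
  have h6 : g'⁻¹ ≤ g⁻¹ - (τ - τ') := by
    have e3 : g⁻¹ - (τ - τ') = (1 - (τ - τ') * g) / g := by field_simp
    rw [e3, inv_eq_one_div, div_le_div_iff₀ hgp' hgp, one_mul]
    exact h4
  linarith

theorem Gck_mono (hb : 0 < b) (hl : l ∣ N) {τ' : ℝ} (hτ : 0 < τ') (h' : τ' ≤ τ) (h : τ ≤ t)
    (k : V (N / l)) : Gck N l b t τ k ≤ Gck N l b t τ' k := by
  have h1 := PiCk_mono hb hl hτ h' h k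
  have h2 := PiCk_nonneg hb hl hτ (h'.trans h) k
  rw [Gck_eq_inv, Gck_eq_inv]
  exact inv_anti₀ (by linarith) (by linarith)

/-! ### the channel in cell letters -/

/-- reindexing of the observations -/
theorem Ech_reindex {V' I I' : Type*} [Fintype V'] [Fintype I] [Fintype I'] (e : I' ≃ I)
    (μ : (V' → ℤ) → ℝ) (J₁ : V' → ℝ) (P : Matrix I V' ℝ) (Φ : (V' → ℝ) → ℝ) :
    Ech μ J₁ (P.submatrix e id) Φ = Ech μ J₁ P Φ := by
  have h0 : ∀ F : (I → ℝ) → ℝ, ∫ g, F (g ∘ e.symm) ∂(gau I') = ∫ g, F g ∂(gau I) := by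
    intro F
    have h1 : MeasurePreserving (MeasurableEquiv.arrowCongr' e (MeasurableEquiv.refl ℝ))
        (gau I') (gau I) := by
      unfold gau
      exact measurePreserving_arrowCongr' (fun _ : I' => ProbabilityTheory.gaussianReal 0 1)
        (fun _ : I => ProbabilityTheory.gaussianReal 0 1) e (MeasurableEquiv.refl ℝ)
        fun _ => MeasurePreserving.id _
    have h2 := h1.integral_comp (MeasurableEquiv.measurableEmbedding _) F
    rw [← h2]
    rfl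
  have h1 : ∀ g : I' → ℝ, (P.submatrix e id)ᵀ *ᵥ g = Pᵀ *ᵥ (g ∘ e.symm) := by
    intro g
    funext x
    simp only [Matrix.mulVec, dotProduct, Matrix.transpose_apply, Matrix.submatrix_apply, id,
      Function.comp_apply]
    rw [← Equiv.sum_comp e]
    refine Finset.sum_congr rfl fun i _ => ?_
    rw [Equiv.symm_apply_apply]
  have h2 : post μ (P.submatrix e id) = post μ P := by
    funext h
    unfold post
    congr 3
    rw [← Equiv.sum_comp e]
    rfl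
  unfold Ech
  simp_rw [h1, h2]
  rw [h0 (fun g => Φ (J₁ + Pᵀ *ᵥ g) * Zs (post μ P) (J₁ + Pᵀ *ᵥ g)),
    h0 (fun g => Zs (post μ P) (J₁ + Pᵀ *ᵥ g))]

theorem Ech_cob (hl : l ∣ N) (μ : (V N → ℤ) → ℝ) (J₁ : V N → ℝ) (s : ℝ) (Φ : (V N → ℝ) → ℝ) :
    Ech μ J₁ (s • cob N l) Φ = Ech μ J₁ (s • cobV N l) Φ := by
  have e : s • cobV N l = (s • cob N l).submatrix (ce (N / l)) id := by
    rw [cobV_eq hl]
    rfl
  rw [e, Ech_reindex]

theorem post_cob (hl : l ∣ N) (μ : (V N → ℤ) → ℝ) (s : ℝ) :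
    post μ (s • cob N l) = post μ (s • cobV N l) := by
  have e : s • cobV N l = (s • cob N l).submatrix (ce (N / l)) id := by
    rw [cobV_eq hl]
    rfl
  rw [e]
  funext h
  unfold post
  congr 3
  rw [← Equiv.sum_comp (ce (N / l))]
  rfl

theorem Cbar_cob (hl : l ∣ N) (μ : (V N → ℤ) → ℝ) (J₁ : V N → ℝ) (s : ℝ) :
    Cbar μ J₁ (s • cob N l) = Cbar μ J₁ (s • cobV N l) := by
  ext x y
  unfold Cbar EchM
  rw [Matrix.of_apply, Matrix.of_apply, Ech_cob hl, post_cob hl]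

/-- the law of the cell source is invariant under cell translations -/
theorem Ech_tra (hl : l ∣ N) {μ : (V N → ℤ) → ℝ} (hμ : CInv l μ) (a : V (N / l)) (s : ℝ)
    (Φ : (V N → ℝ) → ℝ) :
    Ech μ 0 (s • cobV N l) (fun J => Φ (J ∘ tra (up a))) = Ech μ 0 (s • cobV N l) Φ := by
  have h := Ech_perm (hμ a) (P := s • cobV N l) (e' := tra a) (fun c x => by
    rw [Matrix.smul_apply, Matrix.smul_apply, cobV_perm (cl_tra hl a)]) 0 Φ
  rw [← h, zero_comp']

theorem ct_Cbar (hl : l ∣ N) {μ : (V N → ℤ) → ℝ} (hμ : CInv l μ) (s : ℝ) :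
    CT l (Cbar μ 0 (s • cobV N l)) := by
  refine ⟨fun a x y => ?_, fun x y => Ech_symm_cm μ 0 _ x y⟩
  exact Cbar_perm_zero (hμ a) (P := s • cobV N l) (e' := tra a) (fun c x => by
    rw [Matrix.smul_apply, Matrix.smul_apply, cobV_perm (cl_tra hl a)]) x y

/-- the mean posterior cell covariance is translation invariant on the cell torus -/
theorem ti_Gc_Cbar (hl : l ∣ N) {μ : (V N → ℤ) → ℝ} (hμ : CInv l μ) (s : ℝ) :
    TI (Gc l (Cbar μ 0 (s • cob N l))) := by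
  rw [Cbar_cob hl]
  exact ti_Gc hl (ct_Cbar hl hμ s)

end cell

end

end Vale.Agent.P159.H864
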