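import Vale.Agent.P159.H864.Cel3
import Vale.Agent.P159.H340.Kl2

/-!
P159, module CELL (helper864), part 5: the central alias.

* `cen l p` : `|p_i| ≤ N / (2 l)` (representatives of least absolute value); every cell momentum has
  a central alias (`exists_cen`).
* `Wl_cen_ge` : `Wl l p ≥ 1/36` for central `p`.
* `EE_cen_le` : `EE p ≤ 3 EE q` for every alias `q` of the central `p`; `EE_alias_ge` : `EE q ≥ 4/l²`
  for the other aliases.
* `Gck_dom`, `Gck_ge`, `abs_Gck_sub_le`, `abs_PiCk_sub_le` : cell covariance and cell self energy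
  versus `Ght`, `Pik` at the central alias, under the domination `Ght q ≤ (t + c EE q)⁻¹`.
-/

set_option linter.unusedSectionVars false

namespace Vale.Agent.P159.H864

open Finset Matrix MeasureTheory
open Vale.Agent.P159.TM.H764 (Gh cN sN dt ch EE frm grd hatu pw)
open Vale.Agent.P159.TM.H104 (EM Ex Cv K3 Lg li nh Gr)
open Vale.Agent.P159.H37
open Vale.Agent.P159.TM.Spec (V)
open Vale.Agent.P159.TM.SpecC (wT ms)

noncomputable section

variable {N l : ℕ} [NeZero N] [NeZero (N / l)]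

/-! ### factorisation of the Dirichlet kernel -/

/-- the one dimensional Dirichlet kernel -/
def D1 (l : ℕ) [NeZero (N / l)] (p : ZMod N) : ℂ :=
  ∑ x ∈ univ.filter (fun x : ZMod N => (cl1 x : ZMod (N / l)) = 0), ch (p * x)

lemma Dl_eq (p : V N) : Dl l p = D1 l p.1 * D1 l p.2 := by
  unfold Dl D1
  rw [Finset.sum_mul_sum, ← Finset.sum_product']
  refine Finset.sum_congr ?_ fun x _ => ?_
  · ext x
    rw [Finset.mem_filter, Finset.mem_product, Finset.mem_filter, Finset.mem_filter]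
    simp only [Finset.mem_univ, true_and]
    exact Prod.ext_iff
  · rw [← TM.H764.ch_add]
    rfl

/-- the cell `0` in one dimension -/
lemma cell1_eq (hl : l ∣ N) : univ.filter (fun x : ZMod N => (cl1 x : ZMod (N / l)) = 0) =
    (Finset.range l).image fun r : ℕ => (r : ZMod N) := by
  ext x
  rw [Finset.mem_filter, Finset.mem_image]
  constructor
  · intro h
    exact ⟨x.val, Finset.mem_range.2 (cell_zero_val hl h.2), ZMod.natCast_zmod_val x⟩
  · rintro ⟨r, hr, rfl⟩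
    refine ⟨Finset.mem_univ _, ?_⟩
    have hr := Finset.mem_range.1 hr
    have hlN : l ≤ N := Nat.le_of_dvd (NeZero.pos N) hl
    unfold cl1
    rw [ZMod.val_cast_of_lt (hr.trans_le hlN), Nat.div_eq_of_lt hr, Nat.cast_zero]

lemma sum_cell1 {M : Type*} [AddCommMonoid M] (hl : l ∣ N) (f : ZMod N → M) :
    ∑ x ∈ univ.filter (fun x : ZMod N => (cl1 x : ZMod (N / l)) = 0), f x =
      ∑ r ∈ Finset.range l, f (r : ZMod N) := by
  rw [cell1_eq hl, Finset.sum_image]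
  intro r hr s hs h
  have hlN : l ≤ N := Nat.le_of_dvd (NeZero.pos N) hl
  have hr := Finset.mem_range.1 hr
  have hs := Finset.mem_range.1 hs
  have h2 := congrArg ZMod.val h
  simp only at h2
  rwa [ZMod.val_cast_of_lt (hr.trans_le hlN), ZMod.val_cast_of_lt (hs.trans_le hlN)] at h2

lemma normSq_D1 (hl : l ∣ N) (p : ZMod N) : Complex.normSq (D1 l p) =
    ∑ r ∈ Finset.range l, ∑ s ∈ Finset.range l, cN (p * ((r : ZMod N) - (s : ZMod N))) := by
  have h : ((Complex.normSq (D1 l p) : ℝ) : ℂ) = D1 l p * (starRingEnd ℂ) (D1 l p) :=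
    (Complex.mul_conj _).symm
  have h2 : Complex.normSq (D1 l p) = (D1 l p * (starRingEnd ℂ) (D1 l p)).re := by
    rw [← h, Complex.ofReal_re]
  rw [h2]
  unfold D1
  rw [sum_cell1 hl, map_sum, Finset.sum_mul_sum, Complex.re_sum]
  refine Finset.sum_congr rfl fun x _ => ?_
  rw [Complex.re_sum]
  refine Finset.sum_congr rfl fun y _ => ?_
  rw [TM.H764.ch_conj, ← TM.H764.ch_add, TM.H764.ch_re]
  congr 1
  ring

lemma sum_range_sq (l : ℕ) : ∑ r ∈ Finset.range l, (r : ℝ) = (l : ℝ) * (l - 1) / 2 ∧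
    ∑ r ∈ Finset.range l, (r : ℝ) ^ 2 = (l : ℝ) * (l - 1) * (2 * l - 1) / 6 := by
  induction l with
  | zero => simp
  | succ n ih =>
    obtain ⟨h1, h2⟩ := ih
    rw [Finset.sum_range_succ, Finset.sum_range_succ, h1, h2]
    push_cast
    constructor <;> ring

lemma sum_diff_sq (l : ℕ) : ∑ r ∈ Finset.range l, ∑ s ∈ Finset.range l, ((r : ℝ) - s) ^ 2 =
    (l : ℝ) ^ 2 * ((l : ℝ) ^ 2 - 1) / 6 := by
  obtain ⟨h1, h2⟩ := sum_range_sq l
  have e : ∀ r ∈ Finset.range l, ∑ s ∈ Finset.range l, ((r : ℝ) - s) ^ 2 =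
      (l : ℝ) * (r : ℝ) ^ 2 - 2 * r * ((l : ℝ) * (l - 1) / 2) +
        (l : ℝ) * (l - 1) * (2 * l - 1) / 6 := by
    intro r _
    have e2 : ∀ s ∈ Finset.range l, ((r : ℝ) - s) ^ 2 = (r : ℝ) ^ 2 - 2 * r * s + (s : ℝ) ^ 2 :=
      fun s _ => by ring
    rw [Finset.sum_congr rfl e2, Finset.sum_add_distrib, Finset.sum_sub_distrib, Finset.sum_const,
      Finset.card_range, nsmul_eq_mul, ← Finset.mul_sum, h1, h2]
  rw [Finset.sum_congr rfl e, Finset.sum_add_distrib, Finset.sum_sub_distrib, ← Finset.mul_sum, h2,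
    ← Finset.sum_mul, ← Finset.mul_sum, h1, Finset.sum_const, Finset.card_range, nsmul_eq_mul]
  ring

lemma cN_mul_diff (p : ZMod N) (r s : ℕ) :
    cN (p * ((r : ZMod N) - (s : ZMod N))) = Real.cos (pw p * ((r : ℝ) - s)) := by
  have h2 := TM.H764.cN_int (N := N) (p.valMinAbs * ((r : ℤ) - s))
  push_cast at h2
  rw [h2]
  congr 1
  unfold pw
  ring

/-- lower bound of the one dimensional kernel near the centre -/
lemma normSq_D1_ge (hl : l ∣ N) {p : ZMod N} (hp : |pw p| * l ≤ Real.pi) :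
    (l : ℝ) ^ 2 / 6 ≤ Complex.normSq (D1 l p) := by
  have hlp : (0 : ℝ) < l := by exact_mod_cast l_pos hl
  rw [normSq_D1 hl]
  have h1 : ∀ r ∈ Finset.range l, ∀ s ∈ Finset.range l,
      1 - (pw p) ^ 2 / 2 * ((r : ℝ) - s) ^ 2 ≤ cN (p * ((r : ZMod N) - (s : ZMod N))) := by
    intro r _ s _
    rw [cN_mul_diff]
    have := Real.one_sub_sq_div_two_le_cos (x := pw p * ((r : ℝ) - s))
    nlinarith
  have h2 : ∑ r ∈ Finset.range l, ∑ s ∈ Finset.range l, (1 - (pw p) ^ 2 / 2 * ((r : ℝ) - s) ^ 2) ≤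
      ∑ r ∈ Finset.range l, ∑ s ∈ Finset.range l, cN (p * ((r : ZMod N) - (s : ZMod N))) :=
    Finset.sum_le_sum fun r hr => Finset.sum_le_sum fun s hs => h1 r hr s hs
  refine le_trans ?_ h2
  simp only [Finset.sum_sub_distrib, ← Finset.mul_sum, sum_diff_sq, Finset.sum_const,
    Finset.card_range, nsmul_eq_mul, mul_one]
  have h3 : (pw p) ^ 2 * (l : ℝ) ^ 2 ≤ Real.pi ^ 2 := by
    have : (|pw p| * l) ^ 2 ≤ Real.pi ^ 2 := pow_le_pow_left₀ (by positivity) hp 2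
    rwa [mul_pow, sq_abs] at this
  have h4 : Real.pi ^ 2 < 10 := by
    have := Real.pi_lt_d2
    nlinarith [Real.pi_pos]
  have h5 : 0 ≤ (pw p) ^ 2 := sq_nonneg _
  nlinarith [mul_nonneg h5 (sq_nonneg (l : ℝ)), sq_nonneg (l : ℝ), mul_pos hlp hlp]

/-! ### central momenta -/

/-- central momentum: `|p_i| ≤ N / (2 l)` -/
def cen (l : ℕ) (p : V N) : Prop :=
  2 * l * p.1.valMinAbs.natAbs ≤ N ∧ 2 * l * p.2.valMinAbs.natAbs ≤ N

lemma pw_cen {p : ZMod N} (h : 2 * l * p.valMinAbs.natAbs ≤ N) :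
    |pw p| * l ≤ Real.pi := by
  have hN : (0 : ℝ) < N := by exact_mod_cast NeZero.pos N
  unfold pw
  have h1 : (2 : ℝ) * l * |(p.valMinAbs : ℝ)| ≤ N := by
    have h2 : ((2 * l * p.valMinAbs.natAbs : ℕ) : ℝ) ≤ N := by exact_mod_cast h
    push_cast at h2
    rwa [Nat.cast_natAbs, Int.cast_abs] at h2
  rw [abs_div, abs_mul, abs_mul, abs_two, abs_of_pos Real.pi_pos, abs_of_pos hN, div_mul_eq_mul_div,
    div_le_iff₀ hN]
  nlinarith [Real.pi_pos]

/-- central aliases carry a positive fraction of the weight -/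
theorem Wl_cen_ge (hl : l ∣ N) {p : V N} (h : cen l p) : 1 / 36 ≤ Wl l p := by
  have hlp : (0 : ℝ) < l := by exact_mod_cast l_pos hl
  unfold Wl
  rw [Dl_eq, Complex.normSq_mul, le_div_iff₀ (by positivity)]
  have h1 := normSq_D1_ge hl (pw_cen h.1)
  have h2 := normSq_D1_ge hl (pw_cen h.2)
  have h3 := mul_le_mul h1 h2 (by positivity) (Complex.normSq_nonneg _)
  nlinarith

/-- every cell momentum has a central alias -/
theorem exists_cen (hl : l ∣ N) (k : V (N / l)) : ∃ p : V N, cen l p ∧ rd p = k := by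
  have key : ∀ k : ZMod (N / l), ∃ p : ZMod N, 2 * l * p.valMinAbs.natAbs ≤ N ∧
      (rd1 p : ZMod (N / l)) = k := by
    intro k
    refine ⟨((k.valMinAbs : ℤ) : ZMod N), ?_, ?_⟩
    · have h1 : k.valMinAbs.natAbs ≤ (N / l) / 2 := ZMod.natAbs_valMinAbs_le k
      have h2 : ((k.valMinAbs : ℤ) : ZMod N).valMinAbs = k.valMinAbs := by
        rw [ZMod.valMinAbs_spec]
        refine ⟨rfl, ?_⟩
        have h3 := ZMod.valMinAbs_mem_Ioc k
        have h4 : ((N / l : ℕ) : ℤ) ≤ (N : ℤ) := by exact_mod_cast Nat.div_le_self N l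
        exact ⟨by linarith [h3.1], h3.2.trans h4⟩
      rw [h2]
      have h5 : 2 * k.valMinAbs.natAbs ≤ N / l := by omega
      calc 2 * l * k.valMinAbs.natAbs = l * (2 * k.valMinAbs.natAbs) := by ring
        _ ≤ l * (N / l) := Nat.mul_le_mul_left l h5
        _ = N := Nat.mul_div_cancel' hl
    · rw [rd1_intCast hl, ZMod.coe_valMinAbs]
  obtain ⟨p1, h1, h1'⟩ := key k.1
  obtain ⟨p2, h2, h2'⟩ := key k.2
  exact ⟨(p1, p2), ⟨h1, h2⟩, Prod.ext h1' h2'⟩

/-! ### aliases of a central momentum -/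

lemma cen_alias1 (hl : l ∣ N) {p q : ZMod N} (hp : 2 * l * p.valMinAbs.natAbs ≤ N)
    (h : (rd1 q : ZMod (N / l)) = rd1 p) (hne : q ≠ p) :
    N / l ≤ 2 * q.valMinAbs.natAbs ∧ p.valMinAbs.natAbs ≤ q.valMinAbs.natAbs := by
  have hlp := l_pos hl
  have hN : l * (N / l) = N := Nat.mul_div_cancel' hl
  have h1 : ((q.valMinAbs - p.valMinAbs : ℤ) : ZMod (N / l)) = 0 := by
    rw [Int.cast_sub, ← rd1_intCast hl, ← rd1_intCast hl, ZMod.coe_valMinAbs, ZMod.coe_valMinAbs, h,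
      sub_self]
  rw [ZMod.intCast_zmod_eq_zero_iff_dvd] at h1
  have h2 : q.valMinAbs - p.valMinAbs ≠ 0 := by
    intro h3
    exact hne (ZMod.injective_valMinAbs (sub_eq_zero.1 h3))
  have h3 := Int.le_of_dvd (abs_pos.2 h2) ((dvd_abs _ _).2 h1)
  have h4 : 2 * p.valMinAbs.natAbs ≤ N / l := by
    rw [Nat.le_div_iff_mul_le hlp]
    calc 2 * p.valMinAbs.natAbs * l = 2 * l * p.valMinAbs.natAbs := by ring
      _ ≤ N := hp
  have h5 : |q.valMinAbs - p.valMinAbs| ≤ (q.valMinAbs.natAbs : ℤ) + p.valMinAbs.natAbs := by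
    rw [Int.natCast_natAbs, Int.natCast_natAbs]
    exact abs_sub _ _
  have h6 : ((N / l : ℕ) : ℤ) ≤ (q.valMinAbs.natAbs : ℤ) + p.valMinAbs.natAbs := h3.trans h5
  have h7 : N / l ≤ q.valMinAbs.natAbs + p.valMinAbs.natAbs := by exact_mod_cast h6
  omega

lemma cen_alias_le1 (hl : l ∣ N) {p q : ZMod N} (hp : 2 * l * p.valMinAbs.natAbs ≤ N)
    (h : (rd1 q : ZMod (N / l)) = rd1 p) : 2 * (1 - cN p) ≤ 3 * (2 * (1 - cN q)) := by
  have hN : (0 : ℝ) < N := by exact_mod_cast NeZero.pos N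
  have h1 : p.valMinAbs.natAbs ≤ q.valMinAbs.natAbs := by
    by_cases hne : q = p
    · rw [hne]
    · exact (cen_alias1 hl hp h hne).2
  have h2 : 2 * (1 - cN p) ≤ pw p ^ 2 := by
    rw [TM.H764.cN_pw]
    have := Real.one_sub_sq_div_two_le_cos (x := pw p)
    linarith
  have h3 := H340.one_sub_cN_ge q
  have h4 : (p.valMinAbs : ℝ) ^ 2 ≤ (q.valMinAbs : ℝ) ^ 2 := by
    have h5 : (p.valMinAbs.natAbs : ℝ) ≤ (q.valMinAbs.natAbs : ℝ) := by exact_mod_cast h1
    rw [Nat.cast_natAbs, Int.cast_abs, Nat.cast_natAbs, Int.cast_abs] at h5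
    rw [← sq_abs (p.valMinAbs : ℝ), ← sq_abs (q.valMinAbs : ℝ)]
    exact pow_le_pow_left₀ (abs_nonneg _) h5 2
  have h5 : pw p ^ 2 ≤ 3 * (16 * (q.valMinAbs : ℝ) ^ 2 / (N : ℝ) ^ 2) := by
    unfold pw
    rw [div_pow, mul_pow, mul_pow, ← mul_div_assoc]
    refine div_le_div_of_nonneg_right ?_ (by positivity)
    have h6 : Real.pi ^ 2 < 10 := by
      have := Real.pi_lt_d2
      nlinarith [Real.pi_pos]
    have h7 := sq_nonneg (q.valMinAbs : ℝ)
    have h8 : Real.pi ^ 2 * (p.valMinAbs : ℝ) ^ 2 ≤ 10 * (q.valMinAbs : ℝ) ^ 2 :=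
      mul_le_mul h6.le h4 (sq_nonneg _) (by norm_num)
    nlinarith
  linarith

/-- the central alias minimises the Laplacian, up to a factor -/
theorem EE_cen_le (hl : l ∣ N) {p q : V N} (hp : cen l p) (h : (rd q : V (N / l)) = rd p) :
    EE p ≤ 3 * EE q := by
  have h1 := cen_alias_le1 hl hp.1 (congrArg Prod.fst h)
  have h2 := cen_alias_le1 hl hp.2 (congrArg Prod.snd h)
  unfold EE
  linarith

/-- the other aliases are high momenta -/
theorem EE_alias_ge (hl : l ∣ N) {p q : V N} (hp : cen l p) (h : (rd q : V (N / l)) = rd p)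
    (hne : q ≠ p) : 4 / (l : ℝ) ^ 2 ≤ EE q := by
  have hlp : (0 : ℝ) < l := by exact_mod_cast l_pos hl
  have hN : (0 : ℝ) < N := by exact_mod_cast NeZero.pos N
  have hNl := Nl (N := N) hl
  have key : ∀ z : ZMod N, N / l ≤ 2 * z.valMinAbs.natAbs → 4 / (l : ℝ) ^ 2 ≤ 2 * (1 - cN z) := by
    intro z hz
    refine le_trans ?_ (H340.one_sub_cN_ge z)
    have h5 : ((N / l : ℕ) : ℝ) ≤ 2 * |(z.valMinAbs : ℝ)| := by
      have h6 : ((N / l : ℕ) : ℝ) ≤ 2 * (z.valMinAbs.natAbs : ℝ) := by exact_mod_cast hz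
      rwa [Nat.cast_natAbs, Int.cast_abs] at h6
    have h6 : (N : ℝ) ≤ 2 * |(z.valMinAbs : ℝ)| * l := by
      rw [← hNl]
      exact mul_le_mul_of_nonneg_right h5 hlp.le
    rw [div_le_div_iff₀ (by positivity) (by positivity)]
    have h7 : (N : ℝ) ^ 2 ≤ (2 * |(z.valMinAbs : ℝ)| * l) ^ 2 := pow_le_pow_left₀ hN.le h6 2
    rw [mul_pow, mul_pow, sq_abs] at h7
    nlinarith
  have hn1 : 0 ≤ 1 - cN q.1 := by linarith [TM.H764.cN_le_one q.1]
  have hn2 : 0 ≤ 1 - cN q.2 := by linarith [TM.H764.cN_le_one q.2]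
  unfold EE
  by_cases h1 : q.1 = p.1
  · have h2 : q.2 ≠ p.2 := fun h3 => hne (Prod.ext h1 h3)
    have h4 := key q.2 (cen_alias1 hl hp.2 (congrArg Prod.snd h) h2).1
    linarith
  · have h4 := key q.1 (cen_alias1 hl hp.1 (congrArg Prod.fst h) h1).1
    linarith

lemma EE_cen_small (hl : l ∣ N) {p : V N} (hp : cen l p) : (l : ℝ) ^ 2 * EE p ≤ 20 := by
  have hlp : (0 : ℝ) < l := by exact_mod_cast l_pos hl
  have h1 := TM.H764.EE_le p
  have key : ∀ z : ZMod N, 2 * l * z.valMinAbs.natAbs ≤ N → (l : ℝ) ^ 2 * pw z ^ 2 ≤ 10 := by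
    intro z hz
    have h2 := pw_cen hz
    have h3 : (|pw z| * l) ^ 2 ≤ Real.pi ^ 2 := pow_le_pow_left₀ (by positivity) h2 2
    rw [mul_pow, sq_abs] at h3
    have h6 : Real.pi ^ 2 < 10 := by
      have := Real.pi_lt_d2
      nlinarith [Real.pi_pos]
    linarith
  have h2 := key p.1 hp.1
  have h3 := key p.2 hp.2
  have h4 := mul_le_mul_of_nonneg_left h1 (sq_nonneg (l : ℝ))
  linarith

/-! ### the cell covariance at the central alias -/

section gck

variable {b t c : ℝ}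

lemma Gck_eq_als (hl : l ∣ N) (b t : ℝ) (k : V (N / l)) :
    Gck N l b t t k = als l (Ght N b t) k := by
  unfold Gck
  rw [GM_self, sym_Gc hl (ti_Gm_wt t)]
  rfl

/-- domination on the cell torus, without loss of constants -/
theorem Gck_dom (hl : l ∣ N) (ht : 0 < t) (hc : 0 ≤ c)
    (hdom : ∀ q : V N, Ght N b t q ≤ (t + c * EE q)⁻¹) (k : V (N / l)) :
    Gck N l b t t k ≤ (t + c * (EE k / (l : ℝ) ^ 2))⁻¹ := by
  unfold Gck
  rw [GM_self]
  refine sym_Gc_le hl (ti_Gm_wt t) (f := fun x => (t + c * x)⁻¹) (fun x y hx hxy => ?_) hdom k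
  have h1 := mul_nonneg hc hx
  have h2 := mul_le_mul_of_nonneg_left hxy hc
  exact inv_anti₀ (by linarith) (by linarith)

theorem Gck_ge (hb : 0 ≤ b) (hl : l ∣ N) (ht : 0 < t) {p : V N} (hp : cen l p) :
    Ght N b t p / 36 ≤ Gck N l b t t (rd p) := by
  rw [Gck_eq_als hl]
  unfold als
  have h1 := Finset.single_le_sum (f := fun q : V N => Ght N b t q * Wl l q)
    (s := univ.filter fun q : V N => (rd q : V (N / l)) = rd p)
    (fun q _ => mul_nonneg (Ght_nonneg hb ht q) (Wl_nonneg q))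
    (Finset.mem_filter.2 ⟨Finset.mem_univ p, rfl⟩)
  refine le_trans ?_ h1
  have h2 := mul_le_mul_of_nonneg_left (Wl_cen_ge hl hp) (Ght_nonneg (N := N) hb ht p)
  linarith

theorem abs_Gck_sub_le (hb : 0 ≤ b) (hl : l ∣ N) (ht : 0 < t) (hc : 0 < c)
    (hdom : ∀ q : V N, Ght N b t q ≤ (t + c * EE q)⁻¹) {p : V N} (hp : cen l p) :
    |Gck N l b t t (rd p) - Ght N b t p| ≤ 6 * (l : ℝ) ^ 2 / c := by
  have hlp : (0 : ℝ) < l := by exact_mod_cast l_pos hl
  set C := Ght N b t p + (l : ℝ) ^ 2 / (4 * c) with hC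
  have hp0 := Ght_nonneg (N := N) hb ht p
  have h1 : ∀ q : V N, (rd q : V (N / l)) = rd p →
      |sym (Gm (wt N b t)) q - sym (Gm (wt N b t)) p| ≤ C := by
    intro q hq
    rw [sym_Gm_wt, sym_Gm_wt]
    by_cases hne : q = p
    · rw [hne, sub_self, abs_zero]
      positivity
    · have h2 := EE_alias_ge hl hp hq hne
      have h3 := Ght_nonneg (N := N) hb ht q
      have h4 : Ght N b t q ≤ (l : ℝ) ^ 2 / (4 * c) := by
        refine (hdom q).trans ?_
        rw [inv_eq_one_div, div_le_div_iff₀ (by nlinarith [TM.H764.EE_nonneg q]) (by positivity)]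
        have h5 : 4 ≤ (l : ℝ) ^ 2 * EE q := by
          rw [div_le_iff₀ (by positivity)] at h2
          linarith
        nlinarith [mul_pos (pow_pos hlp 2) ht]
      rw [abs_le]
      constructor
      · have : (0 : ℝ) ≤ (l : ℝ) ^ 2 / (4 * c) := by positivity
        linarith
      · linarith
  have h2 := abs_sym_Gc_sub_le hl (ti_Gm_wt (b := b) t) h1
  rw [sym_Gm_wt] at h2
  have e : Gck N l b t t (rd p) = sym (Gc l (Gm (wt N b t))) (rd p) := by
    unfold Gck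
    rw [GM_self]
  rw [e]
  refine h2.trans ?_
  have h3 := EE_cen_small hl hp
  have h4 : EE p * Ght N b t p ≤ 1 / c := by
    have h5 := TM.H764.EE_nonneg p
    have h6 := mul_le_mul_of_nonneg_left (hdom p) h5
    refine h6.trans ?_
    rw [← div_eq_mul_inv, div_le_div_iff₀ (by nlinarith) hc]
    nlinarith
  have h7 : (l : ℝ) ^ 2 * EE p * C = (l : ℝ) ^ 2 * (EE p * Ght N b t p) +
      (l : ℝ) ^ 2 * EE p * ((l : ℝ) ^ 2 / (4 * c)) := by
    rw [hC]
    ring
  rw [h7]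
  have h8 := mul_le_mul_of_nonneg_left h4 (sq_nonneg (l : ℝ))
  have h9 : (l : ℝ) ^ 2 * EE p * ((l : ℝ) ^ 2 / (4 * c)) ≤ 20 * ((l : ℝ) ^ 2 / (4 * c)) :=
    mul_le_mul_of_nonneg_right h3 (by positivity)
  have e2 : 6 * (l : ℝ) ^ 2 / c = (l : ℝ) ^ 2 * (1 / c) + 20 * ((l : ℝ) ^ 2 / (4 * c)) := by
    field_simp
    ring
  rw [e2]
  exact add_le_add h8 h9

/-- **cell self energy versus self energy** at the central alias -/
theorem abs_PiCk_sub_le (hb : 0 < b) (hl : l ∣ N) (ht : 0 < t) (hc : 0 < c)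
    (hdom : ∀ q : V N, Ght N b t q ≤ (t + c * EE q)⁻¹) {p : V N} (hp : cen l p) :
    |PiCk N l b t t (rd p) - Pik N b t p| ≤ 216 * (l : ℝ) ^ 2 / c * (t + Pik N b t p) ^ 2 := by
  have h1 := abs_Gck_sub_le hb.le hl ht hc hdom hp
  have h2 := Gck_ge hb.le hl ht hp
  have hg := Ght_pos (N := N) hb ht p
  have hG := Gck_pos (N := N) (l := l) hb hl ht le_rfl (rd p)
  have e1 : t + Pik N b t p = (Ght N b t p)⁻¹ := by
    unfold Pik
    ring
  rw [e1]
  unfold PiCk Pik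
  have e2 : (Gck N l b t t (rd p))⁻¹ - t - ((Ght N b t p)⁻¹ - t) =
      -(Gck N l b t t (rd p) - Ght N b t p) * ((Gck N l b t t (rd p))⁻¹ * (Ght N b t p)⁻¹) := by
    field_simp
    ring
  rw [e2, abs_mul, abs_neg, abs_of_pos (by positivity :
    0 < (Gck N l b t t (rd p))⁻¹ * (Ght N b t p)⁻¹)]
  have h3 : (Gck N l b t t (rd p))⁻¹ ≤ 36 * (Ght N b t p)⁻¹ := by
    have h4 : (Gck N l b t t (rd p))⁻¹ ≤ (Ght N b t p / 36)⁻¹ := inv_anti₀ (by positivity) h2
    refine h4.trans (le_of_eq ?_)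
    rw [inv_div, div_eq_mul_inv]
  have h5 : (Gck N l b t t (rd p))⁻¹ * (Ght N b t p)⁻¹ ≤ 36 * (Ght N b t p)⁻¹ ^ 2 := by
    have h6 := mul_le_mul_of_nonneg_right h3 (inv_pos.2 hg).le
    refine h6.trans (le_of_eq ?_)
    ring
  refine (mul_le_mul h1 h5 (by positivity) (by positivity)).trans (le_of_eq ?_)
  ring

end gck

end

end Vale.Agent.P159.H864
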