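import Vale.Agent.P159.TM.H764.Hyp
import Vale.Agent.P159.H37.Spec0L

/-!
P159, module FOU (helper864), part 1: translation invariant symmetric matrices on the torus
`V N = ZMod N × ZMod N` and their Fourier symbols.

* `TI A`: `A` is symmetric and invariant under all translations.  Closed under `+, -, •, *, ⁻¹`,
  such matrices commute.
* `sym A k = ∑_z A 0 z cos (2 π k·z / N)` (`= Gh (A 0) k` of `H764`): `sym_add, sym_smul, sym_mul,
  sym_one, sym_inv`, `sym_inj`.
* `mlt φ`: the matrix with the (even) symbol `φ`; `fc f A` = `f(A)`.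
* `qf_eq_sum`, `qf_le_iff`, `psd_iff`, `trace_eq`, `diag_eq`.
* `lapM`: the lattice Laplacian, symbol `EE`.
-/

set_option linter.unusedSectionVars false

namespace Vale.Agent.P159.H864

open Finset Matrix
open Vale.Agent.P159.TM.H764 (Gh cN sN dt ch EE frm grd)
open Vale.Agent.P159.TM.Spec (V)
open Vale.Agent.P159.H37 (qf bf)

noncomputable section

variable {N : ℕ} [NeZero N]

/-! ### characters -/

lemma dt_comm (k x : V N) : dt k x = dt x k := by
  unfold dt; ring

lemma dt_neg (k x : V N) : dt k (-x) = -dt k x := by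
  unfold dt; simp; ring

lemma dt_neg_left (k x : V N) : dt (-k) x = -dt k x := by
  unfold dt; simp; ring

lemma dt_add_left (j k x : V N) : dt (j + k) x = dt j x + dt k x := by
  unfold dt; simp; ring

lemma dt_sub_left (j k x : V N) : dt (j - k) x = dt j x - dt k x := by
  unfold dt; simp; ring

lemma dt_zero (k : V N) : dt k 0 = 0 := by
  unfold dt; simp

lemma dt_zero_left (k : V N) : dt 0 k = 0 := by
  unfold dt; simp

lemma N_pos : (0 : ℝ) < (N : ℝ) ^ 2 := by
  have : (0 : ℝ) < N := by exact_mod_cast NeZero.pos N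
  positivity

/-- `∑_z cos (k·z) = N² [k = 0]` -/
lemma sum_cN (k : V N) : ∑ z : V N, cN (dt k z) = if k = 0 then (N : ℝ) ^ 2 else 0 := by
  have h := congrArg Complex.re (TM.H764.sum_ch k)
  rw [Complex.re_sum] at h
  have h1 : ∀ z : V N, (ch (dt z k)).re = cN (dt k z) := by
    intro z
    rw [TM.H764.ch_re, dt_comm]
  simp_rw [h1] at h
  rw [h]
  by_cases hk : k = 0
  · rw [if_pos hk, if_pos hk]
    have : ((N : ℂ) ^ 2) = (((N : ℝ) ^ 2 : ℝ) : ℂ) := by push_cast; ring
    rw [this, Complex.ofReal_re]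
  · rw [if_neg hk, if_neg hk, Complex.zero_re]

lemma cN_mul_cN (a b : ZMod N) : cN a * cN b = (cN (a + b) + cN (a - b)) / 2 := by
  rw [TM.H764.cN_add, TM.H764.cN_sub]; ring

/-- orthogonality of the cosines -/
lemma sum_cN_mul (j k : V N) : ∑ z : V N, cN (dt j z) * cN (dt k z) =
    ((if j + k = 0 then (N : ℝ) ^ 2 else 0) + (if j - k = 0 then (N : ℝ) ^ 2 else 0)) / 2 := by
  rw [← sum_cN, ← sum_cN, ← Finset.sum_add_distrib, Finset.sum_div]
  refine Finset.sum_congr rfl fun z _ => ?_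
  rw [cN_mul_cN, dt_add_left, dt_sub_left]

/-! ### translation invariant symmetric matrices -/

/-- translation invariant symmetric matrices -/
structure TI (A : Matrix (V N) (V N) ℝ) : Prop where
  tr : ∀ a x y, A (x + a) (y + a) = A x y
  sy : ∀ x y, A x y = A y x

/-- the symbol -/
def sym (A : Matrix (V N) (V N) ℝ) (k : V N) : ℝ := Gh (A 0) k

lemma sym_def (A : Matrix (V N) (V N) ℝ) (k : V N) : sym A k = ∑ z, A 0 z * cN (dt k z) := rfl

lemma sym_neg_arg (A : Matrix (V N) (V N) ℝ) (k : V N) : sym A (-k) = sym A k := by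
  rw [sym_def, sym_def]
  refine Finset.sum_congr rfl fun z _ => ?_
  rw [dt_neg_left, TM.H764.cN_neg]

variable {A B : Matrix (V N) (V N) ℝ}

lemma TI.eq (h : TI A) (x y : V N) : A x y = A 0 (y - x) := by
  have h1 := h.tr x 0 (y - x)
  rwa [zero_add, sub_add_cancel] at h1

lemma TI.ev (h : TI A) (z : V N) : A 0 (-z) = A 0 z := by
  have h1 := h.tr z 0 (-z)
  rw [zero_add, neg_add_cancel] at h1
  rw [← h1, h.sy]

lemma TI.transpose (h : TI A) : Aᵀ = A := by
  ext x y
  rw [Matrix.transpose_apply, h.sy]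

lemma TI.diag (h : TI A) (x : V N) : A x x = A 0 0 := by
  rw [h.eq, sub_self]

lemma TI.of_ker {K : V N → ℝ} (hK : ∀ z, K (-z) = K z) :
    TI (Matrix.of fun x y => K (y - x) : Matrix (V N) (V N) ℝ) where
  tr a x y := by
    simp only [Matrix.of_apply, add_sub_add_right_eq_sub]
  sy x y := by
    simp only [Matrix.of_apply]
    rw [← hK, neg_sub]

lemma TI.zero : TI (0 : Matrix (V N) (V N) ℝ) := ⟨fun _ _ _ => rfl, fun _ _ => rfl⟩

lemma TI.one : TI (1 : Matrix (V N) (V N) ℝ) where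
  tr a x y := by
    rw [Matrix.one_apply, Matrix.one_apply]
    simp only [add_left_inj]
  sy x y := by
    rw [Matrix.one_apply, Matrix.one_apply]
    simp only [eq_comm]

lemma TI.add (hA : TI A) (hB : TI B) : TI (A + B) where
  tr a x y := by rw [Matrix.add_apply, Matrix.add_apply, hA.tr, hB.tr]
  sy x y := by rw [Matrix.add_apply, Matrix.add_apply, hA.sy, hB.sy]

lemma TI.smul (c : ℝ) (hA : TI A) : TI (c • A) where
  tr a x y := by rw [Matrix.smul_apply, Matrix.smul_apply, hA.tr]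
  sy x y := by rw [Matrix.smul_apply, Matrix.smul_apply, hA.sy]

lemma TI.neg (hA : TI A) : TI (-A) where
  tr a x y := by rw [Matrix.neg_apply, Matrix.neg_apply, hA.tr]
  sy x y := by rw [Matrix.neg_apply, Matrix.neg_apply, hA.sy]

lemma TI.sub (hA : TI A) (hB : TI B) : TI (A - B) where
  tr a x y := by rw [Matrix.sub_apply, Matrix.sub_apply, hA.tr, hB.tr]
  sy x y := by rw [Matrix.sub_apply, Matrix.sub_apply, hA.sy, hB.sy]

lemma TI.comm (hA : TI A) (hB : TI B) : A * B = B * A := by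
  ext x y
  rw [Matrix.mul_apply, Matrix.mul_apply, ← Equiv.sum_comp (Equiv.subLeft (x + y))]
  refine Finset.sum_congr rfl fun z _ => ?_
  simp only [Equiv.subLeft_apply]
  rw [hA.eq x, hB.eq _ y, hA.eq z y, hB.eq x z, mul_comm]
  congr 2
  · abel
  · abel

lemma TI.mul (hA : TI A) (hB : TI B) : TI (A * B) where
  tr a x y := by
    rw [Matrix.mul_apply, Matrix.mul_apply, ← Equiv.sum_comp (Equiv.addRight a)]
    refine Finset.sum_congr rfl fun z _ => ?_
    simp only [Equiv.coe_addRight]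
    rw [hA.tr, hB.tr]
  sy x y := by
    have h1 : (A * B)ᵀ = A * B := by
      rw [Matrix.transpose_mul, hA.transpose, hB.transpose, hB.comm hA]
    have h2 := congrFun (congrFun h1 y) x
    rw [Matrix.transpose_apply] at h2
    exact h2

lemma TI.inv (hA : TI A) : TI A⁻¹ where
  tr a x y := by
    have h1 : A.submatrix (Equiv.addRight a) (Equiv.addRight a) = A := by
      ext x y
      simp only [Matrix.submatrix_apply, Equiv.coe_addRight, hA.tr]
    have h2 : A⁻¹.submatrix (Equiv.addRight a) (Equiv.addRight a) = A⁻¹ := by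
      rw [← Matrix.inv_submatrix_equiv, h1]
    have h3 := congrFun (congrFun h2 x) y
    simpa only [Matrix.submatrix_apply, Equiv.coe_addRight] using h3
  sy x y := by
    have h1 : (A⁻¹)ᵀ = A⁻¹ := by
      rw [Matrix.transpose_nonsing_inv, hA.transpose]
    have h2 := congrFun (congrFun h1 y) x
    rw [Matrix.transpose_apply] at h2
    exact h2

lemma TI.pow (hA : TI A) (n : ℕ) : TI (A ^ n) := by
  induction n with
  | zero => rw [pow_zero]; exact TI.one
  | succ n ih => rw [pow_succ]; exact ih.mul hA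

lemma TI.sum {ι : Type*} (s : Finset ι) {F : ι → Matrix (V N) (V N) ℝ} (h : ∀ i ∈ s, TI (F i)) :
    TI (∑ i ∈ s, F i) := by
  classical
  induction s using Finset.induction_on with
  | empty => rw [Finset.sum_empty]; exact TI.zero
  | insert a s ha ih =>
    rw [Finset.sum_insert ha]
    exact (h a (Finset.mem_insert_self a s)).add
      (ih fun i hi => h i (Finset.mem_insert_of_mem hi))

/-! ### plane waves -/

lemma TI.sum_sN (hA : TI A) (k : V N) : ∑ z, A 0 z * sN (dt k z) = 0 := by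
  have h1 : ∑ z, A 0 z * sN (dt k z) = -∑ z, A 0 z * sN (dt k z) := by
    rw [← Finset.sum_neg_distrib, ← Equiv.sum_comp (Equiv.neg (V N))]
    refine Finset.sum_congr rfl fun z _ => ?_
    simp only [Equiv.neg_apply]
    rw [hA.ev, dt_neg, TM.H764.sN_neg]
    ring
  linarith

lemma TI.mulVec_cN (hA : TI A) (k : V N) :
    A *ᵥ (fun x => cN (dt k x)) = sym A k • fun x => cN (dt k x) := by
  funext x
  have h1 : (A *ᵥ fun x => cN (dt k x)) x = ∑ z, A 0 z * cN (dt k (z + x)) := by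
    unfold Matrix.mulVec dotProduct
    rw [← Equiv.sum_comp (Equiv.addRight x)]
    refine Finset.sum_congr rfl fun z _ => ?_
    simp only [Equiv.coe_addRight]
    rw [hA.eq x, add_sub_cancel_right]
  rw [h1, Pi.smul_apply, smul_eq_mul, sym_def, Finset.sum_mul]
  have h2 : ∀ z, A 0 z * cN (dt k (z + x)) =
      A 0 z * cN (dt k z) * cN (dt k x) - sN (dt k x) * (A 0 z * sN (dt k z)) := by
    intro z
    rw [TM.H764.dt_add, TM.H764.cN_add]
    ring
  simp_rw [h2]
  rw [Finset.sum_sub_distrib, ← Finset.mul_sum, hA.sum_sN, mul_zero, sub_zero]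

lemma TI.mulVec_sN (hA : TI A) (k : V N) :
    A *ᵥ (fun x => sN (dt k x)) = sym A k • fun x => sN (dt k x) := by
  funext x
  have h1 : (A *ᵥ fun x => sN (dt k x)) x = ∑ z, A 0 z * sN (dt k (z + x)) := by
    unfold Matrix.mulVec dotProduct
    rw [← Equiv.sum_comp (Equiv.addRight x)]
    refine Finset.sum_congr rfl fun z _ => ?_
    simp only [Equiv.coe_addRight]
    rw [hA.eq x, add_sub_cancel_right]
  rw [h1, Pi.smul_apply, smul_eq_mul, sym_def, Finset.sum_mul]
  have h2 : ∀ z, A 0 z * sN (dt k (z + x)) =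
      A 0 z * cN (dt k z) * sN (dt k x) + cN (dt k x) * (A 0 z * sN (dt k z)) := by
    intro z
    rw [TM.H764.dt_add, TM.H764.sN_add]
    ring
  simp_rw [h2]
  rw [Finset.sum_add_distrib, ← Finset.mul_sum, hA.sum_sN, mul_zero, add_zero]

/-! ### the symbol -/

lemma sym_eq_mulVec (A : Matrix (V N) (V N) ℝ) (k : V N) :
    sym A k = (A *ᵥ fun x => cN (dt k x)) 0 := rfl

lemma sym_zero (k : V N) : sym (0 : Matrix (V N) (V N) ℝ) k = 0 := by
  rw [sym_def]
  simp

lemma sym_add (A B : Matrix (V N) (V N) ℝ) (k : V N) : sym (A + B) k = sym A k + sym B k := by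
  simp only [sym_def, Matrix.add_apply, add_mul, Finset.sum_add_distrib]

lemma sym_sub (A B : Matrix (V N) (V N) ℝ) (k : V N) : sym (A - B) k = sym A k - sym B k := by
  simp only [sym_def, Matrix.sub_apply, sub_mul, Finset.sum_sub_distrib]

lemma sym_neg (A : Matrix (V N) (V N) ℝ) (k : V N) : sym (-A) k = -sym A k := by
  simp only [sym_def, Matrix.neg_apply, neg_mul, Finset.sum_neg_distrib]

lemma sym_smul (c : ℝ) (A : Matrix (V N) (V N) ℝ) (k : V N) : sym (c • A) k = c * sym A k := by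
  simp only [sym_def, Matrix.smul_apply, smul_eq_mul, mul_assoc, Finset.mul_sum]

lemma sym_sum {ι : Type*} (s : Finset ι) (F : ι → Matrix (V N) (V N) ℝ) (k : V N) :
    sym (∑ i ∈ s, F i) k = ∑ i ∈ s, sym (F i) k := by
  classical
  induction s using Finset.induction_on with
  | empty => rw [Finset.sum_empty, Finset.sum_empty, sym_zero]
  | insert a s ha ih => rw [Finset.sum_insert ha, Finset.sum_insert ha, sym_add, ih]

lemma sym_one (k : V N) : sym (1 : Matrix (V N) (V N) ℝ) k = 1 := by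
  rw [sym_eq_mulVec, Matrix.one_mulVec, dt_zero, TM.H764.cN_zero]

lemma sym_smul_one (c : ℝ) (k : V N) : sym (c • (1 : Matrix (V N) (V N) ℝ)) k = c := by
  rw [sym_smul, sym_one, mul_one]

lemma sym_mul (hA : TI A) (hB : TI B) (k : V N) : sym (A * B) k = sym A k * sym B k := by
  rw [sym_eq_mulVec, ← Matrix.mulVec_mulVec, hB.mulVec_cN, Matrix.mulVec_smul, hA.mulVec_cN]
  simp only [Pi.smul_apply, smul_eq_mul]
  rw [dt_zero, TM.H764.cN_zero]
  ring

lemma sym_pow (hA : TI A) (n : ℕ) (k : V N) : sym (A ^ n) k = sym A k ^ n := by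
  induction n with
  | zero => rw [pow_zero, pow_zero, sym_one]
  | succ n ih => rw [pow_succ, pow_succ, sym_mul (hA.pow n) hA, ih]

lemma sym_mul_inv (hA : TI A) (hd : IsUnit A.det) (k : V N) : sym A k * sym A⁻¹ k = 1 := by
  rw [← sym_mul hA hA.inv, Matrix.mul_nonsing_inv _ hd, sym_one]

lemma sym_ne_zero (hA : TI A) (hd : IsUnit A.det) (k : V N) : sym A k ≠ 0 := by
  intro h
  have := sym_mul_inv hA hd k
  rw [h, zero_mul] at this
  exact zero_ne_one this

lemma sym_inv (hA : TI A) (hd : IsUnit A.det) (k : V N) : sym A⁻¹ k = (sym A k)⁻¹ :=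
  eq_inv_of_mul_eq_one_right (sym_mul_inv hA hd k)

/-- Fourier inversion -/
lemma TI.inversion (hA : TI A) (x y : V N) :
    A x y = ((N : ℝ) ^ 2)⁻¹ * ∑ k, sym A k * cN (dt k (y - x)) := by
  have h1 : ∑ k, sym A k * cN (dt k (y - x)) =
      ∑ w, A 0 w * ∑ k, cN (dt w k) * cN (dt (y - x) k) := by
    simp_rw [sym_def, Finset.sum_mul, Finset.mul_sum]
    rw [Finset.sum_comm]
    refine Finset.sum_congr rfl fun w _ => Finset.sum_congr rfl fun k _ => ?_
    rw [dt_comm k w, dt_comm k (y - x)]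
    ring
  have h2 : ∑ w, A 0 w * ∑ k, cN (dt w k) * cN (dt (y - x) k) = (N : ℝ) ^ 2 * A 0 (y - x) := by
    simp_rw [sum_cN_mul]
    have h3 : ∀ w : V N, A 0 w * (((if w + (y - x) = 0 then (N : ℝ) ^ 2 else 0) +
        (if w - (y - x) = 0 then (N : ℝ) ^ 2 else 0)) / 2) =
        (if w = -(y - x) then (N : ℝ) ^ 2 / 2 * A 0 w else 0) +
        (if w = y - x then (N : ℝ) ^ 2 / 2 * A 0 w else 0) := by
      intro w
      have e1 : (w + (y - x) = 0) ↔ (w = -(y - x)) := ⟨fun h => eq_neg_of_add_eq_zero_left h,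
        fun h => by rw [h, neg_add_cancel]⟩
      have e2 : (w - (y - x) = 0) ↔ (w = y - x) := sub_eq_zero
      simp_rw [e1, e2]
      split_ifs <;> ring
    simp_rw [h3]
    rw [Finset.sum_add_distrib, Finset.sum_ite_eq', Finset.sum_ite_eq']
    simp only [Finset.mem_univ, if_true]
    rw [hA.ev]
    ring
  rw [h1, h2, hA.eq x y]
  have := TM.H764.N_ne (N := N)
  field_simp

lemma sym_inj (hA : TI A) (hB : TI B) (h : ∀ k, sym A k = sym B k) : A = B := by
  ext x y
  rw [hA.inversion, hB.inversion]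
  simp_rw [h]

lemma TI.diag_eq (hA : TI A) (x : V N) : A x x = ((N : ℝ) ^ 2)⁻¹ * ∑ k, sym A k := by
  rw [hA.inversion]
  congr 1
  refine Finset.sum_congr rfl fun k _ => ?_
  rw [sub_self, dt_zero, TM.H764.cN_zero, mul_one]

lemma TI.trace_eq (hA : TI A) : A.trace = ∑ k, sym A k := by
  unfold Matrix.trace
  simp only [Matrix.diag_apply]
  simp_rw [hA.diag_eq]
  rw [Finset.sum_const, Finset.card_univ, nsmul_eq_mul, TM.H764.card_V]
  have := TM.H764.N_ne (N := N)
  field_simp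

/-! ### multipliers, functional calculus -/

/-- the translation invariant matrix with (even) symbol `φ` -/
def mlt (φ : V N → ℝ) : Matrix (V N) (V N) ℝ :=
  Matrix.of fun x y => ((N : ℝ) ^ 2)⁻¹ * ∑ k, φ k * cN (dt k (y - x))

lemma ti_mlt (φ : V N → ℝ) : TI (mlt φ) := by
  refine TI.of_ker (K := fun z => ((N : ℝ) ^ 2)⁻¹ * ∑ k, φ k * cN (dt k z)) fun z => ?_
  congr 1
  refine Finset.sum_congr rfl fun k _ => ?_
  rw [dt_neg, TM.H764.cN_neg]

lemma sym_mlt (φ : V N → ℝ) (hφ : ∀ k, φ (-k) = φ k) (k : V N) : sym (mlt φ) k = φ k := by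
  have h1 : sym (mlt φ) k = ((N : ℝ) ^ 2)⁻¹ * ∑ j, φ j * ∑ z, cN (dt j z) * cN (dt k z) := by
    rw [sym_def]
    simp only [mlt, Matrix.of_apply, sub_zero]
    simp_rw [mul_assoc, ← Finset.mul_sum]
    congr 1
    simp_rw [Finset.sum_mul, Finset.mul_sum]
    rw [Finset.sum_comm]
    refine Finset.sum_congr rfl fun j _ => Finset.sum_congr rfl fun z _ => ?_
    ring
  rw [h1]
  simp_rw [sum_cN_mul]
  have h3 : ∀ j : V N, φ j * (((if j + k = 0 then (N : ℝ) ^ 2 else 0) +
      (if j - k = 0 then (N : ℝ) ^ 2 else 0)) / 2) =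
      (if j = -k then (N : ℝ) ^ 2 / 2 * φ j else 0) +
      (if j = k then (N : ℝ) ^ 2 / 2 * φ j else 0) := by
    intro j
    have e1 : (j + k = 0) ↔ (j = -k) := ⟨fun h => eq_neg_of_add_eq_zero_left h,
      fun h => by rw [h, neg_add_cancel]⟩
    have e2 : (j - k = 0) ↔ (j = k) := sub_eq_zero
    simp_rw [e1, e2]
    split_ifs <;> ring
  simp_rw [h3]
  rw [Finset.sum_add_distrib, Finset.sum_ite_eq', Finset.sum_ite_eq']
  simp only [Finset.mem_univ, if_true]
  rw [hφ]
  have := TM.H764.N_ne (N := N)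
  field_simp
  ring

lemma mlt_sym (hA : TI A) : mlt (sym A) = A :=
  sym_inj (ti_mlt _) hA fun k => sym_mlt _ (sym_neg_arg A) k

lemma mlt_mul (φ ψ : V N → ℝ) (hφ : ∀ k, φ (-k) = φ k) (hψ : ∀ k, ψ (-k) = ψ k) :
    mlt φ * mlt ψ = mlt fun k => φ k * ψ k := by
  refine sym_inj ((ti_mlt _).mul (ti_mlt _)) (ti_mlt _) fun k => ?_
  rw [sym_mul (ti_mlt _) (ti_mlt _), sym_mlt _ hφ, sym_mlt _ hψ, sym_mlt]
  intro k
  rw [hφ, hψ]

/-- `f(A)` -/
def fc (f : ℝ → ℝ) (A : Matrix (V N) (V N) ℝ) : Matrix (V N) (V N) ℝ := mlt fun k => f (sym A k)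

lemma ti_fc (f : ℝ → ℝ) (A : Matrix (V N) (V N) ℝ) : TI (fc f A) := ti_mlt _

lemma sym_fc (f : ℝ → ℝ) (A : Matrix (V N) (V N) ℝ) (k : V N) : sym (fc f A) k = f (sym A k) :=
  sym_mlt _ (fun k => by rw [sym_neg_arg]) k

/-- invertibility from the symbol -/
lemma isUnit_det (hA : TI A) (h : ∀ k, sym A k ≠ 0) : IsUnit A.det := by
  have h1 : A * fc (fun r => r⁻¹) A = 1 := by
    refine sym_inj (hA.mul (ti_fc _ _)) TI.one fun k => ?_
    rw [sym_mul hA (ti_fc _ _), sym_fc, sym_one, mul_inv_cancel₀ (h k)]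
  have h2 := congrArg Matrix.det h1
  rw [Matrix.det_mul, Matrix.det_one] at h2
  exact IsUnit.of_mul_eq_one _ h2

lemma isUnit_det_iff (hA : TI A) : IsUnit A.det ↔ ∀ k, sym A k ≠ 0 :=
  ⟨fun h k => sym_ne_zero hA h k, isUnit_det hA⟩

lemma sym_inv' (hA : TI A) (h : ∀ k, sym A k ≠ 0) (k : V N) : sym A⁻¹ k = (sym A k)⁻¹ :=
  sym_inv hA (isUnit_det hA h) k

/-! ### quadratic forms -/

/-- `|û(k)|²` -/
def hsq (u : V N → ℝ) (k : V N) : ℝ := Complex.normSq (TM.H764.hatu u k)

lemma hsq_nonneg (u : V N → ℝ) (k : V N) : 0 ≤ hsq u k := Complex.normSq_nonneg _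

lemma qf_eq_frm (hA : TI A) (u : V N → ℝ) : qf A u = frm (A 0) u := by
  unfold qf frm
  refine Finset.sum_congr rfl fun x _ => Finset.sum_congr rfl fun y _ => ?_
  rw [hA.eq x y]
  ring

lemma qf_eq_sum (hA : TI A) (u : V N → ℝ) :
    qf A u = ((N : ℝ) ^ 2)⁻¹ * ∑ k, sym A k * hsq u k := by
  have h := TM.H764.parseval (A 0) u
  rw [← qf_eq_frm hA] at h
  unfold hsq sym
  rw [← h]
  have := TM.H764.N_ne (N := N)
  field_simp

lemma qf_wave (hA : TI A) (k : V N) : qf A (fun x => cN (dt k x)) + qf A (fun x => sN (dt k x)) =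
    (N : ℝ) ^ 2 * sym A k := by
  rw [qf_eq_frm hA, qf_eq_frm hA]
  exact TM.H764.frm_wave (A 0) k

lemma psd_iff (hA : TI A) : (∀ u, 0 ≤ qf A u) ↔ ∀ k, 0 ≤ sym A k := by
  constructor
  · intro h k
    have h1 := qf_wave hA k
    have h2 := h (fun x => cN (dt k x))
    have h3 := h (fun x => sN (dt k x))
    by_contra hc
    push Not at hc
    have := mul_neg_of_pos_of_neg (N_pos (N := N)) hc
    linarith
  · intro h u
    rw [qf_eq_sum hA]
    exact mul_nonneg (inv_nonneg.2 N_pos.le)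
      (Finset.sum_nonneg fun k _ => mul_nonneg (h k) (hsq_nonneg u k))

lemma qf_sub_mat (A B : Matrix (V N) (V N) ℝ) (u : V N → ℝ) : qf (A - B) u = qf A u - qf B u := by
  unfold qf
  simp only [Matrix.sub_apply, mul_sub, sub_mul, Finset.sum_sub_distrib]

lemma qf_le_iff (hA : TI A) (hB : TI B) :
    (∀ u, qf A u ≤ qf B u) ↔ ∀ k, sym A k ≤ sym B k := by
  have h1 : (∀ u, qf A u ≤ qf B u) ↔ ∀ u, 0 ≤ qf (B - A) u := by
    refine forall_congr' fun u => ?_
    rw [qf_sub_mat, sub_nonneg]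
  rw [h1, psd_iff (hB.sub hA)]
  refine forall_congr' fun k => ?_
  rw [sym_sub, sub_nonneg]

lemma sum_hsq (u : V N → ℝ) : ((N : ℝ) ^ 2)⁻¹ * ∑ k, hsq u k = ∑ x, u x ^ 2 := by
  have h := qf_eq_sum (TI.one (N := N)) u
  simp only [sym_one, one_mul] at h
  rw [← h]
  unfold qf
  refine Finset.sum_congr rfl fun x _ => ?_
  simp only [Matrix.one_apply, mul_ite, mul_one, mul_zero, ite_mul, zero_mul]
  rw [Finset.sum_ite_eq]
  simp only [Finset.mem_univ, if_true]
  ring

/-! ### positive definiteness in Mathlib's sense -/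

lemma TI.isHermitian (hA : TI A) : A.IsHermitian := by
  rw [Matrix.IsHermitian, Matrix.conjTranspose_eq_transpose_of_trivial]
  exact hA.transpose

/-! ### the lattice Laplacian -/

/-- the kernel of the lattice Laplacian `-Δ` -/
def lapK : V N → ℝ := TM.H764.shK (fun _ => 0) 0 1

/-- the lattice Laplacian `-Δ` -/
def lapM : Matrix (V N) (V N) ℝ := mlt EE

lemma EE_neg (k : V N) : EE (-k) = EE k := by
  unfold EE
  simp only [Prod.fst_neg, Prod.snd_neg, TM.H764.cN_neg]

lemma ti_lapM : TI (lapM (N := N)) := ti_mlt _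

lemma sym_lapM (k : V N) : sym lapM k = EE k := sym_mlt _ EE_neg k

lemma qf_lapM (u : V N → ℝ) : qf lapM u = grd u := by
  have h1 := TM.H764.parseval (TM.H764.shK (N := N) (fun _ => 0) 0 1) u
  rw [TM.H764.frm_shK] at h1
  have h2 : frm (fun _ : V N => (0 : ℝ)) u = 0 := by
    unfold frm
    simp
  rw [h2] at h1
  have h3 : ∀ k : V N, Gh (TM.H764.shK (N := N) (fun _ => 0) 0 1) k = EE k := by
    intro k
    rw [TM.H764.Gh_shK]
    have : Gh (fun _ : V N => (0 : ℝ)) k = 0 := by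
      rw [TM.H764.Gh_dt]
      simp
    rw [this]
    ring
  simp_rw [h3] at h1
  rw [qf_eq_sum ti_lapM]
  simp_rw [sym_lapM]
  have h4 : ∑ k, EE k * hsq u k = (N : ℝ) ^ 2 * grd u := by
    unfold hsq
    rw [← h1]
    ring
  rw [h4]
  have := TM.H764.N_ne (N := N)
  field_simp

end

end Vale.Agent.P159.H864
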