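import Vale.Agent.P159.H864.Cel2

/-!
P159, module CELL (helper864), part 4 (CE4): aliasing.

* `rd : V N → V (N / l)` reduction of the momenta, `ch_dt_up`.
* `Dl l p` : Fourier transform of the cell `0`, `Wl l p = |Dl l p|² / l⁴`; `sum_Wl`, `Wl_nonneg`,
  `one_sub_Wl_le : 1 - Wl l p ≤ l² EE p`.
* `sym_Gc` : `sym (Gc l A) k = ∑_{p ≡ k} sym A p * Wl l p`.
* `EE_rd_le` : `EE (rd p) ≤ l² EE p`;  `sym_Gc_le` (comparison with an antitone function of `EE`).
-/

set_option linter.unusedSectionVars false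

namespace Vale.Agent.P159.H864

open Finset Matrix MeasureTheory
open Vale.Agent.P159.TM.H764 (Gh cN sN dt ch EE frm grd hatu)
open Vale.Agent.P159.TM.H104 (EM Ex Cv K3 Lg li nh Gr)
open Vale.Agent.P159.H37
open Vale.Agent.P159.TM.Spec (V)
open Vale.Agent.P159.TM.SpecC (wT ms)

noncomputable section

/-! ### elementary inequalities -/

lemma abs_sin_nat_mul_le (n : ℕ) (x : ℝ) : |Real.sin (n * x)| ≤ n * |Real.sin x| := by
  induction n with
  | zero => simp
  | succ n ih =>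
    have e : ((n + 1 : ℕ) : ℝ) * x = n * x + x := by push_cast; ring
    rw [e, Real.sin_add]
    refine (abs_add_le _ _).trans ?_
    rw [abs_mul, abs_mul]
    have h1 := Real.abs_cos_le_one x
    have h2 := Real.abs_cos_le_one (n * x)
    have h3 := abs_nonneg (Real.sin x)
    have h4 := abs_nonneg (Real.sin (n * x))
    push_cast
    nlinarith

/-- `1 - cos (n x) ≤ n² (1 - cos x)` -/
lemma one_sub_cos_nat_mul_le (n : ℕ) (x : ℝ) :
    1 - Real.cos (n * x) ≤ (n : ℝ) ^ 2 * (1 - Real.cos x) := by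
  have e : ∀ y : ℝ, 1 - Real.cos y = 2 * Real.sin (y / 2) ^ 2 := by
    intro y
    have h := Real.cos_sq_add_sin_sq (y / 2)
    have h2 := Real.cos_two_mul (y / 2)
    rw [mul_div_cancel₀ y two_ne_zero] at h2
    rw [h2]
    linarith
  rw [e, e]
  have h1 := abs_sin_nat_mul_le n (x / 2)
  have e2 : (n : ℝ) * x / 2 = n * (x / 2) := by ring
  rw [e2]
  have h3 : Real.sin (n * (x / 2)) ^ 2 ≤ (n * |Real.sin (x / 2)|) ^ 2 := by
    rw [← sq_abs (Real.sin (n * (x / 2)))]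
    exact pow_le_pow_left₀ (abs_nonneg _) h1 2
  rw [mul_pow, sq_abs] at h3
  linarith

lemma one_sub_cos_add_le (x y : ℝ) :
    1 - Real.cos (x + y) ≤ 2 * (1 - Real.cos x) + 2 * (1 - Real.cos y) := by
  rw [Real.cos_add]
  have h1 := Real.cos_sq_add_sin_sq x
  have h2 := Real.cos_sq_add_sin_sq y
  nlinarith [sq_nonneg (Real.sin x - Real.sin y), sq_nonneg (Real.cos x - 1),
    sq_nonneg (Real.cos y - 1), sq_nonneg (Real.cos x + Real.cos y - 2),
    sq_nonneg (Real.cos x - Real.cos y)]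

section alia

variable {N l : ℕ} [NeZero N] [NeZero (N / l)]

/-! ### reduction of the momenta -/

/-- reduction of a momentum, one coordinate -/
def rd1 (p : ZMod N) : ZMod (N / l) := ((p.val : ℕ) : ZMod (N / l))

/-- reduction of a momentum -/
def rd (p : V N) : V (N / l) := (rd1 p.1, rd1 p.2)

lemma rd1_eq (hl : l ∣ N) (p : ZMod N) :
    (rd1 p : ZMod (N / l)) = ZMod.castHom (Nat.div_dvd_of_dvd hl) (ZMod (N / l)) p := by
  rw [ZMod.castHom_apply]
  exact ZMod.natCast_val p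

lemma rd1_neg (hl : l ∣ N) (p : ZMod N) : (rd1 (-p) : ZMod (N / l)) = -rd1 p := by
  rw [rd1_eq hl, rd1_eq hl, map_neg]

lemma rd1_add (hl : l ∣ N) (p q : ZMod N) : (rd1 (p + q) : ZMod (N / l)) = rd1 p + rd1 q := by
  rw [rd1_eq hl, rd1_eq hl, rd1_eq hl, map_add]

lemma rd1_intCast (hl : l ∣ N) (m : ℤ) : (rd1 ((m : ℤ) : ZMod N) : ZMod (N / l)) = m := by
  rw [rd1_eq hl, map_intCast]

lemma rd_neg (hl : l ∣ N) (p : V N) : (rd (-p) : V (N / l)) = -rd p :=
  Prod.ext (rd1_neg hl _) (rd1_neg hl _)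

lemma rd_zero (hl : l ∣ N) : (rd (0 : V N) : V (N / l)) = 0 := by
  refine Prod.ext ?_ ?_
  · show rd1 (0 : ZMod N) = 0
    rw [rd1_eq hl, map_zero]
  · show rd1 (0 : ZMod N) = 0
    rw [rd1_eq hl, map_zero]

lemma Nl (hl : l ∣ N) : ((N / l : ℕ) : ℝ) * (l : ℝ) = (N : ℝ) := by
  exact_mod_cast Nat.div_mul_cancel hl

lemma ch_nat {n : ℕ} [NeZero n] (m : ℕ) :
    ch ((m : ℕ) : ZMod n) = Complex.exp (2 * Real.pi * Complex.I * m / n) := by
  unfold ch
  have h := ZMod.stdAddChar_coe (N := n) (m : ℤ)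
  rw [Int.cast_natCast] at h
  rw [h]
  push_cast
  rfl

lemma ch_up1 (hl : l ∣ N) (p : ZMod N) (c : ZMod (N / l)) :
    ch (p * up1 c : ZMod N) = ch (rd1 p * c : ZMod (N / l)) := by
  have e1 : p * (up1 c : ZMod N) = ((p.val * (l * c.val) : ℕ) : ZMod N) := by
    unfold up1
    push_cast
    rw [ZMod.natCast_zmod_val]
  have e2 : (rd1 p : ZMod (N / l)) * c = ((p.val * c.val : ℕ) : ZMod (N / l)) := by
    unfold rd1
    push_cast
    rw [ZMod.natCast_zmod_val]
  rw [e1, e2, ch_nat, ch_nat]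
  congr 1
  have hN : (N : ℂ) = ((N / l : ℕ) : ℂ) * (l : ℂ) := by
    exact_mod_cast (Nat.div_mul_cancel hl).symm
  have hn : ((N / l : ℕ) : ℂ) ≠ 0 := by exact_mod_cast (NeZero.ne (N / l))
  have hl0 : (l : ℂ) ≠ 0 := by exact_mod_cast (l_pos hl).ne'
  rw [hN]
  push_cast
  field_simp

lemma ch_dt_up (hl : l ∣ N) (p : V N) (c : V (N / l)) :
    ch (dt p (up c) : ZMod N) = ch (dt (rd p) c : ZMod (N / l)) := by
  show ch (p.1 * up1 c.1 + p.2 * up1 c.2 : ZMod N) = ch (rd1 p.1 * c.1 + rd1 p.2 * c.2)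
  rw [TM.H764.ch_add, TM.H764.ch_add, ch_up1 hl, ch_up1 hl]

/-! ### the Fourier transform of a cell function -/

/-- Fourier transform of the indicator of the cell `0` -/
def Dl (l : ℕ) [NeZero (N / l)] (p : V N) : ℂ :=
  ∑ x ∈ univ.filter (fun x : V N => (cl x : V (N / l)) = 0), ch (dt p x)

/-- the weight of the alias `p` -/
def Wl (l : ℕ) [NeZero (N / l)] (p : V N) : ℝ := Complex.normSq (Dl l p) / (l : ℝ) ^ 4

lemma Wl_nonneg (p : V N) : 0 ≤ Wl l p := div_nonneg (Complex.normSq_nonneg _) (by positivity)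

lemma Dl_neg (p : V N) : Dl l (-p) = (starRingEnd ℂ) (Dl l p) := by
  unfold Dl
  rw [map_sum]
  refine Finset.sum_congr rfl fun x _ => ?_
  rw [TM.H764.ch_conj, dt_neg_left]

lemma Wl_neg (p : V N) : Wl l (-p) = Wl l p := by
  unfold Wl
  rw [Dl_neg, Complex.normSq_conj]

/-- decomposition of a sum over the sites -/
lemma sum_cells {M : Type*} [AddCommMonoid M] (hl : l ∣ N) (f : V N → M) :
    ∑ x, f x = ∑ c : V (N / l), ∑ x ∈ univ.filter (fun x : V N => (cl x : V (N / l)) = 0),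
      f (x + up c) := by
  rw [← Finset.sum_fiberwise_of_maps_to (s := univ) (t := (univ : Finset (V (N / l))))
    (g := fun x : V N => (cl x : V (N / l))) fun x _ => Finset.mem_univ _]
  refine Finset.sum_congr rfl fun c _ => ?_
  rw [Finset.sum_filter, Finset.sum_filter, ← Equiv.sum_comp (Equiv.addRight (up c : V N))]
  refine Finset.sum_congr rfl fun x _ => ?_
  simp only [Equiv.coe_addRight, cl_add_up hl, add_eq_right]

lemma hatu_cobV_tr (hl : l ∣ N) (φ : V (N / l) → ℝ) (p : V N) :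
    hatu ((cobV N l)ᵀ *ᵥ φ) p = ((l : ℝ)⁻¹ : ℂ) * Dl l p * hatu φ (rd p) := by
  unfold hatu
  rw [sum_cells hl]
  have e : ∀ c : V (N / l), ∑ x ∈ univ.filter (fun x : V N => (cl x : V (N / l)) = 0),
      ((((cobV N l)ᵀ *ᵥ φ) (x + up c) : ℝ) : ℂ) * ch (dt p (x + up c)) =
        ((l : ℝ)⁻¹ : ℂ) * Dl l p * ((φ c : ℂ) * ch (dt (rd p) c)) := by
    intro c
    unfold Dl
    rw [Finset.mul_sum, Finset.sum_mul]
    refine Finset.sum_congr rfl fun x hx => ?_
    rw [Finset.mem_filter] at hx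
    rw [cobV_tr_mulVec, cl_add_up hl, hx.2, zero_add, TM.H764.dt_add, TM.H764.ch_add, ch_dt_up hl]
    push_cast
    ring
  rw [Finset.sum_congr rfl fun c _ => e c, ← Finset.mul_sum]

lemma hsq_cobV_tr (hl : l ∣ N) (φ : V (N / l) → ℝ) (p : V N) :
    hsq ((cobV N l)ᵀ *ᵥ φ) p = (l : ℝ) ^ 2 * Wl l p * hsq φ (rd p) := by
  have hlp : (0 : ℝ) < l := by exact_mod_cast l_pos hl
  unfold hsq Wl
  rw [hatu_cobV_tr hl, Complex.normSq_mul, Complex.normSq_mul]
  have e : Complex.normSq (((l : ℝ) : ℂ)⁻¹) = ((l : ℝ) ^ 2)⁻¹ := by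
    rw [map_inv₀, Complex.normSq_ofReal, pow_two]
  rw [e]
  field_simp

/-! ### the symbol of the cell matrix -/

/-- the aliased symbol -/
def als (l : ℕ) [NeZero (N / l)] (f : V N → ℝ) (k : V (N / l)) : ℝ :=
  ∑ p ∈ univ.filter (fun p : V N => rd p = k), f p * Wl l p

lemma als_neg (hl : l ∣ N) {f : V N → ℝ} (hf : ∀ p, f (-p) = f p) (k : V (N / l)) :
    als l f (-k) = als l f k := by
  unfold als
  rw [Finset.sum_filter, Finset.sum_filter, ← Equiv.sum_comp (Equiv.neg (V N))]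
  refine Finset.sum_congr rfl fun p _ => ?_
  simp only [Equiv.neg_apply]
  rw [rd_neg hl, hf, Wl_neg]
  simp only [neg_inj]

/-- **aliasing** -/
theorem sym_Gc (hl : l ∣ N) {A : Matrix (V N) (V N) ℝ} (hA : TI A) (k : V (N / l)) :
    sym (Gc l A) k = als l (sym A) k := by
  have hlp : (0 : ℝ) < l := by exact_mod_cast l_pos hl
  have hev : ∀ k : V (N / l), als l (sym A) (-k) = als l (sym A) k :=
    als_neg hl (sym_neg_arg A)
  have hB : TI (mlt (als l (sym A)) : Matrix (V (N / l)) (V (N / l)) ℝ) := ti_mlt _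
  have hG : TI (Gc l A) := ti_Gc hl hA.ct
  have key : ∀ φ : V (N / l) → ℝ, qf (Gc l A) φ =
      qf (mlt (als l (sym A)) : Matrix (V (N / l)) (V (N / l)) ℝ) φ := by
    intro φ
    rw [qf_Gc, qf_eq_sum hA, qf_eq_sum hB]
    have hNl := Nl (N := N) hl
    have hn : (0 : ℝ) < ((N / l : ℕ) : ℝ) := by exact_mod_cast NeZero.pos (N / l)
    have e1 : ∑ p, sym A p * hsq ((cobV N l)ᵀ *ᵥ φ) p =
        (l : ℝ) ^ 2 * ∑ k : V (N / l), sym (mlt (als l (sym A)) : Matrix (V (N / l)) (V (N / l)) ℝ) k *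
          hsq φ k := by
      rw [← Finset.sum_fiberwise_of_maps_to (s := univ) (t := (univ : Finset (V (N / l))))
        (g := fun p : V N => (rd p : V (N / l))) fun x _ => Finset.mem_univ _, Finset.mul_sum]
      refine Finset.sum_congr rfl fun k _ => ?_
      rw [sym_mlt _ hev]
      unfold als
      rw [Finset.sum_mul, Finset.mul_sum]
      refine Finset.sum_congr rfl fun p hp => ?_
      rw [Finset.mem_filter] at hp
      rw [hsq_cobV_tr hl, hp.2]
      ring
    rw [e1, ← hNl, mul_pow, mul_inv]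
    field_simp
  have h1 := (qf_le_iff hG hB).1 (fun φ => (key φ).le) k
  have h2 := (qf_le_iff hB hG).1 (fun φ => (key φ).ge) k
  rw [sym_mlt _ hev] at h1 h2
  exact le_antisymm h1 h2

/-- the weights of the aliases sum to one -/
theorem sum_Wl (hl : l ∣ N) (k : V (N / l)) :
    ∑ p ∈ univ.filter (fun p : V N => rd p = k), Wl l p = 1 := by
  have h := sym_Gc hl (TI.one (N := N)) k
  rw [Gc_one hl, sym_one] at h
  unfold als at h
  simp only [sym_one, one_mul] at h
  exact h.symm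

theorem Wl_le_one (hl : l ∣ N) (p : V N) : Wl l p ≤ 1 := by
  rw [← sum_Wl hl (rd p)]
  exact Finset.single_le_sum (f := fun p => Wl l p) (fun _ _ => Wl_nonneg _)
    (Finset.mem_filter.2 ⟨Finset.mem_univ _, rfl⟩)

theorem als_le (hl : l ∣ N) {f : V N → ℝ} {c : ℝ} {k : V (N / l)} (h : ∀ p, rd p = k → f p ≤ c) :
    als l f k ≤ c := by
  unfold als
  have h1 : ∑ p ∈ univ.filter (fun p : V N => rd p = k), f p * Wl l p ≤
      ∑ p ∈ univ.filter (fun p : V N => rd p = k), c * Wl l p :=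
    Finset.sum_le_sum fun p hp => mul_le_mul_of_nonneg_right (h p (Finset.mem_filter.1 hp).2)
      (Wl_nonneg p)
  rwa [← Finset.mul_sum, sum_Wl hl, mul_one] at h1

theorem le_als (hl : l ∣ N) {f : V N → ℝ} {c : ℝ} {k : V (N / l)} (h : ∀ p, rd p = k → c ≤ f p) :
    c ≤ als l f k := by
  unfold als
  have h1 : ∑ p ∈ univ.filter (fun p : V N => rd p = k), c * Wl l p ≤
      ∑ p ∈ univ.filter (fun p : V N => rd p = k), f p * Wl l p :=
    Finset.sum_le_sum fun p hp => mul_le_mul_of_nonneg_right (h p (Finset.mem_filter.1 hp).2)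
      (Wl_nonneg p)
  rwa [← Finset.mul_sum, sum_Wl hl, mul_one] at h1

/-! ### comparison of the Laplacians -/

lemma cN_rd1 (hl : l ∣ N) (p : ZMod N) :
    cN (rd1 p : ZMod (N / l)) = Real.cos (l * (2 * Real.pi * (p.val : ℝ) / N)) := by
  unfold rd1
  have h := TM.H764.cN_int (N := N / l) (p.val : ℤ)
  rw [Int.cast_natCast] at h
  rw [h]
  congr 1
  have hNl := Nl (N := N) hl
  have hn : (0 : ℝ) < ((N / l : ℕ) : ℝ) := by exact_mod_cast NeZero.pos (N / l)
  have hlp : (0 : ℝ) < l := by exact_mod_cast l_pos hl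
  rw [← hNl]
  push_cast
  field_simp

/-- the cell Laplacian is dominated by `l²` times the Laplacian, alias by alias -/
theorem EE_rd_le (hl : l ∣ N) (p : V N) : EE (rd p : V (N / l)) ≤ (l : ℝ) ^ 2 * EE p := by
  unfold EE
  have h1 := one_sub_cos_nat_mul_le l (2 * Real.pi * (p.1.val : ℝ) / N)
  have h2 := one_sub_cos_nat_mul_le l (2 * Real.pi * (p.2.val : ℝ) / N)
  have e1 : cN (rd p : V (N / l)).1 = Real.cos (l * (2 * Real.pi * (p.1.val : ℝ) / N)) :=
    cN_rd1 hl p.1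
  have e2 : cN (rd p : V (N / l)).2 = Real.cos (l * (2 * Real.pi * (p.2.val : ℝ) / N)) :=
    cN_rd1 hl p.2
  have e3 : cN p.1 = Real.cos (2 * Real.pi * (p.1.val : ℝ) / N) := rfl
  have e4 : cN p.2 = Real.cos (2 * Real.pi * (p.2.val : ℝ) / N) := rfl
  rw [e1, e2, e3, e4]
  nlinarith

/-- comparison with an antitone function of the Laplacian -/
theorem sym_Gc_le (hl : l ∣ N) {A : Matrix (V N) (V N) ℝ} (hA : TI A) {f : ℝ → ℝ}
    (hf : ∀ x y, 0 ≤ x → x ≤ y → f y ≤ f x) (h : ∀ p, sym A p ≤ f (EE p)) (k : V (N / l)) :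
    sym (Gc l A) k ≤ f (EE k / (l : ℝ) ^ 2) := by
  have hlp : (0 : ℝ) < l := by exact_mod_cast l_pos hl
  rw [sym_Gc hl hA]
  refine als_le hl fun p hp => (h p).trans (hf _ _ ?_ ?_)
  · unfold EE
    have h1 := TM.H764.cN_le_one k.1
    have h2 := TM.H764.cN_le_one k.2
    have : 0 ≤ 2 * (1 - cN k.1) + 2 * (1 - cN k.2) := by linarith
    positivity
  · rw [div_le_iff₀ (by positivity), ← hp, mul_comm]
    exact EE_rd_le hl p

/-! ### the central alias -/

lemma normSq_Dl (p : V N) : Complex.normSq (Dl l p) =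
    ∑ x ∈ univ.filter (fun x : V N => (cl x : V (N / l)) = 0),
      ∑ y ∈ univ.filter (fun x : V N => (cl x : V (N / l)) = 0), cN (dt p (x - y)) := by
  have h : ((Complex.normSq (Dl l p) : ℝ) : ℂ) = Dl l p * (starRingEnd ℂ) (Dl l p) :=
    (Complex.mul_conj _).symm
  have h2 : Complex.normSq (Dl l p) = (Dl l p * (starRingEnd ℂ) (Dl l p)).re := by
    rw [← h, Complex.ofReal_re]
  rw [h2]
  unfold Dl
  rw [map_sum, Finset.sum_mul_sum, Complex.re_sum]
  refine Finset.sum_congr rfl fun x _ => ?_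
  rw [Complex.re_sum]
  refine Finset.sum_congr rfl fun y _ => ?_
  rw [TM.H764.ch_conj, ← TM.H764.ch_add, ← sub_eq_add_neg, ← TM.H764.dt_sub, TM.H764.ch_re]

lemma cell_zero_val (hl : l ∣ N) {z : ZMod N} (h : (cl1 z : ZMod (N / l)) = 0) : z.val < l := by
  have h1 := cl1_val hl z
  rw [h, ZMod.val_zero] at h1
  exact (Nat.div_eq_zero_iff_lt (l_pos hl)).1 h1.symm

lemma one_sub_cN_mul_nat (p : ZMod N) (n : ℕ) : 1 - cN (p * (n : ZMod N)) ≤ (n : ℝ) ^ 2 * (1 - cN p) := by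
  have h := one_sub_cos_nat_mul_le n (2 * Real.pi * (p.val : ℝ) / N)
  have e : cN (p * (n : ZMod N)) = Real.cos (n * (2 * Real.pi * (p.val : ℝ) / N)) := by
    have h2 := TM.H764.cN_int (N := N) ((p.val * n : ℕ) : ℤ)
    rw [Int.cast_natCast] at h2
    push_cast at h2
    rw [ZMod.natCast_zmod_val] at h2
    rw [h2]
    congr 1
    ring
  rw [e]
  exact h

lemma one_sub_cN_diff (hl : l ∣ N) (p : ZMod N) {x y : ZMod N} (hx : (cl1 x : ZMod (N / l)) = 0)
    (hy : (cl1 y : ZMod (N / l)) = 0) : 1 - cN (p * (x - y)) ≤ (l : ℝ) ^ 2 * (1 - cN p) := by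
  have hxv := cell_zero_val hl hx
  have hyv := cell_zero_val hl hy
  have hc : 0 ≤ 1 - cN p := by linarith [TM.H764.cN_le_one p]
  have key : ∀ x y : ZMod N, y.val ≤ x.val → x.val < l →
      1 - cN (p * (x - y)) ≤ (l : ℝ) ^ 2 * (1 - cN p) := by
    intro x y h h2
    have e : x - y = ((x.val - y.val : ℕ) : ZMod N) := by
      rw [Nat.cast_sub h, ZMod.natCast_zmod_val, ZMod.natCast_zmod_val]
    rw [e]
    refine (one_sub_cN_mul_nat p _).trans (mul_le_mul_of_nonneg_right ?_ hc)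
    have h3 : ((x.val - y.val : ℕ) : ℝ) ≤ l := by
      exact_mod_cast (Nat.sub_le _ _).trans h2.le
    exact pow_le_pow_left₀ (Nat.cast_nonneg _) h3 2
  rcases le_total y.val x.val with h | h
  · exact key x y h hxv
  · have h2 := key y x h hyv
    have e : p * (x - y) = -(p * (y - x)) := by ring
    rw [e, TM.H764.cN_neg]
    exact h2

lemma one_sub_cN_add (a b : ZMod N) :
    1 - cN (a + b) ≤ 2 * (1 - cN a) + 2 * (1 - cN b) := by
  rw [TM.H764.cN_add]
  have h1 := TM.H764.cN_sq_add a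
  have h2 := TM.H764.cN_sq_add b
  nlinarith [sq_nonneg (sN a - sN b), sq_nonneg (cN a - 1), sq_nonneg (cN b - 1),
    sq_nonneg (cN a + cN b - 2), sq_nonneg (cN a - cN b)]

/-- the central alias carries almost all the weight -/
theorem one_sub_Wl_le (hl : l ∣ N) (p : V N) : 1 - Wl l p ≤ (l : ℝ) ^ 2 * EE p := by
  have hlp : (0 : ℝ) < l := by exact_mod_cast l_pos hl
  set S := univ.filter (fun x : V N => (cl x : V (N / l)) = 0) with hS
  have hc : (S.card : ℝ) = (l : ℝ) ^ 2 := card_cell hl 0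
  have h1 : ∀ x ∈ S, ∀ y ∈ S, 1 - cN (dt p (x - y)) ≤ (l : ℝ) ^ 2 * EE p := by
    intro x hx y hy
    rw [hS, Finset.mem_filter] at hx hy
    have hx1 : (cl1 x.1 : ZMod (N / l)) = 0 := congrArg Prod.fst hx.2
    have hx2 : (cl1 x.2 : ZMod (N / l)) = 0 := congrArg Prod.snd hx.2
    have hy1 : (cl1 y.1 : ZMod (N / l)) = 0 := congrArg Prod.fst hy.2
    have hy2 : (cl1 y.2 : ZMod (N / l)) = 0 := congrArg Prod.snd hy.2
    have h3 := one_sub_cN_diff hl p.1 hx1 hy1
    have h4 := one_sub_cN_diff hl p.2 hx2 hy2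
    have h5 := one_sub_cN_add (p.1 * (x.1 - y.1)) (p.2 * (x.2 - y.2))
    have e : dt p (x - y) = p.1 * (x.1 - y.1) + p.2 * (x.2 - y.2) := rfl
    rw [e]
    unfold EE
    nlinarith
  have h2 : ∑ x ∈ S, ∑ y ∈ S, (1 - cN (dt p (x - y))) ≤ ∑ x ∈ S, ∑ y ∈ S, (l : ℝ) ^ 2 * EE p :=
    Finset.sum_le_sum fun x hx => Finset.sum_le_sum fun y hy => h1 x hx y hy
  simp only [Finset.sum_sub_distrib, Finset.sum_const, nsmul_eq_mul, mul_one] at h2
  rw [hc, ← normSq_Dl] at h2
  unfold Wl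
  have h4 : (0 : ℝ) < (l : ℝ) ^ 4 := by positivity
  rw [sub_le_iff_le_add, ← sub_le_iff_le_add', le_div_iff₀ h4]
  nlinarith

/-- the cell symbol is close to the symbol at a small momentum -/
theorem abs_sym_Gc_sub_le (hl : l ∣ N) {A : Matrix (V N) (V N) ℝ} (hA : TI A) {c : ℝ} {p : V N}
    (h : ∀ q, rd q = (rd p : V (N / l)) → |sym A q - sym A p| ≤ c) :
    |sym (Gc l A) (rd p) - sym A p| ≤ (l : ℝ) ^ 2 * EE p * c := by
  have hc : 0 ≤ c := (abs_nonneg _).trans (h p rfl)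
  rw [sym_Gc hl hA]
  have e1 : als l (sym A) (rd p) - sym A p =
      ∑ q ∈ univ.filter (fun q : V N => (rd q : V (N / l)) = rd p), (sym A q - sym A p) * Wl l q := by
    unfold als
    simp only [sub_mul, Finset.sum_sub_distrib]
    rw [← Finset.mul_sum, sum_Wl hl, mul_one]
  rw [e1]
  have hp : p ∈ univ.filter (fun q : V N => (rd q : V (N / l)) = rd p) :=
    Finset.mem_filter.2 ⟨Finset.mem_univ _, rfl⟩
  refine (Finset.abs_sum_le_sum_abs _ _).trans ?_
  have h2 : ∀ q ∈ univ.filter (fun q : V N => (rd q : V (N / l)) = rd p),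
      |(sym A q - sym A p) * Wl l q| ≤ c * (if q = p then 0 else Wl l q) := by
    intro q hq
    rw [abs_mul, abs_of_nonneg (Wl_nonneg (l := l) q)]
    by_cases h3 : q = p
    · rw [if_pos h3, h3, sub_self, abs_zero, zero_mul, mul_zero]
    · rw [if_neg h3]
      exact mul_le_mul_of_nonneg_right (h q (Finset.mem_filter.1 hq).2) (Wl_nonneg q)
  refine (Finset.sum_le_sum h2).trans ?_
  rw [← Finset.mul_sum]
  have h4 : ∑ q ∈ univ.filter (fun q : V N => (rd q : V (N / l)) = rd p),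
      (if q = p then 0 else Wl l q) = 1 - Wl l p := by
    rw [← sum_Wl hl (rd p), ← Finset.add_sum_erase _ _ hp, ← Finset.add_sum_erase _ _ hp, if_pos rfl,
      zero_add, add_sub_cancel_left]
    exact Finset.sum_congr rfl fun q hq => if_neg (Finset.ne_of_mem_erase hq)
  rw [h4, mul_comm]
  exact mul_le_mul_of_nonneg_right (one_sub_Wl_le hl p) hc

end alia

end

end Vale.Agent.P159.H864
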