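import Vale.Agent.P159.H864.Fou0

/-!
P159, module FOU (helper864), part 2: symmetries of the height models and of the channel.

* `Inv μ e` : the weight `μ` is invariant under the permutation `e` of the sites; consequences for
  `T, Ex, Cv, Zs, Lg, mn, Cm, Gm, Rs, Tq, K4` and for `Ech, Cbar` (`P (e' i) (e x) = P i x`).
* `inv_wM`, `inv_post`; the torus weight is invariant under translations, reflections and the swap.
* `bf_Cm`, `qf_Cm`, `qf_Cm_pos` : covariance matrix and variances.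
* `ti_Gm`, `ti_Cbar`, `ti_PiM`, `sym_Gm_wt`, `sym_PiM_wt`.
-/

set_option linter.unusedSectionVars false

namespace Vale.Agent.P159.H864

open Finset Matrix MeasureTheory
open Vale.Agent.P159.TM.H764 (Gh cN sN dt ch EE frm grd)
open Vale.Agent.P159.TM.H104 (EM Ex Cv K3 Lg li nh Gr)
open Vale.Agent.P159.H37

noncomputable section

/-! ### permutations of the sites -/

section perm

variable {V : Type*} [Fintype V] {μ : (V → ℤ) → ℝ} {e : Equiv.Perm V}

/-- the weight is invariant under the permutation `e` of the sites -/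
def Inv (μ : (V → ℤ) → ℝ) (e : Equiv.Perm V) : Prop := ∀ h, μ (h ∘ e) = μ h

/-- `h ↦ h ∘ e` -/
def cmp (e : Equiv.Perm V) : (V → ℤ) ≃ (V → ℤ) where
  toFun h := h ∘ e
  invFun h := h ∘ e.symm
  left_inv h := by funext x; simp
  right_inv h := by funext x; simp

lemma cmp_apply (e : Equiv.Perm V) (h : V → ℤ) : cmp e h = h ∘ e := rfl

lemma Inv.symm (hμ : Inv μ e) : Inv μ e.symm := by
  intro h
  have h1 := hμ (h ∘ e.symm)
  have h2 : (h ∘ e.symm) ∘ e = h := by funext x; simp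
  rw [h2] at h1
  exact h1.symm

lemma li_comp (J : V → ℝ) (h : V → ℤ) : li J (h ∘ e) = li (J ∘ e.symm) h := by
  unfold li
  rw [← Equiv.sum_comp e (fun x => (J ∘ e.symm) x * (h x : ℝ))]
  refine Finset.sum_congr rfl fun x _ => ?_
  simp

theorem T_perm (hμ : Inv μ e) (J : V → ℝ) (F : (V → ℤ) → ℝ) :
    TM.H104.T μ J F = TM.H104.T μ (J ∘ e.symm) fun h => F (h ∘ e) := by
  unfold TM.H104.T
  rw [← (cmp e).tsum_eq]
  refine tsum_congr fun h => ?_
  rw [cmp_apply, hμ h, li_comp]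

theorem Ex_perm (hμ : Inv μ e) (J : V → ℝ) (F : (V → ℤ) → ℝ) :
    Ex μ J F = Ex μ (J ∘ e.symm) fun h => F (h ∘ e) := by
  unfold Ex
  rw [T_perm hμ J F, T_perm hμ J fun _ => 1]

theorem Cv_perm (hμ : Inv μ e) (J : V → ℝ) (F G : (V → ℤ) → ℝ) :
    Cv μ J F G = Cv μ (J ∘ e.symm) (fun h => F (h ∘ e)) fun h => G (h ∘ e) := by
  unfold Cv
  rw [Ex_perm hμ J fun h => F h * G h, Ex_perm hμ J F, Ex_perm hμ J G]

theorem Zs_perm (hμ : Inv μ e) (J : V → ℝ) : Zs μ (J ∘ e) = Zs μ J := by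
  have h1 := T_perm hμ (J ∘ e) fun _ => 1
  have h2 : (J ∘ e) ∘ e.symm = J := by funext x; simp
  rw [h2] at h1
  exact h1

theorem Lg_perm (hμ : Inv μ e) (J : V → ℝ) : Lg μ (J ∘ e) = Lg μ J := by
  have h1 := Zs_perm hμ J
  unfold Zs at h1
  unfold Lg
  rw [h1]

theorem mn_perm (hμ : Inv μ e) (J : V → ℝ) (x : V) : mn μ (J ∘ e) x = mn μ J (e x) := by
  unfold mn
  rw [Ex_perm hμ]
  have h2 : (J ∘ e) ∘ e.symm = J := by funext x; simp
  rw [h2]
  rfl

theorem Cm_perm (hμ : Inv μ e) (J : V → ℝ) (x y : V) : Cm μ (J ∘ e) x y = Cm μ J (e x) (e y) := by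
  unfold Cm
  rw [Matrix.of_apply, Matrix.of_apply, Cv_perm hμ]
  have h2 : (J ∘ e) ∘ e.symm = J := by funext x; simp
  rw [h2]
  rfl

theorem Gm_perm (hμ : Inv μ e) (x y : V) : Gm μ (e x) (e y) = Gm μ x y :=
  (Cm_perm hμ (0 : V → ℝ) x y).symm

lemma qf_perm {M : Matrix V V ℝ} (hM : ∀ x y, M (e x) (e y) = M x y) (u : V → ℝ) :
    qf M (u ∘ e) = qf M u := by
  unfold qf
  rw [← Equiv.sum_comp e (fun x => ∑ y, u x * M x y * u y)]
  refine Finset.sum_congr rfl fun x _ => ?_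
  rw [← Equiv.sum_comp e (fun y => u (e x) * M (e x) y * u y)]
  refine Finset.sum_congr rfl fun y _ => ?_
  rw [hM]
  rfl

theorem Rs_perm (hμ : Inv μ e) (J : V → ℝ) : Rs μ (J ∘ e) = Rs μ J := by
  unfold Rs
  rw [Lg_perm hμ, qf_perm (Gm_perm hμ)]

theorem Tq_perm (hμ : Inv μ e) (J : V → ℝ) : Tq μ (J ∘ e) = Tq μ J := by
  unfold Tq
  have h1 : (2 : ℝ) • (J ∘ e) = ((2 : ℝ) • J) ∘ e := rfl
  rw [h1, Lg_perm hμ, Lg_perm hμ]

theorem K4_perm (hμ : Inv μ e) (a b c d : V → ℝ) :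
    K4 μ (a ∘ e) (b ∘ e) (c ∘ e) (d ∘ e) = K4 μ a b c d := by
  have key : ∀ F : (V → ℤ) → ℝ, Ex μ 0 F = Ex μ 0 fun h => F (h ∘ e.symm) := fun F => by
    have := Ex_perm hμ.symm (0 : V → ℝ) F
    exact this
  have hl : ∀ (u : V → ℝ) (h : V → ℤ), li (u ∘ e) h = li u (h ∘ e.symm) := by
    intro u h
    have := li_comp (e := e.symm) u h
    rw [this]
    rfl
  unfold K4
  simp only [hl]
  rw [← key fun h => li a h * li b h * li c h * li d h, ← key fun h => li a h * li b h,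
    ← key fun h => li c h * li d h, ← key fun h => li a h * li c h, ← key fun h => li b h * li d h,
    ← key fun h => li a h * li d h, ← key fun h => li b h * li c h]

lemma re_comp (h : V → ℤ) (e : Equiv.Perm V) : re (h ∘ e) = re h ∘ e := rfl

lemma inv_wM {w : (V → ℤ) → ℝ} (hw : Inv w e) {M : Matrix V V ℝ}
    (hM : ∀ x y, M (e x) (e y) = M x y) : Inv (wM w M) e := by
  intro h
  unfold wM
  rw [hw h, re_comp, qf_perm hM]

lemma inv_post {I : Type*} [Fintype I] (hμ : Inv μ e) {P : Matrix I V ℝ}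
    (hP : ∀ x y, (Pᵀ * P) (e x) (e y) = (Pᵀ * P) x y) : Inv (post μ P) e := by
  intro h
  unfold post
  rw [hμ h, ← qf_gram, ← qf_gram, re_comp, qf_perm hP]

lemma gram_perm {I : Type*} [Fintype I] {P : Matrix I V ℝ} {e' : Equiv.Perm I}
    (hP : ∀ i x, P (e' i) (e x) = P i x) (x y : V) : (Pᵀ * P) (e x) (e y) = (Pᵀ * P) x y := by
  rw [Matrix.mul_apply, Matrix.mul_apply, ← Equiv.sum_comp e']
  refine Finset.sum_congr rfl fun i _ => ?_
  rw [Matrix.transpose_apply, Matrix.transpose_apply, hP, hP]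

/-! ### the channel -/

/-- the standard Gaussian measure is invariant under permutations of the coordinates -/
lemma gau_perm {I : Type*} [Fintype I] (e' : Equiv.Perm I) (F : (I → ℝ) → ℝ) :
    ∫ g, F (g ∘ e') ∂(gau I) = ∫ g, F g ∂(gau I) := by
  have h1 : MeasurePreserving (MeasurableEquiv.arrowCongr' e'.symm (MeasurableEquiv.refl ℝ))
      (gau I) (gau I) := by
    unfold gau
    exact measurePreserving_arrowCongr' (fun _ : I => ProbabilityTheory.gaussianReal 0 1)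
      (fun _ : I => ProbabilityTheory.gaussianReal 0 1) e'.symm (MeasurableEquiv.refl ℝ)
      fun _ => MeasurePreserving.id _
  have h2 := h1.integral_comp (MeasurableEquiv.measurableEmbedding _) F
  rw [← h2]
  rfl

theorem Ech_perm {I : Type*} [Fintype I] (hμ : Inv μ e) {P : Matrix I V ℝ} {e' : Equiv.Perm I}
    (hP : ∀ i x, P (e' i) (e x) = P i x) (J₁ : V → ℝ) (Φ : (V → ℝ) → ℝ) :
    Ech μ (J₁ ∘ e) P Φ = Ech μ J₁ P fun J => Φ (J ∘ e) := by
  have h1 : ∀ g : I → ℝ, J₁ ∘ e + Pᵀ *ᵥ (g ∘ e') = (J₁ + Pᵀ *ᵥ g) ∘ e := by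
    intro g
    funext x
    simp only [Pi.add_apply, Function.comp_apply, Matrix.mulVec, dotProduct,
      Matrix.transpose_apply]
    congr 1
    rw [← Equiv.sum_comp e' (fun i => P i (e x) * g i)]
    refine Finset.sum_congr rfl fun i _ => ?_
    rw [hP]
  have h2 : Inv (post μ P) e := inv_post hμ (gram_perm hP)
  unfold Ech
  rw [← gau_perm e' (fun g => Φ (J₁ ∘ e + Pᵀ *ᵥ g) * Zs (post μ P) (J₁ ∘ e + Pᵀ *ᵥ g)),
    ← gau_perm e' (fun g => Zs (post μ P) (J₁ ∘ e + Pᵀ *ᵥ g))]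
  simp_rw [h1, Zs_perm h2]

theorem Cbar_perm {I : Type*} [Fintype I] (hμ : Inv μ e) {P : Matrix I V ℝ} {e' : Equiv.Perm I}
    (hP : ∀ i x, P (e' i) (e x) = P i x) (J₁ : V → ℝ) (x y : V) :
    Cbar μ (J₁ ∘ e) P x y = Cbar μ J₁ P (e x) (e y) := by
  have h2 : Inv (post μ P) e := inv_post hμ (gram_perm hP)
  unfold Cbar EchM
  rw [Matrix.of_apply, Matrix.of_apply, Ech_perm hμ hP]
  simp_rw [Cm_perm h2]

lemma zero_comp' {W : Type*} (e : Equiv.Perm W) : (0 : W → ℝ) ∘ e = 0 := rfl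

theorem Cbar_perm_zero {I : Type*} [Fintype I] (hμ : Inv μ e) {P : Matrix I V ℝ}
    {e' : Equiv.Perm I} (hP : ∀ i x, P (e' i) (e x) = P i x) (x y : V) :
    Cbar μ 0 P (e x) (e y) = Cbar μ 0 P x y := by
  rw [← Cbar_perm hμ hP, zero_comp']

end perm

/-! ### covariance matrix and variances -/

section cov

variable {V : Type*} [Fintype V] {μ : (V → ℤ) → ℝ}

lemma gr_coord (x : V) : Gr fun h : V → ℤ => (h x : ℝ) := by
  classical
  have h1 := Gr.li (V := V) (Pi.single x 1)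
  have h2 : (li (Pi.single x 1) : (V → ℤ) → ℝ) = fun h => (h x : ℝ) := by
    funext h
    unfold li
    simp [Pi.single_apply]
  rwa [h2] at h1

lemma gr_sum {ι : Type*} (s : Finset ι) {F : ι → (V → ℤ) → ℝ} (h : ∀ i ∈ s, Gr (F i)) :
    Gr fun g => ∑ i ∈ s, F i g := by
  classical
  induction s using Finset.induction_on with
  | empty => simpa using Gr.const (V := V) 0
  | insert a s ha ih =>
    simp_rw [Finset.sum_insert ha]
    exact (h a (Finset.mem_insert_self a s)).add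
      (ih fun i hi => h i (Finset.mem_insert_of_mem hi))

lemma Ex_sum (hμ : EM μ) {ι : Type*} (s : Finset ι) {F : ι → (V → ℤ) → ℝ}
    (h : ∀ i ∈ s, Gr (F i)) (J : V → ℝ) :
    Ex μ J (fun g => ∑ i ∈ s, F i g) = ∑ i ∈ s, Ex μ J (F i) := by
  classical
  induction s using Finset.induction_on with
  | empty =>
    simp only [Finset.sum_empty]
    exact TM.H104.Ex_const hμ 0 J
  | insert a s ha ih =>
    simp_rw [Finset.sum_insert ha]
    rw [TM.H104.Ex_add hμ (h a (Finset.mem_insert_self a s))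
      (gr_sum s fun i hi => h i (Finset.mem_insert_of_mem hi)),
      ih fun i hi => h i (Finset.mem_insert_of_mem hi)]

/-- covariance of two linear functionals -/
theorem bf_Cm (hμ : EM μ) (J u v : V → ℝ) : bf (Cm μ J) u v = Cv μ J (li u) (li v) := by
  have h1 : Ex μ J (fun h => li u h * li v h) =
      ∑ x, ∑ y, u x * v y * Ex μ J fun h => (h x : ℝ) * (h y : ℝ) := by
    have e1 : (fun h : V → ℤ => li u h * li v h) =
        fun h => ∑ x, ∑ y, (u x * v y) * ((h x : ℝ) * (h y : ℝ)) := by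
      funext h
      unfold li
      rw [Finset.sum_mul_sum]
      refine Finset.sum_congr rfl fun x _ => Finset.sum_congr rfl fun y _ => ?_
      ring
    rw [e1, Ex_sum hμ _ fun x _ => gr_sum _ fun y _ => ((gr_coord x).mul (gr_coord y)).cmul _]
    refine Finset.sum_congr rfl fun x _ => ?_
    rw [Ex_sum hμ _ fun y _ => ((gr_coord x).mul (gr_coord y)).cmul _]
    exact Finset.sum_congr rfl fun y _ => TM.H104.Ex_cmul _ _ _
  have h2 : ∀ u : V → ℝ, Ex μ J (li u) = ∑ x, u x * Ex μ J fun h => (h x : ℝ) := by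
    intro u
    have e1 : (li u : (V → ℤ) → ℝ) = fun h => ∑ x, u x * (h x : ℝ) := rfl
    rw [e1, Ex_sum hμ _ fun x _ => (gr_coord x).cmul _]
    exact Finset.sum_congr rfl fun x _ => TM.H104.Ex_cmul _ _ _
  unfold Cv
  rw [h1, h2, h2, Finset.sum_mul_sum, ← Finset.sum_sub_distrib]
  unfold bf Cm Cv
  refine Finset.sum_congr rfl fun x _ => ?_
  rw [← Finset.sum_sub_distrib]
  refine Finset.sum_congr rfl fun y _ => ?_
  simp only [Matrix.of_apply]
  ring

theorem qf_Cm (hμ : EM μ) (J u : V → ℝ) : qf (Cm μ J) u = Cv μ J (li u) (li u) :=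
  bf_Cm hμ J u u

/-- the variance as the expectation of the squared deviation -/
lemma Cv_self (hμ : EM μ) {F : (V → ℤ) → ℝ} (hF : Gr F) (J : V → ℝ) :
    Cv μ J F F = Ex μ J fun h => (F h - Ex μ J F) ^ 2 := by
  have e1 : (fun h => (F h - Ex μ J F) ^ 2) =
      fun h => F h * F h - 2 * Ex μ J F * F h + (Ex μ J F) ^ 2 := by
    funext h; ring
  rw [e1, TM.H104.Ex_add hμ ((hF.mul hF).sub (hF.cmul _)) (Gr.const _),
    TM.H104.Ex_sub hμ (hF.mul hF) (hF.cmul _), TM.H104.Ex_cmul, TM.H104.Ex_const hμ]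
  unfold Cv
  ring

theorem Cv_self_nonneg (hμ : EM μ) {F : (V → ℤ) → ℝ} (hF : Gr F) (J : V → ℝ) :
    0 ≤ Cv μ J F F := by
  rw [Cv_self hμ hF]
  exact TM.H104.Ex_nonneg hμ (fun h => sq_nonneg _) J

/-- the variance is positive when `F` takes two values on the support of the weight -/
theorem Cv_self_pos (hμ : EM μ) {F : (V → ℤ) → ℝ} (hF : Gr F) (J : V → ℝ) {h₁ h₂ : V → ℤ}
    (p₁ : 0 < μ h₁) (p₂ : 0 < μ h₂) (hne : F h₁ ≠ F h₂) : 0 < Cv μ J F F := by
  rw [Cv_self hμ hF]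
  have hG : Gr fun h => (F h - Ex μ J F) ^ 2 := by
    have := (hF.sub (Gr.const (Ex μ J F))).mul (hF.sub (Gr.const (Ex μ J F)))
    simpa only [sq] using this
  have key : ∀ h₀ : V → ℤ, 0 < μ h₀ → F h₀ ≠ Ex μ J F →
      0 < Ex μ J fun h => (F h - Ex μ J F) ^ 2 := by
    intro h₀ p hn
    unfold Ex
    refine div_pos ?_ (TM.H104.T_one_pos hμ J)
    have h1 := (hμ.summ hG J).le_tsum h₀ fun k _ =>
      mul_nonneg (mul_nonneg (sq_nonneg _) (hμ.nn k)) (Real.exp_pos _).le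
    refine lt_of_lt_of_le ?_ h1
    have : 0 < (F h₀ - Ex μ J F) ^ 2 := by
      have := sub_ne_zero.2 hn
      positivity
    positivity
  by_cases h : F h₁ = Ex μ J F
  · exact key h₂ p₂ fun h' => hne (h.trans h'.symm)
  · exact key h₁ p₁ h

theorem qf_Cm_nonneg (hμ : EM μ) (J u : V → ℝ) : 0 ≤ qf (Cm μ J) u := by
  rw [qf_Cm hμ]
  exact Cv_self_nonneg hμ (Gr.li u) J

theorem qf_Cm_pos (hμ : EM μ) (hpos : ∀ h, 0 < μ h) (J : V → ℝ) {u : V → ℝ} (hu : u ≠ 0) :
    0 < qf (Cm μ J) u := by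
  classical
  rw [qf_Cm hμ]
  obtain ⟨x, hx⟩ := Function.ne_iff.1 hu
  refine Cv_self_pos hμ (Gr.li u) J (hpos 0) (hpos (Pi.single x 1)) ?_
  have h1 : li u (0 : V → ℤ) = 0 := by unfold li; simp
  have h2 : li u (Pi.single x (1 : ℤ)) = u x := by
    unfold li
    rw [Finset.sum_eq_single x]
    · simp
    · intro y _ hy
      rw [Pi.single_eq_of_ne hy]
      simp
    · intro h; exact absurd (Finset.mem_univ x) h
  rw [h1, h2]
  exact fun h => hx h.symm

lemma Cm_symm (J : V → ℝ) (x y : V) : Cm μ J x y = Cm μ J y x := by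
  unfold Cm
  rw [Matrix.of_apply, Matrix.of_apply, TM.H104.Cv_comm]

end cov

/-! ### the torus -/

section torus

open Vale.Agent.P159.TM.Spec (V)

variable {N : ℕ} [NeZero N]

/-- translation by `a` -/
def tra (a : V N) : Equiv.Perm (V N) := Equiv.addRight a

lemma tra_apply (a x : V N) : tra a x = x + a := rfl

/-- invariance under all translations -/
def TInv (μ : (V N → ℤ) → ℝ) : Prop := ∀ a : V N, Inv μ (tra a)

lemma ti_of_perm {A : Matrix (V N) (V N) ℝ} (h : ∀ a x y, A (tra a x) (tra a y) = A x y)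
    (hs : ∀ x y, A x y = A y x) : TI A := ⟨fun a x y => h a x y, hs⟩

theorem ti_Gm {μ : (V N → ℤ) → ℝ} (hμ : TInv μ) : TI (Gm μ) :=
  ti_of_perm (fun a x y => Gm_perm (hμ a) x y) fun x y => Cm_symm _ x y

lemma TI.perm {A : Matrix (V N) (V N) ℝ} (hA : TI A) (a x y : V N) :
    A (tra a x) (tra a y) = A x y := hA.tr a x y

lemma tinv_wM {w : (V N → ℤ) → ℝ} (hw : TInv w) {M : Matrix (V N) (V N) ℝ} (hM : TI M) :
    TInv (wM w M) := fun a => inv_wM (hw a) (hM.perm a)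

lemma tinv_post {w : (V N → ℤ) → ℝ} (hw : TInv w) {I : Type*} [Fintype I]
    {P : Matrix I (V N) ℝ} (hP : TI (Pᵀ * P)) : TInv (post w P) :=
  fun a => inv_post (hw a) (hP.perm a)

/-- the observation is translation invariant -/
def TIP {I : Type*} [Fintype I] (P : Matrix I (V N) ℝ) : Prop :=
  ∀ a : V N, ∃ e' : Equiv.Perm I, ∀ i x, P (e' i) (tra a x) = P i x

lemma TI.tip {P : Matrix (V N) (V N) ℝ} (hP : TI P) : TIP P := fun a => ⟨tra a, hP.perm a⟩

lemma Ech_symm_cm {V : Type*} [Fintype V] {I : Type*} [Fintype I] (μ : (V → ℤ) → ℝ) (J₁ : V → ℝ)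
    (P : Matrix I V ℝ) (x y : V) : Cbar μ J₁ P x y = Cbar μ J₁ P y x := by
  unfold Cbar EchM
  rw [Matrix.of_apply, Matrix.of_apply]
  congr 1
  funext J
  exact Cm_symm J x y

theorem ti_Cbar {μ : (V N → ℤ) → ℝ} (hμ : TInv μ) {I : Type*} [Fintype I]
    {P : Matrix I (V N) ℝ} (hP : TIP P) : TI (Cbar μ 0 P) := by
  refine ti_of_perm (fun a x y => ?_) fun x y => Ech_symm_cm μ 0 P x y
  obtain ⟨e', he⟩ := hP a
  exact Cbar_perm_zero (hμ a) he x y

theorem ti_PiM {w : (V N → ℤ) → ℝ} (hw : TInv w) {M : Matrix (V N) (V N) ℝ} (hM : TI M) :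
    TI (PiM w M) := (ti_Gm (tinv_wM hw hM)).inv.sub hM

/-! ### positivity of the symbols -/

theorem sym_nonneg_of_psd {A : Matrix (V N) (V N) ℝ} (hA : TI A) (h : ∀ u, 0 ≤ qf A u) (k : V N) :
    0 ≤ sym A k := (psd_iff hA).1 h k

theorem sym_pos_of_pd {A : Matrix (V N) (V N) ℝ} (hA : TI A) (h : ∀ u, u ≠ 0 → 0 < qf A u)
    (k : V N) : 0 < sym A k := by
  have h1 := qf_wave hA k
  have h2 : (fun x : V N => cN (dt k x)) ≠ 0 := by
    intro h0
    have := congrFun h0 0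
    rw [dt_zero, TM.H764.cN_zero] at this
    exact one_ne_zero this
  have h3 := h _ h2
  have h4 : 0 ≤ qf A fun x : V N => sN (dt k x) := by
    by_cases h0 : (fun x : V N => sN (dt k x)) = 0
    · rw [h0, qf_zero_vec]
    · exact (h _ h0).le
  have h5 : 0 < (N : ℝ) ^ 2 * sym A k := by linarith
  exact (pos_iff_pos_of_mul_pos h5).1 N_pos

theorem sym_Gm_pos {μ : (V N → ℤ) → ℝ} (hμ : EM μ) (hT : TInv μ) (hpos : ∀ h, 0 < μ h) (k : V N) :
    0 < sym (Gm μ) k :=
  sym_pos_of_pd (ti_Gm hT) (fun _ hu => qf_Cm_pos hμ hpos 0 hu) k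

theorem sym_Gm_nonneg {μ : (V N → ℤ) → ℝ} (hμ : EM μ) (hT : TInv μ) (k : V N) :
    0 ≤ sym (Gm μ) k := sym_nonneg_of_psd (ti_Gm hT) (fun u => qf_Cm_nonneg hμ 0 u) k

theorem sym_PiM {w : (V N → ℤ) → ℝ} {M : Matrix (V N) (V N) ℝ} (hE : EM (wM w M)) (hw : TInv w)
    (hM : TI M) (hpos : ∀ h, 0 < w h) (k : V N) :
    sym (PiM w M) k = (sym (Gm (wM w M)) k)⁻¹ - sym M k := by
  have hp : ∀ h, 0 < wM w M h := fun h => mul_pos (hpos h) (Real.exp_pos _)
  unfold PiM
  rw [sym_sub, sym_inv' (ti_Gm (tinv_wM hw hM)) fun k => (sym_Gm_pos hE (tinv_wM hw hM) hp k).ne']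

/-! ### the torus weight -/

section wT

open Vale.Agent.P159.TM.SpecC (wT)
open Vale.Agent.P159.H353 (wI)

lemma tinv_wT (b : ℝ) : TInv (wT b N) := by
  intro a h
  unfold TM.SpecC.wT
  rw [← Equiv.prod_comp (tra a) fun x : V N =>
    wI b (h (x + (1, 0)) - h x) * wI b (h (x + (0, 1)) - h x)]
  refine Finset.prod_congr rfl fun x _ => ?_
  simp only [Function.comp_apply, tra_apply]
  rw [add_right_comm x (1, 0) a, add_right_comm x (0, 1) a]

/-- reflection of the first coordinate -/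
def ref1 : Equiv.Perm (V N) := Equiv.prodCongr (Equiv.neg _) (Equiv.refl _)

/-- swap of the coordinates -/
def swp : Equiv.Perm (V N) := Equiv.prodComm _ _

lemma ref1_apply (x : V N) : ref1 x = (-x.1, x.2) := rfl

lemma swp_apply (x : V N) : swp x = (x.2, x.1) := rfl

lemma inv_wT_swp (b : ℝ) : Inv (wT b N) swp := by
  intro h
  unfold TM.SpecC.wT
  rw [← Equiv.prod_comp swp fun x : V N =>
    wI b (h (x + (1, 0)) - h x) * wI b (h (x + (0, 1)) - h x)]
  refine Finset.prod_congr rfl fun x _ => ?_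
  simp only [Function.comp_apply, swp_apply, Prod.fst_add, Prod.snd_add]
  rw [mul_comm]
  congr 3

lemma inv_wT_ref1 (b : ℝ) : Inv (wT b N) ref1 := by
  intro h
  unfold TM.SpecC.wT
  rw [Finset.prod_mul_distrib, Finset.prod_mul_distrib]
  congr 1
  · let s : Equiv.Perm (V N) := (tra (1, 0)).trans ref1
    rw [← Equiv.prod_comp s fun x : V N => wI b (h (x + (1, 0)) - h x)]
    refine Finset.prod_congr rfl fun x _ => ?_
    have e1 : s x = (-(x.1 + 1), x.2) := by
      simp [s, ref1_apply, tra_apply]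
    have e2 : s x + (1, 0) = (-x.1, x.2) := by
      rw [e1]
      ext
      · simp
      · simp
    rw [e2, e1]
    simp only [Function.comp_apply, ref1_apply, Prod.fst_add, Prod.snd_add, add_zero]
    rw [← Vale.Agent.P159.H353.wI_neg]
    congr 1
    ring
  · rw [← Equiv.prod_comp ref1 fun x : V N => wI b (h (x + (0, 1)) - h x)]
    refine Finset.prod_congr rfl fun x _ => ?_
    simp only [Function.comp_apply, ref1_apply, Prod.fst_add, Prod.snd_add]
    congr 3
    ext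
    · simp
    · simp

end wT

end torus

end

end Vale.Agent.P159.H864
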