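import Vale.Agent.P159.H864.Fou2

/-!
P159, module CELL (helper864), part 1 (CE1): the cell torus.

`l ∣ N`; the cells of side `l` of the torus `V N` are indexed by the torus `V (N / l)`.

* `cl : V N → V (N / l)`, `up : V (N / l) → V N` (multiplication by `l`), `cl (x + up a) = cl x + a`.
* `cobV` : the matrix `cob` of `Spec0` with rows indexed by `V (N / l)`; `cob_ce`, `cellP_eq`.
* `cobV_mul_tr` : `cobV * cobVᵀ = 1`; `cellP` is an orthogonal projection.
-/

set_option linter.unusedSectionVars false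

namespace Vale.Agent.P159.H864

open Finset Matrix MeasureTheory
open Vale.Agent.P159.TM.H764 (Gh cN sN dt ch EE frm grd)
open Vale.Agent.P159.TM.H104 (EM Ex Cv K3 Lg li nh Gr)
open Vale.Agent.P159.H37
open Vale.Agent.P159.TM.Spec (V)
open Vale.Agent.P159.TM.SpecC (wT ms)

noncomputable section

/-! ### one coordinate -/

section one

variable {N l : ℕ} [NeZero N] [NeZero (N / l)]

/-- index of the cell, one coordinate -/
def cl1 (z : ZMod N) : ZMod (N / l) := ((z.val / l : ℕ) : ZMod (N / l))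

/-- multiplication by `l`, one coordinate -/
def up1 (a : ZMod (N / l)) : ZMod N := ((l * a.val : ℕ) : ZMod N)

lemma l_pos (hl : l ∣ N) : 0 < l := Nat.pos_of_dvd_of_pos hl (NeZero.pos N)

lemma cl1_val (hl : l ∣ N) (z : ZMod N) : (cl1 z : ZMod (N / l)).val = z.val / l := by
  unfold cl1
  rw [ZMod.val_natCast, Nat.mod_eq_of_lt]
  exact Nat.div_lt_div_of_lt_of_dvd hl (ZMod.val_lt z)

lemma up1_val (hl : l ∣ N) (a : ZMod (N / l)) : (up1 a : ZMod N).val = l * a.val := by
  unfold up1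
  rw [ZMod.val_natCast, Nat.mod_eq_of_lt]
  calc l * a.val < l * (N / l) := Nat.mul_lt_mul_of_pos_left (ZMod.val_lt a) (l_pos hl)
    _ = N := Nat.mul_div_cancel' hl

lemma up1_add (hl : l ∣ N) (a b : ZMod (N / l)) : (up1 (a + b) : ZMod N) = up1 a + up1 b := by
  unfold up1
  rw [ZMod.val_add, ← Nat.mul_mod_mul_left, Nat.mul_div_cancel' hl, ZMod.natCast_mod, mul_add]
  push_cast
  rfl

lemma up1_zero : (up1 (0 : ZMod (N / l)) : ZMod N) = 0 := by
  unfold up1
  rw [ZMod.val_zero, mul_zero, Nat.cast_zero]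

lemma up1_neg (hl : l ∣ N) (a : ZMod (N / l)) : (up1 (-a) : ZMod N) = -up1 a := by
  have h := up1_add hl a (-a)
  rw [add_neg_cancel, up1_zero] at h
  exact (neg_eq_of_add_eq_zero_right h.symm).symm

lemma cl1_add_up (hl : l ∣ N) (z : ZMod N) (a : ZMod (N / l)) :
    (cl1 (z + up1 a) : ZMod (N / l)) = cl1 z + a := by
  have h1 : (z + up1 a).val = (z.val + l * a.val) % (l * (N / l)) := by
    rw [ZMod.val_add, up1_val hl, Nat.mul_div_cancel' hl]
  unfold cl1
  rw [h1, Nat.mod_mul_right_div_self, ZMod.natCast_mod, Nat.add_mul_div_left _ _ (l_pos hl)]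
  push_cast
  rw [ZMod.natCast_zmod_val]

lemma cl1_zero : (cl1 (0 : ZMod N) : ZMod (N / l)) = 0 := by
  unfold cl1
  rw [ZMod.val_zero, Nat.zero_div, Nat.cast_zero]

lemma cl1_up (hl : l ∣ N) (a : ZMod (N / l)) : (cl1 (up1 a : ZMod N) : ZMod (N / l)) = a := by
  have h := cl1_add_up hl (0 : ZMod N) a
  rwa [zero_add, cl1_zero, zero_add] at h

end one

/-! ### the cell torus -/

section two

variable {N l : ℕ} [NeZero N] [NeZero (N / l)]

/-- the cell of a site -/
def cl (x : V N) : V (N / l) := (cl1 x.1, cl1 x.2)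

/-- the translation of the torus which moves the cells by `a` -/
def up (a : V (N / l)) : V N := (up1 a.1, up1 a.2)

lemma up_add (hl : l ∣ N) (a b : V (N / l)) : (up (a + b) : V N) = up a + up b :=
  Prod.ext (up1_add hl _ _) (up1_add hl _ _)

lemma up_zero : (up (0 : V (N / l)) : V N) = 0 := Prod.ext up1_zero up1_zero

lemma up_neg (hl : l ∣ N) (a : V (N / l)) : (up (-a) : V N) = -up a :=
  Prod.ext (up1_neg hl _) (up1_neg hl _)

lemma cl_add_up (hl : l ∣ N) (x : V N) (a : V (N / l)) : cl (x + up a) = cl x + a :=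
  Prod.ext (cl1_add_up hl _ _) (cl1_add_up hl _ _)

lemma cl_up (hl : l ∣ N) (a : V (N / l)) : cl (up a : V N) = a :=
  Prod.ext (cl1_up hl _) (cl1_up hl _)

lemma cl_zero : cl (0 : V N) = (0 : V (N / l)) := Prod.ext cl1_zero cl1_zero

lemma cl_sub_up (hl : l ∣ N) (x : V N) (a : V (N / l)) : cl (x - up a) = cl x - a := by
  rw [sub_eq_add_neg, ← up_neg hl, cl_add_up hl, sub_eq_add_neg]

/-- the number of sites of a cell -/
lemma card_cell (hl : l ∣ N) (c : V (N / l)) :
    ((univ.filter fun x : V N => cl x = c).card : ℝ) = (l : ℝ) ^ 2 := by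
  have h0 : ∀ c : V (N / l), (univ.filter fun x : V N => cl x = c).card =
      (univ.filter fun x : V N => cl x = (0 : V (N / l))).card := by
    intro c
    refine (Finset.card_bij (fun x _ => x + up c) ?_ ?_ ?_).symm
    · intro x hx
      rw [Finset.mem_filter] at hx ⊢
      refine ⟨Finset.mem_univ _, ?_⟩
      rw [cl_add_up hl, hx.2, zero_add]
    · intro x _ y _ h
      exact add_right_cancel h
    · intro y hy
      refine ⟨y - up c, ?_, sub_add_cancel _ _⟩
      rw [Finset.mem_filter] at hy ⊢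
      refine ⟨Finset.mem_univ _, ?_⟩
      rw [cl_sub_up hl, hy.2, sub_self]
  have h1 : ∑ c : V (N / l), (univ.filter fun x : V N => cl x = c).card = Fintype.card (V N) := by
    rw [← Finset.card_eq_sum_card_fiberwise (f := fun x : V N => cl x) (t := univ)]
    · rfl
    · intro x _
      exact Finset.mem_univ _
  have hcV : ∀ (m : ℕ) [NeZero m], Fintype.card (V m) = m * m := fun m _ => by
    show Fintype.card (ZMod m × ZMod m) = _
    rw [Fintype.card_prod, ZMod.card]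
  rw [Finset.sum_congr rfl fun c _ => h0 c, Finset.sum_const, Finset.card_univ, smul_eq_mul, hcV,
    hcV] at h1
  rw [h0 c]
  have hn : (0 : ℝ) < ((N / l : ℕ) : ℝ) := by exact_mod_cast NeZero.pos (N / l)
  have hN : ((N / l : ℕ) : ℝ) * (l : ℝ) = (N : ℝ) := by exact_mod_cast Nat.div_mul_cancel hl
  have h2 : ((N / l : ℕ) : ℝ) * ((N / l : ℕ) : ℝ) *
      ((univ.filter fun x : V N => cl x = (0 : V (N / l))).card : ℝ) = (N : ℝ) * N := by
    exact_mod_cast h1
  rw [← hN] at h2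
  have h3 : ((N / l : ℕ) : ℝ) * ((N / l : ℕ) : ℝ) ≠ 0 := (mul_pos hn hn).ne'
  apply mul_left_cancel₀ h3
  rw [h2]
  ring

/-- `l⁻¹` times the indicators of the cells -/
def cobV (N l : ℕ) [NeZero N] [NeZero (N / l)] : Matrix (V (N / l)) (V N) ℝ :=
  Matrix.of fun c x => if cl x = c then (l : ℝ)⁻¹ else 0

lemma cobV_apply (c : V (N / l)) (x : V N) :
    cobV N l c x = if cl x = c then (l : ℝ)⁻¹ else 0 := rfl

/-- `ZMod n ≃ Fin n` -/
def fe (n : ℕ) [NeZero n] : ZMod n ≃ Fin n where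
  toFun z := ⟨z.val, ZMod.val_lt z⟩
  invFun i := ((i.val : ℕ) : ZMod n)
  left_inv z := ZMod.natCast_zmod_val z
  right_inv i := by
    refine Fin.ext ?_
    show (((i.val : ℕ) : ZMod n)).val = i.val
    exact ZMod.val_cast_of_lt i.isLt

/-- the two index sets of the cells -/
def ce (n : ℕ) [NeZero n] : V n ≃ Fin n × Fin n := (fe n).prodCongr (fe n)

lemma cob_ce (hl : l ∣ N) (c : V (N / l)) (x : V N) :
    cob N l (ce (N / l) c) x = cobV N l c x := by
  unfold cob
  rw [Matrix.of_apply, cobV_apply]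
  have e : (x.1.val / l = ((ce (N / l) c).1 : Fin (N / l)).val ∧
      x.2.val / l = ((ce (N / l) c).2 : Fin (N / l)).val) ↔ cl x = c := by
    have e1 : ((ce (N / l) c).1 : Fin (N / l)).val = c.1.val := rfl
    have e2 : ((ce (N / l) c).2 : Fin (N / l)).val = c.2.val := rfl
    rw [e1, e2, ← cl1_val hl, ← cl1_val hl, Prod.ext_iff]
    constructor
    · exact fun h => ⟨ZMod.val_injective _ h.1, ZMod.val_injective _ h.2⟩
    · exact fun h => ⟨congrArg ZMod.val h.1, congrArg ZMod.val h.2⟩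
  simp only [e]

lemma cobV_eq (hl : l ∣ N) : cobV N l = (cob N l).submatrix (ce (N / l)) id := by
  ext c x
  rw [Matrix.submatrix_apply, id, cob_ce hl]

lemma cellP_eq (hl : l ∣ N) : cellP N l = (cobV N l)ᵀ * cobV N l := by
  unfold cellP
  ext x y
  rw [Matrix.mul_apply, Matrix.mul_apply, ← Equiv.sum_comp (ce (N / l))]
  refine Finset.sum_congr rfl fun c _ => ?_
  rw [Matrix.transpose_apply, Matrix.transpose_apply, cob_ce hl, cob_ce hl]

lemma cobV_mul_tr (hl : l ∣ N) : cobV N l * (cobV N l)ᵀ = 1 := by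
  have hlp : (0 : ℝ) < l := by exact_mod_cast l_pos hl
  ext c c'
  rw [Matrix.mul_apply, Matrix.one_apply]
  have e : ∀ x : V N, cobV N l c x * (cobV N l)ᵀ x c' =
      if cl x = c then (if c = c' then ((l : ℝ)⁻¹) ^ 2 else 0) else 0 := by
    intro x
    rw [Matrix.transpose_apply, cobV_apply, cobV_apply]
    by_cases h : cl x = c
    · rw [if_pos h, if_pos h, h]
      by_cases h2 : c = c'
      · rw [if_pos h2, if_pos h2, sq]
      · rw [if_neg h2, if_neg h2, mul_zero]
    · rw [if_neg h, if_neg h, zero_mul]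
  rw [Finset.sum_congr rfl fun x _ => e x, ← Finset.sum_filter, Finset.sum_const, nsmul_eq_mul,
    card_cell hl]
  by_cases h2 : c = c'
  · rw [if_pos h2, if_pos h2]
    field_simp
  · rw [if_neg h2, if_neg h2, mul_zero]

lemma cob_mul_tr (hl : l ∣ N) : cob N l * (cob N l)ᵀ = 1 := by
  have h := cobV_mul_tr hl
  have hc : cob N l = (cobV N l).submatrix (ce (N / l)).symm id := by
    rw [cobV_eq hl, Matrix.submatrix_submatrix]
    simp
  rw [hc, Matrix.transpose_submatrix, ← Matrix.submatrix_mul _ _ _ id _ Function.bijective_id, h,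
    Matrix.submatrix_one_equiv]

/-! ### the projection on the cell functions -/

lemma cellP_apply (hl : l ∣ N) (x y : V N) :
    cellP N l x y = if (cl x : V (N / l)) = cl y then ((l : ℝ) ^ 2)⁻¹ else 0 := by
  rw [cellP_eq hl, Matrix.mul_apply]
  have e : ∀ c : V (N / l), (cobV N l)ᵀ x c * cobV N l c y =
      if cl x = c then (if (cl x : V (N / l)) = cl y then ((l : ℝ) ^ 2)⁻¹ else 0) else 0 := by
    intro c
    rw [Matrix.transpose_apply, cobV_apply, cobV_apply]
    by_cases h : cl x = c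
    · rw [if_pos h, if_pos h, ← h]
      by_cases h2 : (cl x : V (N / l)) = cl y
      · rw [if_pos h2, if_pos h2.symm, sq, mul_inv]
      · rw [if_neg h2, if_neg fun h3 => h2 h3.symm, mul_zero]
    · rw [if_neg h, if_neg h, zero_mul]
  rw [Finset.sum_congr rfl fun c _ => e c, Finset.sum_ite_eq, if_pos (Finset.mem_univ _)]

lemma cellP_nonneg (hl : l ∣ N) (x y : V N) : 0 ≤ cellP N l x y := by
  rw [cellP_apply hl]
  split_ifs
  · positivity
  · exact le_rfl

lemma cellP_tr (N l : ℕ) [NeZero N] : (cellP N l)ᵀ = cellP N l := by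
  unfold cellP
  rw [Matrix.transpose_mul, Matrix.transpose_transpose]

lemma cellP_mul_self (hl : l ∣ N) : cellP N l * cellP N l = cellP N l := by
  unfold cellP
  rw [Matrix.mul_assoc, ← Matrix.mul_assoc (cob N l), cob_mul_tr hl, Matrix.one_mul]

lemma cobV_mul_cellP (hl : l ∣ N) : cobV N l * cellP N l = cobV N l := by
  rw [cellP_eq hl, ← Matrix.mul_assoc, cobV_mul_tr hl, Matrix.one_mul]

lemma cellP_mul_tr (hl : l ∣ N) : cellP N l * (cobV N l)ᵀ = (cobV N l)ᵀ := by
  rw [cellP_eq hl, Matrix.mul_assoc, cobV_mul_tr hl, Matrix.mul_one]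

lemma cobV_mulVec (u : V N → ℝ) (c : V (N / l)) :
    (cobV N l *ᵥ u) c = (l : ℝ)⁻¹ * ∑ x ∈ univ.filter (fun x : V N => cl x = c), u x := by
  show ∑ x, cobV N l c x * u x = _
  rw [Finset.mul_sum, Finset.sum_filter]
  refine Finset.sum_congr rfl fun x _ => ?_
  rw [cobV_apply]
  split_ifs
  · rfl
  · rw [zero_mul]

lemma cobV_tr_mulVec (φ : V (N / l) → ℝ) (x : V N) :
    ((cobV N l)ᵀ *ᵥ φ) x = (l : ℝ)⁻¹ * φ (cl x) := by
  show ∑ c, (cobV N l)ᵀ x c * φ c = _
  have e : ∀ c : V (N / l), (cobV N l)ᵀ x c * φ c = if cl x = c then (l : ℝ)⁻¹ * φ (cl x) else 0 := by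
    intro c
    rw [Matrix.transpose_apply, cobV_apply]
    by_cases h : cl x = c
    · rw [if_pos h, if_pos h, h]
    · rw [if_neg h, if_neg h, zero_mul]
  rw [Finset.sum_congr rfl fun c _ => e c, Finset.sum_ite_eq, if_pos (Finset.mem_univ _)]

lemma cobV_one (hl : l ∣ N) : (cobV N l) *ᵥ (fun _ => 1) = fun _ => (l : ℝ) := by
  have hlp : (0 : ℝ) < l := by exact_mod_cast l_pos hl
  funext c
  rw [cobV_mulVec, Finset.sum_const, nsmul_eq_mul, card_cell hl]
  field_simp

lemma cellP_mulVec (hl : l ∣ N) (u : V N → ℝ) (x : V N) :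
    (cellP N l *ᵥ u) x = ((l : ℝ) ^ 2)⁻¹ * ∑ y ∈ univ.filter (fun y : V N =>
      (cl y : V (N / l)) = cl x), u y := by
  rw [cellP_eq hl, ← Matrix.mulVec_mulVec, cobV_tr_mulVec, cobV_mulVec, ← mul_assoc, sq, mul_inv]

lemma cellP_one (hl : l ∣ N) : cellP N l *ᵥ (fun _ => 1) = fun _ => (1 : ℝ) := by
  have hlp : (0 : ℝ) < l := by exact_mod_cast l_pos hl
  funext x
  rw [cellP_mulVec hl, Finset.sum_const, nsmul_eq_mul, card_cell hl]
  field_simp

lemma qf_cellP (hl : l ∣ N) (u : V N → ℝ) : qf (cellP N l) u = ∑ c, (cobV N l *ᵥ u) c ^ 2 := by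
  rw [cellP_eq hl, qf_gram]

lemma qf_cellP_nonneg (hl : l ∣ N) (u : V N → ℝ) : 0 ≤ qf (cellP N l) u := by
  rw [qf_cellP hl]
  exact Finset.sum_nonneg fun _ _ => sq_nonneg _

lemma qf_one (u : V N → ℝ) : qf (1 : Matrix (V N) (V N) ℝ) u = ∑ x, u x ^ 2 := by
  have h := qf_smul_one 1 u
  rw [one_smul, one_mul] at h
  exact h

/-- `<u, (1 - P) u> = |u - P u|²` -/
lemma qf_one_sub_cellP (hl : l ∣ N) (u : V N → ℝ) :
    qf (1 - cellP N l) u = ∑ x, (u x - (cellP N l *ᵥ u) x) ^ 2 := by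
  have h : (1 - cellP N l)ᵀ * (1 - cellP N l) = 1 - cellP N l := by
    rw [Matrix.transpose_sub, Matrix.transpose_one, cellP_tr, Matrix.mul_sub, Matrix.mul_one,
      Matrix.sub_mul, Matrix.one_mul, cellP_mul_self hl, sub_self, sub_zero]
  rw [← h, qf_gram]
  refine Finset.sum_congr rfl fun x _ => ?_
  rw [Matrix.sub_mulVec, Matrix.one_mulVec]
  rfl

lemma qf_cellP_le (hl : l ∣ N) (u : V N → ℝ) : qf (cellP N l) u ≤ ∑ x, u x ^ 2 := by
  have h : 0 ≤ qf (1 - cellP N l) u := by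
    rw [qf_one_sub_cellP hl]
    exact Finset.sum_nonneg fun _ _ => sq_nonneg _
  rw [qf_sub_mat, qf_one] at h
  linarith

/-- Pythagoras -/
lemma qf_cellP_add (hl : l ∣ N) (u : V N → ℝ) :
    ∑ x, u x ^ 2 = ∑ c, (cobV N l *ᵥ u) c ^ 2 + ∑ x, (u x - (cellP N l *ᵥ u) x) ^ 2 := by
  rw [← qf_cellP hl, ← qf_one_sub_cellP hl, qf_sub_mat, qf_one]
  ring

/-- the norm of a cell function -/
lemma sq_cobV_tr (hl : l ∣ N) (φ : V (N / l) → ℝ) :
    ∑ x, ((cobV N l)ᵀ *ᵥ φ) x ^ 2 = ∑ c, φ c ^ 2 := by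
  have h : qf ((cobV N l)ᵀᵀ * (cobV N l)ᵀ) φ = ∑ x, ((cobV N l)ᵀ *ᵥ φ) x ^ 2 := qf_gram _ _
  rw [Matrix.transpose_transpose, cobV_mul_tr hl] at h
  rw [← h]
  have h2 := qf_smul_one (V := V (N / l)) 1 φ
  rw [one_smul, one_mul] at h2
  exact h2

lemma trace_cellP (hl : l ∣ N) : (cellP N l).trace = ((N / l : ℕ) : ℝ) ^ 2 := by
  rw [cellP_eq hl, Matrix.trace_mul_comm, cobV_mul_tr hl, Matrix.trace_one]
  show ((Fintype.card (ZMod (N / l) × ZMod (N / l)) : ℕ) : ℝ) = _
  rw [Fintype.card_prod, ZMod.card]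
  push_cast
  ring

end two

end

end Vale.Agent.P159.H864
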