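import Vale.Agent.P159.H864.Fn0

/-!
P159, module FN (helper864), part 2: Haar levels.

`Dr N r = cellP N r - cellP N (2 r)`, the projection on the functions which are constant on the
cells of side `r` and neutral on the cells of side `2 r`. The local flow of `Dr N r *ᵥ J` is a
linear functional of `J` with coefficients `ph r x t`, `|ph r x t|² ≤ 2`.
-/

set_option linter.unusedSectionVars false

namespace Vale.Agent.P159.H864

open Finset Matrix MeasureTheory
open Vale.Agent.P159.H37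
open Vale.Agent.P159.TM.Spec (V)

noncomputable section

variable {N : ℕ} [NeZero N]

/-! ### nested cells -/

lemma ne_div {s : ℕ} (hs : s ∣ N) : NeZero (N / s) :=
  ⟨(Nat.div_pos (Nat.le_of_dvd (NeZero.pos N) hs) (Nat.pos_of_dvd_of_pos hs (NeZero.pos N))).ne'⟩

lemma ic_sub {r s : ℕ} (h : r ∣ s) (i : ZMod N) : (ic r i : Finset (ZMod N)) ⊆ ic s i := by
  obtain ⟨q, rfl⟩ := h
  intro j hj
  rw [mem_ic] at hj ⊢
  rw [← Nat.div_div_eq_div_mul, ← Nat.div_div_eq_div_mul, hj]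

lemma cc_sub {r s : ℕ} (h : r ∣ s) (x : V N) : (cc r x : Finset (V N)) ⊆ cc s x :=
  Finset.product_subset_product (ic_sub h _) (ic_sub h _)

lemma self_mem_cc (s : ℕ) (x : V N) : x ∈ cc s x := by
  rw [mem_cc]
  exact ⟨rfl, rfl⟩

lemma cc_congr {s : ℕ} {x z : V N} (h : z ∈ cc s x) : (cc s z : Finset (V N)) = cc s x := by
  rw [mem_cc] at h
  unfold cc
  rw [ic_congr h.1, ic_congr h.2]

lemma cc_symm {s : ℕ} {x z : V N} (h : z ∈ cc s x) : x ∈ cc s z := by
  rw [cc_congr h]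
  exact self_mem_cc s x

lemma card_cc {s : ℕ} (hs : s ∣ N) (x : V N) : (cc s x : Finset (V N)).card = s ^ 2 := by
  unfold cc
  rw [Finset.card_product, card_ic hs, card_ic hs, pow_two]

lemma cellP_mulVec_cc {s : ℕ} (hs : s ∣ N) (y : V N → ℝ) (x : V N) :
    (cellP N s *ᵥ y) x = ((s : ℝ) ^ 2)⁻¹ * ∑ z ∈ cc s x, y z := by
  have := ne_div hs
  exact cellP_cc hs y x

lemma cellP_idem {s : ℕ} (hs : s ∣ N) : cellP N s * cellP N s = cellP N s := by
  have := ne_div hs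
  exact cellP_mul_self hs

/-- cell functions are fixed -/
lemma cellP_fix {s : ℕ} (hs : s ∣ N) {y : V N → ℝ} (h : ∀ x, ∀ z ∈ cc s x, y z = y x) :
    cellP N s *ᵥ y = y := by
  funext x
  have hs0 : (0 : ℝ) < s := by
    have : 0 < s := Nat.pos_of_dvd_of_pos hs (NeZero.pos N)
    positivity
  rw [cellP_mulVec_cc hs, Finset.sum_congr rfl fun z hz => h x z hz, Finset.sum_const, card_cc hs,
    nsmul_eq_mul]
  push_cast
  field_simp

/-- means over cells are cell functions -/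
lemma cellP_const {s : ℕ} (hs : s ∣ N) (y : V N → ℝ) {x z : V N} (h : z ∈ cc s x) :
    (cellP N s *ᵥ y) z = (cellP N s *ᵥ y) x := by
  rw [cellP_mulVec_cc hs, cellP_mulVec_cc hs, cc_congr h]

/-- the fine average of the coarse average -/
lemma cellP_mul_coarse {r s : ℕ} (hr : r ∣ s) (hs : s ∣ N) : cellP N r * cellP N s = cellP N s := by
  refine Matrix.ext_of_mulVec_single fun j => ?_
  rw [← Matrix.mulVec_mulVec]
  exact cellP_fix (hr.trans hs) fun x z hz => cellP_const hs _ (cc_sub hr x hz)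

lemma cellP_coarse_mul {r s : ℕ} (hr : r ∣ s) (hs : s ∣ N) : cellP N s * cellP N r = cellP N s := by
  have h := congrArg Matrix.transpose (cellP_mul_coarse hr hs)
  rwa [Matrix.transpose_mul, cellP_tr, cellP_tr] at h

lemma cellP_one_eq : cellP N 1 = 1 := by
  refine Matrix.ext_of_mulVec_single fun j => ?_
  rw [Matrix.one_mulVec]
  refine cellP_fix (one_dvd N) fun x z hz => ?_
  rw [mem_cc, Nat.div_one, Nat.div_one, Nat.div_one, Nat.div_one] at hz
  rw [Prod.ext (ZMod.val_injective N hz.1) (ZMod.val_injective N hz.2)]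

/-! ### the levels -/

variable (N) in
/-- the projection of the level `r` -/
def Dr (r : ℕ) : Matrix (V N) (V N) ℝ := cellP N r - cellP N (2 * r)

lemma Dr_tr (r : ℕ) : (Dr N r)ᵀ = Dr N r := by
  unfold Dr
  rw [Matrix.transpose_sub, cellP_tr, cellP_tr]

lemma Dr_mul_self {r : ℕ} (hr : 2 * r ∣ N) : Dr N r * Dr N r = Dr N r := by
  have h1 : r ∣ 2 * r := Dvd.intro_left 2 rfl
  unfold Dr
  rw [Matrix.mul_sub, Matrix.sub_mul, Matrix.sub_mul, cellP_idem (h1.trans hr),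
    cellP_mul_coarse h1 hr, cellP_coarse_mul h1 hr, cellP_idem hr]
  abel

/-- the levels are fine -/
lemma Dr_mul_cellP {r l : ℕ} (hr : 2 * r ∣ l) (hl : l ∣ N) : Dr N r * cellP N l = 0 := by
  have h1 : r ∣ 2 * r := Dvd.intro_left 2 rfl
  unfold Dr
  rw [Matrix.sub_mul, cellP_mul_coarse (h1.trans hr) hl, cellP_mul_coarse hr hl, sub_self]

lemma Dr_mul_fine {r l : ℕ} (hr : 2 * r ∣ l) (hl : l ∣ N) : Dr N r * (1 - cellP N l) = Dr N r := by
  rw [Matrix.mul_sub, Matrix.mul_one, Dr_mul_cellP hr hl, sub_zero]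

/-- the sum of the levels -/
lemma sum_Dr (m : ℕ) : ∑ i ∈ Finset.range m, Dr N (2 ^ i) = 1 - cellP N (2 ^ m) := by
  have h : ∀ i, Dr N (2 ^ i) = cellP N (2 ^ i) - cellP N (2 ^ (i + 1)) := fun i => by
    unfold Dr
    rw [pow_succ, mul_comm]
  simp only [h]
  rw [Finset.sum_range_sub', pow_zero, cellP_one_eq]

lemma Dr_mulVec {r : ℕ} (y : V N → ℝ) :
    Dr N r *ᵥ y = cellP N r *ᵥ y - cellP N (2 * r) *ᵥ y := by
  unfold Dr
  rw [Matrix.sub_mulVec]

/-- functions of the level are constant on the cells of side `r` -/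
lemma Dr_const {r : ℕ} (hr : 2 * r ∣ N) (y : V N → ℝ) {x z : V N} (h : z ∈ cc r x) :
    (Dr N r *ᵥ y) z = (Dr N r *ᵥ y) x := by
  have h1 : r ∣ 2 * r := Dvd.intro_left 2 rfl
  rw [Dr_mulVec, Pi.sub_apply, Pi.sub_apply, cellP_const (h1.trans hr) y h,
    cellP_const hr y (cc_sub h1 x h)]

/-- functions of the level are neutral on the cells of side `2 r` -/
lemma cellP_Dr {r : ℕ} (hr : 2 * r ∣ N) (y : V N → ℝ) :
    cellP N (2 * r) *ᵥ (Dr N r *ᵥ y) = 0 := by
  have h1 : r ∣ 2 * r := Dvd.intro_left 2 rfl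
  rw [Matrix.mulVec_mulVec]
  unfold Dr
  rw [Matrix.mul_sub, cellP_coarse_mul h1 hr, cellP_idem hr, sub_self, Matrix.zero_mulVec]

lemma Dr_sq_le {r : ℕ} (hr : 2 * r ∣ N) (y : V N → ℝ) :
    ∑ x, (Dr N r *ᵥ y) x ^ 2 ≤ ∑ x, y x ^ 2 := by
  have h : (Dr N r)ᵀ * Dr N r = Dr N r := by rw [Dr_tr, Dr_mul_self hr]
  have h1 : ∑ x, (Dr N r *ᵥ y) x ^ 2 = qf (Dr N r) y := by
    rw [← qf_gram (Dr N r) y, h]
  have h2 : r ∣ 2 * r := Dvd.intro_left 2 rfl
  have := ne_div (h2.trans hr)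
  have := ne_div hr
  rw [h1]
  unfold Dr
  rw [qf_sub_mat]
  have h3 := qf_cellP_le (h2.trans hr) y
  have h4 := qf_cellP_nonneg hr y
  linarith

/-! ### the flow of a level -/

/-- the flow of a function which is constant on the cells of side `r` -/
lemma flo_sq_le {r : ℕ} (hr : 2 * r ∣ N) {y : V N → ℝ} (h : ∀ x, ∀ z ∈ cc r x, y z = y x) (x : V N)
    (t : Bool) : flo (2 * r) y x t ^ 2 ≤ 2 * ∑ z ∈ cc (2 * r) x, y z ^ 2 := by
  have hS : 0 ≤ ∑ z ∈ cc (2 * r) x, y z ^ 2 := Finset.sum_nonneg fun _ _ => sq_nonneg _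
  cases t
  · have := flo_false_sq hr y x
    linarith
  · refine (flo_true_sq hr y x).trans ?_
    have h1 : (r : ℝ) * ∑ i ∈ ic (2 * r) x.1, y (i, x.2) ^ 2 ≤ ∑ z ∈ cc (2 * r) x, y z ^ 2 := by
      unfold cc
      rw [Finset.sum_product_right]
      have h2 : r ∣ 2 * r := Dvd.intro_left 2 rfl
      have h3 : ∑ j ∈ ic r x.2, ∑ i ∈ ic (2 * r) x.1, y (i, j) ^ 2 ≤
          ∑ j ∈ ic (2 * r) x.2, ∑ i ∈ ic (2 * r) x.1, y (i, j) ^ 2 :=
        Finset.sum_le_sum_of_subset_of_nonneg (ic_sub h2 _) fun _ _ _ =>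
          Finset.sum_nonneg fun _ _ => sq_nonneg _
      refine le_trans (le_of_eq ?_) h3
      have h4 : ∀ j ∈ ic r x.2, ∑ i ∈ ic (2 * r) x.1, y (i, j) ^ 2 =
          ∑ i ∈ ic (2 * r) x.1, y (i, x.2) ^ 2 := by
        intro j hj
        refine Finset.sum_congr rfl fun i _ => ?_
        rw [h (i, x.2) (i, j) (by
          rw [mem_cc]
          exact ⟨rfl, mem_ic.1 hj⟩)]
      rw [Finset.sum_congr rfl h4, Finset.sum_const, card_ic (h2.trans hr), nsmul_eq_mul]
    push_cast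
    linarith

/-- the flow as a linear functional -/
def floL (s : ℕ) (x : V N) (t : Bool) : (V N → ℝ) →ₗ[ℝ] ℝ where
  toFun y := flo s y x t
  map_add' y z := flo_add s y z x t
  map_smul' a y := flo_smul s a y x t

/-- the coefficients of the flow of the level `r` -/
def ph (r : ℕ) (x : V N) (t : Bool) (z : V N) : ℝ :=
  flo (2 * r) (Dr N r *ᵥ Pi.single z 1) x t

lemma flo_eq_sum (r : ℕ) (J : V N → ℝ) (x : V N) (t : Bool) :
    flo (2 * r) (Dr N r *ᵥ J) x t = ∑ z, J z * ph r x t z := by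
  have h1 : Dr N r *ᵥ J = ∑ z, J z • (Dr N r *ᵥ Pi.single z 1) := by
    conv_lhs => rw [show J = ∑ z, J z • (Pi.single z 1 : V N → ℝ) from by
      funext x
      simp [Finset.sum_apply, Pi.single_apply]]
    rw [Matrix.mulVec_sum]
    exact Finset.sum_congr rfl fun z _ => by rw [Matrix.mulVec_smul]
  show floL (2 * r) x t (Dr N r *ᵥ J) = _
  rw [h1, map_sum]
  refine Finset.sum_congr rfl fun z _ => ?_
  rw [map_smul, smul_eq_mul]
  rfl

lemma flo_level_sq {r : ℕ} (hr : 2 * r ∣ N) (J : V N → ℝ) (x : V N) (t : Bool) :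
    flo (2 * r) (Dr N r *ᵥ J) x t ^ 2 ≤ 2 * ∑ z, J z ^ 2 := by
  refine (flo_sq_le hr (fun x z hz => Dr_const hr J hz) x t).trans ?_
  have h1 : ∑ z ∈ cc (2 * r) x, (Dr N r *ᵥ J) z ^ 2 ≤ ∑ z, (Dr N r *ᵥ J) z ^ 2 :=
    Finset.sum_le_sum_of_subset_of_nonneg (Finset.subset_univ _) fun _ _ _ => sq_nonneg _
  have h2 := Dr_sq_le hr J
  linarith

/-- **the coefficients are bounded** -/
theorem ph_sq {r : ℕ} (hr : 2 * r ∣ N) (x : V N) (t : Bool) : ∑ z, ph r x t z ^ 2 ≤ 2 := by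
  have h1 := flo_level_sq hr (ph r x t) x t
  rw [flo_eq_sum] at h1
  have h2 : ∑ z, ph r x t z * ph r x t z = ∑ z, ph r x t z ^ 2 :=
    Finset.sum_congr rfl fun z _ => (pow_two _).symm
  rw [h2] at h1
  have h3 : 0 ≤ ∑ z, ph r x t z ^ 2 := Finset.sum_nonneg fun _ _ => sq_nonneg _
  rcases h3.eq_or_lt with h4 | h4
  · rw [← h4]
    norm_num
  · rw [pow_two] at h1
    exact le_of_mul_le_mul_right h1 h4

/-- **the coefficients are in the range of the level** -/
theorem Dr_ph {r : ℕ} (hr : 2 * r ∣ N) (x : V N) (t : Bool) :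
    Dr N r *ᵥ ph r x t = ph r x t := by
  have h1 : ∀ J : V N → ℝ, ∑ z, J z * ph r x t z = ∑ z, (Dr N r *ᵥ J) z * ph r x t z := by
    intro J
    rw [← flo_eq_sum, ← flo_eq_sum, Matrix.mulVec_mulVec, Dr_mul_self hr]
  funext z
  have h2 := h1 (Pi.single z 1)
  have h3 : ∑ w, (Pi.single z 1 : V N → ℝ) w * ph r x t w = ph r x t z := by
    simp [Pi.single_apply]
  rw [h3] at h2
  rw [h2]
  show ∑ w, Dr N r z w * ph r x t w = _
  refine Finset.sum_congr rfl fun w _ => ?_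
  congr 1
  rw [Matrix.mulVec_single_one]
  have := congrFun (congrFun (Dr_tr (N := N) r) z) w
  rw [Matrix.transpose_apply] at this
  exact this.symm

/-- the coefficients are fine -/
lemma fine_ph {r l : ℕ} (hr : 2 * r ∣ l) (hl : l ∣ N) (x : V N) (t : Bool) :
    cellP N l *ᵥ ph r x t = 0 := by
  rw [← Dr_ph (hr.trans hl) x t, Matrix.mulVec_mulVec]
  have h := congrArg Matrix.transpose (Dr_mul_cellP (N := N) hr hl)
  rw [Matrix.transpose_mul, cellP_tr, Dr_tr, Matrix.transpose_zero] at h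
  rw [h, Matrix.zero_mulVec]

end

end Vale.Agent.P159.H864
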