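import Vale.Agent.P159.H864.Fn5
import Vale.Agent.P159.H864.Cel2
import Vale.Agent.P159.H692.Fn2
import Vale.Agent.P159.H340.Tr3

/-!
P159, module FN (helper864), part 8: ONE HAAR LEVEL IS OK (`H692.LevOK`).

Frame `hf (2^i)`, free blocks of side `2^j`, matrix `A c d = <f c, (Vm - G) f d>`.
`levok` : for all masses `m0 ≤ M ≤ t`, `t 4^j ≤ 1`; the large sources are an input, see `hlarge`.
-/

set_option linter.unusedSectionVars false

namespace Vale.Agent.P159.H864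

open Finset Matrix MeasureTheory
open Vale.Agent.P159.H37 (qf bf re wM Zs Gm cellP Rs)
open Vale.Agent.P159.TM.Spec (V)
open Vale.Agent.P159.TM.SpecC (wT)
open Vale.Agent.P159.TM.SpecI (tgt inn ex pr)
open Vale.Agent.P159.TM.H574 (bx eb cnr dc avc avc_eq)
open Vale.Agent.P159.TM.H104 (Lg)
open Vale.Agent.P159.H692 (Yf HL LevOK)

noncomputable section

variable {N L n m r s : ℕ} [NeZero N]

/-! ### the frame -/

/-- the frame of the level -/
def ff (r : ℕ) {m : ℕ} (c : Fin m × Fin m) : V N → ℝ := hf r (nc c)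

lemma Yf_apply (a : Fin m × Fin m → ℝ) (x : V N) :
    Yf (ff (N := N) r) a x = ∑ c, a c * hf r (nc c) x := by
  unfold Yf ff
  rw [Finset.sum_apply]
  rfl

lemma Dr_Yf (hN : N = m * r) (hr : 2 * r ∣ N) (a : Fin m × Fin m → ℝ) :
    Dr N r *ᵥ Yf (ff (N := N) r) a = Yf (ff (N := N) r) a := by
  unfold Yf
  rw [Matrix.mulVec_sum]
  refine Finset.sum_congr rfl fun c _ => ?_
  rw [Matrix.mulVec_smul]
  unfold ff
  rw [Dr_hf hN hr]

/-- a Haar function lives in the parent cell -/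
lemma hf_supp (hN : N = m * r) (hr : 2 * r ∣ N) (c : Fin m × Fin m) {x : V N}
    (h : hf r (nc c) x ≠ 0) : x ∈ cc (2 * r) (cnr (pk r c) : V N) := by
  have hrN : r ∣ N := ⟨m, by rw [hN]; ring⟩
  rw [hf_eq hN hr c (cnr_mem hN c)] at h
  by_contra hx
  apply h
  have hx1 : ¬ ((cnr (pk r c) : V N) ∈ cc (2 * r) x) := fun h' => hx (cc_symm h')
  have hx2 : ¬ ((cnr (pk r c) : V N) ∈ cc r x) := fun h' =>
    hx1 (cc_sub (Dvd.intro_left 2 rfl) x h')
  unfold Dr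
  rw [Matrix.sub_apply, cellP_entry hrN, cellP_entry hr, if_neg hx1, if_neg hx2, sub_zero, mul_zero]

/-- the block of a cell -/
def bc (hL : N = n * L) (r : ℕ) {m : ℕ} (c : Fin m × Fin m) : Fin n × Fin n :=
  bk hL (cnr (pk r c) : V N)

lemma hf_blk (hN : N = m * r) (hL : N = n * L) (hr : 2 * r ∣ L) (c : Fin m × Fin m) {x : V N}
    (h : hf r (nc c) x ≠ 0) : bk hL x = bc hL r c := by
  have hLN : L ∣ N := ⟨n, by rw [hL]; ring⟩
  have h1 := hf_supp hN (hr.trans hLN) c h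
  have h2 : (cnr (pk r c) : V N) ∈ (bx (pk L (bc hL r c)) L : Finset (V N)) :=
    (mem_bk_iff hL).2 rfl
  exact (mem_bk_iff hL).1 (cc_block hL hr h2 h1)

/-- the weight of a block -/
def xk (hL : N = n * L) (k : Fin n × Fin n) (x : V N) : ℝ := if bk hL x = k then 1 else 0

lemma xk_const (hL : N = n * L) (hr : 2 * r ∣ L) (k : Fin n × Fin n) (x : V N) :
    ∀ z ∈ cc r x, xk hL k z = xk hL k x := by
  intro z hz
  have hrL : r ∣ L := (Dvd.intro_left 2 rfl).trans hr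
  have h2 : x ∈ (bx (pk L (bk hL x)) L : Finset (V N)) := (mem_bk_iff hL).2 rfl
  have h3 := (mem_bk_iff hL).1 (cc_block hL hrL h2 hz)
  unfold xk
  rw [h3]

lemma nk_eq (hL : N = n * L) (k : Fin n × Fin n) (y : V N → ℝ) :
    nk L k y = ∑ x, xk hL k x * y x ^ 2 := by
  classical
  unfold nk xk
  have h : (bx (pk L k) L : Finset (V N)) = univ.filter fun x => bk hL x = k := by
    ext x
    rw [mem_bk_iff hL, Finset.mem_filter]
    simp
  rw [h, Finset.sum_filter]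
  refine Finset.sum_congr rfl fun x _ => ?_
  split_ifs <;> ring

/-- **synthesis is a contraction in every block** -/
theorem nk_Yf (hN : N = m * r) (hL : N = n * L) (hr : 2 * r ∣ L) (a : Fin m × Fin m → ℝ)
    (k : Fin n × Fin n) :
    nk L k (Yf (ff (N := N) r) a) ≤ ∑ c with bc hL r c = k, a c ^ 2 := by
  classical
  have hLN : L ∣ N := ⟨n, by rw [hL]; ring⟩
  have hrN := hr.trans hLN
  set y := Yf (ff (N := N) r) a with hy
  have hDy : Dr N r *ᵥ y = y := Dr_Yf hN hrN a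
  set q : Fin m × Fin m → ℝ := fun c => ∑ x, hf r (nc c) x * y x with hq
  have h1 := sum_hf_dot_sq hN hrN (χ := xk hL k) (xk_const hL hr k) y
  rw [hDy, ← nk_eq hL] at h1
  have h2 : nk L k y = ∑ c, xk hL k (cnr (pk r c)) * (a c * q c) := by
    rw [nk_eq hL]
    have e : ∀ x, xk hL k x * y x ^ 2 = ∑ c, xk hL k x * (a c * hf r (nc c) x * y x) := by
      intro x
      rw [← Finset.mul_sum, ← Finset.sum_mul, ← Yf_apply, ← hy, pow_two]
    simp only [e]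
    rw [Finset.sum_comm]
    refine Finset.sum_congr rfl fun c _ => ?_
    rw [hq]
    simp only
    rw [Finset.mul_sum, Finset.mul_sum]
    refine Finset.sum_congr rfl fun x _ => ?_
    by_cases h0 : hf r (nc c) x = 0
    · rw [h0]; ring
    · have h3 : xk hL k x = xk hL k (cnr (pk r c)) := by
        unfold xk
        rw [hf_blk hN hL hr c h0]
        rfl
      rw [h3]
      ring
  have h3 : ∑ c, xk hL k (cnr (pk r c)) * (a c * q c) ≤
      (∑ c, xk hL k (cnr (pk r c)) * a c ^ 2 + ∑ c, xk hL k (cnr (pk r c)) * q c ^ 2) / 2 := by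
    rw [← Finset.sum_add_distrib, Finset.sum_div]
    refine Finset.sum_le_sum fun c _ => ?_
    have h4 : 0 ≤ xk hL k (cnr (pk r c)) := by
      unfold xk
      split_ifs <;> norm_num
    nlinarith [mul_nonneg h4 (sq_nonneg (a c - q c))]
  have h4 : ∑ c, xk hL k (cnr (pk r c)) * a c ^ 2 = ∑ c with bc hL r c = k, a c ^ 2 := by
    rw [Finset.sum_filter]
    refine Finset.sum_congr rfl fun c _ => ?_
    unfold xk bc
    split_ifs <;> ring
  rw [← h2, h1, h4] at h3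
  linarith

/-- **synthesis is a contraction** -/
theorem sq_Yf (hN : N = m * r) (hL : N = n * L) (hr : 2 * r ∣ L) (a : Fin m × Fin m → ℝ) :
    ∑ x, Yf (ff (N := N) r) a x ^ 2 ≤ ∑ c, a c ^ 2 := by
  classical
  rw [← sum_nk hL, ← Finset.sum_fiberwise univ (bc hL r (m := m)) fun c => a c ^ 2]
  exact Finset.sum_le_sum fun k _ => nk_Yf hN hL hr a k

/-- row sums of the Haar functions -/
lemma sum_abs_hf (hN : N = m * r) (hr : 2 * r ∣ N) (x : V N) :
    (r : ℝ) * ∑ c : Fin m × Fin m, |hf r (nc c) x| ≤ 2 := by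
  classical
  have hrN : r ∣ N := ⟨m, by rw [hN]; ring⟩
  have hr0 : (0 : ℝ) < r := by exact_mod_cast L_pos hN
  have h1 : (r : ℝ) * ∑ c : Fin m × Fin m, |hf r (nc c) x| =
      ∑ c : Fin m × Fin m, (r : ℝ) ^ 2 * |Dr N r x (cnr (pk r c))| := by
    rw [Finset.mul_sum]
    refine Finset.sum_congr rfl fun c _ => ?_
    rw [hf_eq hN hr c (cnr_mem hN c), abs_mul, abs_of_pos hr0]
    ring
  have hcol : ∀ z w w' : V N, w' ∈ cc r w → Dr N r w' z = Dr N r w z := by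
    intro z w w' hw
    have h3 := Dr_const hr (Pi.single z 1) hw
    rw [Matrix.mulVec_single_one] at h3
    exact h3
  rw [h1, sum_cellv hN (G := fun z => |Dr N r x z|) (fun w w' hw => by
    show |Dr N r x w'| = |Dr N r x w|
    rw [Dr_symm r x w', Dr_symm r x w, hcol x w w' hw])]
  have h2 : ∀ s : ℕ, s ∣ N → ∑ z, |cellP N s x z| = 1 := by
    intro s hs
    have hs0 : (0 : ℝ) < s := by
      have : 0 < s := Nat.pos_of_dvd_of_pos hs (NeZero.pos N)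
      exact_mod_cast this
    have e : ∀ z, |cellP N s x z| = if z ∈ cc s x then ((s : ℝ) ^ 2)⁻¹ else 0 := by
      intro z
      rw [cellP_entry hs, abs_of_nonneg (by split_ifs <;> positivity)]
    simp only [e]
    rw [← Finset.sum_filter, Finset.filter_mem_eq_inter, Finset.univ_inter, Finset.sum_const,
      card_cc hs, nsmul_eq_mul]
    push_cast
    field_simp
  calc ∑ z, |Dr N r x z| ≤ ∑ z, (|cellP N r x z| + |cellP N (2 * r) x z|) :=
        Finset.sum_le_sum fun z _ => by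
          unfold Dr
          rw [Matrix.sub_apply]
          exact abs_sub _ _
    _ = 2 := by
        rw [Finset.sum_add_distrib, h2 r hrN, h2 (2 * r) hr]
        norm_num

/-- small coefficients give small sources -/
lemma Yf_small (hN : N = m * r) (hr : 2 * r ∣ N) {a : Fin m × Fin m → ℝ} {κ : ℝ}
    (ha : ∀ c, |a c| ≤ κ) (hκ : 0 ≤ κ) (x : V N) :
    (r : ℝ) * |Yf (ff (N := N) r) a x| ≤ 2 * κ := by
  rw [Yf_apply]
  have h1 : |∑ c, a c * hf r (nc c) x| ≤ ∑ c : Fin m × Fin m, κ * |hf r (nc c) x| :=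
    (Finset.abs_sum_le_sum_abs _ _).trans (Finset.sum_le_sum fun c _ => by
      rw [abs_mul]
      exact mul_le_mul_of_nonneg_right (ha c) (abs_nonneg _))
  rw [← Finset.mul_sum] at h1
  have h2 := sum_abs_hf hN hr x
  have h3 := mul_le_mul_of_nonneg_left h1 (Nat.cast_nonneg r : (0 : ℝ) ≤ r)
  have h4 := mul_le_mul_of_nonneg_left h2 hκ
  calc _ ≤ _ := h3
    _ = κ * (↑r * ∑ c : Fin m × Fin m, |hf r (nc c) x|) := by ring
    _ ≤ _ := by linarith

/-- **the frame identity** -/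
theorem Yf_dot (hN : N = m * r) (hr : 2 * r ∣ N) (z : V N → ℝ) :
    Yf (ff (N := N) r) (fun c : Fin m × Fin m => ff r c ⬝ᵥ z) = Dr N r *ᵥ z := by
  funext x
  rw [Yf_apply]
  show _ = ∑ w, Dr N r x w * z w
  simp only [← sum_hf_hf hN hr x, Finset.sum_mul]
  rw [Finset.sum_comm]
  refine Finset.sum_congr rfl fun c _ => ?_
  show (∑ w, hf r (nc c) w * z w) * hf r (nc c) x = _
  rw [Finset.sum_mul]
  exact Finset.sum_congr rfl fun w _ => by ring

/-- the number of cells in a block -/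
lemma card_bc (hN : N = m * r) (hL : N = n * L) (hr : 2 * r ∣ L) (k : Fin n × Fin n) :
    (((univ : Finset (Fin m × Fin m)).filter fun c => bc hL r c = k).card : ℝ) ≤
      ((L : ℝ) / r) ^ 2 := by
  classical
  have hr0 : (0 : ℝ) < r := by exact_mod_cast L_pos hN
  have h1 := sum_cellv hN (G := xk hL k) (xk_const hL hr k)
  have h2 : ∑ x : V N, xk hL k x = (L : ℝ) ^ 2 := by
    unfold xk
    rw [← Finset.sum_filter, Finset.sum_const, nsmul_eq_mul, mul_one]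
    have h : (bx (pk L k) L : Finset (V N)) = univ.filter fun x => bk hL x = k := by
      ext x
      rw [mem_bk_iff hL, Finset.mem_filter]
      simp
    rw [← h, card_bk hL]
  have h3 : ∑ c : Fin m × Fin m, (r : ℝ) ^ 2 * xk hL k (cnr (pk r c)) =
      (r : ℝ) ^ 2 * (((univ : Finset (Fin m × Fin m)).filter fun c => bc hL r c = k).card : ℝ) := by
    rw [← Finset.mul_sum]
    congr 1
    unfold xk bc
    rw [← Finset.sum_filter, Finset.sum_const, nsmul_eq_mul, mul_one]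
  rw [h2, h3] at h1
  rw [div_pow, le_div_iff₀ (by positivity), mul_comm]
  exact h1.le

/-! ### the matrix in the coefficients -/

/-- the matrix of a form in the coefficients -/
def Aq (Q : Matrix (V N) (V N) ℝ) (r : ℕ) {m : ℕ} : Matrix (Fin m × Fin m) (Fin m × Fin m) ℝ :=
  Matrix.of fun c d => bf Q (ff r c) (ff r d)

lemma Aq_tr {Q : Matrix (V N) (V N) ℝ} (hQ : Qᵀ = Q) (r : ℕ) {m : ℕ} :
    (Aq Q r (m := m))ᵀ = Aq Q r := by
  ext c d
  unfold Aq
  rw [Matrix.transpose_apply, Matrix.of_apply, Matrix.of_apply, H37.bf_comm hQ]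

lemma qf_Aq (Q : Matrix (V N) (V N) ℝ) (r : ℕ) {m : ℕ} (a : Fin m × Fin m → ℝ) :
    qf (Aq Q r) a = qf Q (Yf (ff r) a) := by
  have h1 : qf Q (Yf (ff r) a) = ∑ c, ∑ d, a c * bf Q (ff r c) (ff r d) * a d := by
    rw [← H37.bf_self, H37.bf_eq]
    unfold Yf
    rw [sum_dotProduct]
    refine Finset.sum_congr rfl fun c _ => ?_
    rw [Matrix.mulVec_sum, dotProduct_sum]
    refine Finset.sum_congr rfl fun d _ => ?_
    rw [Matrix.mulVec_smul, dotProduct_smul, smul_dotProduct, smul_eq_mul, smul_eq_mul, H37.bf_eq]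
    ring
  rw [h1]
  rfl

lemma Aq_diag (Q : Matrix (V N) (V N) ℝ) (r : ℕ) {m : ℕ} (c : Fin m × Fin m) :
    Aq Q r c c = qf Q (ff r c) := rfl

lemma qf_sub_Q (A B : Matrix (V N) (V N) ℝ) (y : V N → ℝ) : qf (A - B) y = qf A y - qf B y :=
  qf_sub_mat A B y

/-! ### the trace -/

/-- the variance of a Haar function: only its own block counts -/
lemma sum_vk_ff (b : ℝ) (hN : N = m * r) (hL : N = n * L) (hr : 2 * r ∣ L) (c : Fin m × Fin m) :
    ∑ k : Fin n × Fin n, vk b L k (ff (N := N) r c) =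
      H340.vk b L (H340.pk (L / r) L (nc c)) (H340.fc (N := N) r (nc c)) := by
  classical
  have hLN : L ∣ N := ⟨n, by rw [hL]; ring⟩
  have hr0 : 0 < r := L_pos hN
  have hrL : r ∣ L := (Dvd.intro_left 2 rfl).trans hr
  rw [Finset.sum_eq_single (bc hL r c) _ (fun h => absurd (Finset.mem_univ _) h)]
  · have e1 : yk L (bc hL r c) (ff (N := N) r c) = H340.fc (N := N) r (nc c) := by
      funext x
      unfold yk
      by_cases h : x ∈ (bx (pk L (bc hL r c)) L : Finset (V N))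
      · rw [if_pos h]
        rfl
      · rw [if_neg h]
        by_contra h0
        exact h ((mem_bk_iff hL).2 (hf_blk hN hL hr c (x := x) fun h1 => h0 h1.symm))
    have e2 : pk L (bc hL r c) = H340.pk (L / r) L (nc c) := by
      have h2 := (mem_bk hN (k := c) (x := (cnr (pk r c) : V N))).1 (cnr_mem hN c)
      unfold pk H340.pk bc bk nc
      simp only
      obtain ⟨Y, rfl⟩ := hrL
      rw [Nat.mul_div_cancel_left _ hr0, ← Nat.div_div_eq_div_mul, ← Nat.div_div_eq_div_mul]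
      rw [h2.1, h2.2]
    unfold vk H340.vk
    rw [e1, e2]
  · intro k _ hk
    have e1 : yk L k (ff (N := N) r c) = 0 := by
      funext x
      unfold yk
      by_cases h : x ∈ (bx (pk L k) L : Finset (V N))
      · rw [if_pos h, Pi.zero_apply]
        by_contra h0
        apply hk
        rw [← (mem_bk_iff hL).1 h]
        exact hf_blk hN hL hr c (x := x) h0
      · rw [if_neg h, Pi.zero_apply]
    unfold vk
    rw [e1]
    have e2 : (fun h : V N → ℤ => pr (0 : V N → ℝ) h ^ 2) = fun _ => 0 := by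
      funext h
      unfold TM.SpecI.pr
      simp
    rw [e2]
    unfold TM.SpecI.ex
    simp

lemma sum_nc (F : ℕ × ℕ → ℝ) (m : ℕ) :
    ∑ c : Fin m × Fin m, F (nc c) = ∑ c ∈ range m ×ˢ range m, F c := by
  rw [Fintype.sum_prod_type, Finset.sum_product, Finset.sum_range]
  refine Finset.sum_congr rfl fun i _ => ?_
  rw [Finset.sum_range]
  rfl

/-! ### one level is OK -/

/-- **LEVOK** -/
theorem levok {b : ℝ} (hb : 0 ≤ b) : ∃ C0 C1 κ c : ℝ, 0 ≤ C0 ∧ 0 ≤ C1 ∧ 0 < κ ∧ 0 < c ∧ c ≤ 1 ∧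
    ∀ (N : ℕ) [NeZero N] (i j nb : ℕ), i + 1 ≤ j → N = nb * 2 ^ j →
    ∀ t : ℝ, 0 < t → t * ((2 : ℝ) ^ j) ^ 2 ≤ 1 →
    ∀ (m0 : ℝ) (M : Matrix (V N) (V N) ℝ), 0 < m0 → Mᵀ = M →
      (∀ u : V N → ℝ, m0 * ∑ x, u x ^ 2 ≤ qf M u) → (∀ u : V N → ℝ, qf M u ≤ t * ∑ x, u x ^ 2) →
      (∀ y : V N → ℝ, Dr N (2 ^ i) *ᵥ y = y →
        Lg (wM (wT b N) M) y - Lg (wM (wT b N) M) 0 ≤ (∑ x, y x ^ 2) / (2 * t)) →
    LevOK (wM (wT b N) M) (Dr N (2 ^ i)) N (2 ^ i) (2 ^ j) t C0 C1 κ c := by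
  classical
  obtain ⟨C, c, hC, hc, hT⟩ := H340.tr_quad hb
  refine ⟨768 * max b 1 ^ 2, C, 1 / 12, min c 1, by positivity, hC.le, by norm_num,
    lt_min hc one_pos, min_le_right _ _, ?_⟩
  intro N _ i j nb hij hN t ht ht1 m0 M hm0 hMs hMl hMu hlarge
  have hij' : i ≤ j := by omega
  have hj : 2 ^ j = 2 ^ (j - i) * 2 ^ i := by rw [← pow_add, Nat.sub_add_cancel hij']
  have hr0 : 0 < 2 ^ i := by positivity
  have hr : 2 * 2 ^ i ∣ 2 ^ j := by
    rw [← pow_succ']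
    exact pow_dvd_pow 2 hij
  have hLN : 2 ^ j ∣ N := ⟨nb, by rw [hN]; ring⟩
  have hrN := hr.trans hLN
  set m : ℕ := N / 2 ^ i with hm
  have hNm : N = m * 2 ^ i :=
    (Nat.div_mul_cancel ((Dvd.intro_left 2 rfl : 2 ^ i ∣ 2 * 2 ^ i).trans hrN)).symm
  have hE := H789.em_wM_wT hb hm0 hMl
  set μ := wM (wT b N) M with hμ
  set Q : Matrix (V N) (V N) ℝ := Vm N b (2 ^ j) nb - Gm μ with hQ
  have hQs : Qᵀ = Q := by
    rw [hQ, Matrix.transpose_sub, Vm_tr]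
    congr 1
    exact H789.Cm_symm μ 0
  have hqQ : ∀ y, qf Q y = ∑ k : Fin nb × Fin nb, vk b (2 ^ j) k y - qf (Gm μ) y := fun y => by
    rw [hQ, qf_sub_Q, qf_Vm hb hN]
  have hG0 : ∀ y, 0 ≤ qf (Gm μ) y := fun y => H114.qf_Cm_nonneg hE 0 y
  have hr1 : ((2 ^ i : ℕ) : ℝ) ≤ ((2 ^ j : ℕ) : ℝ) := by
    exact_mod_cast Nat.pow_le_pow_right (by norm_num) hij'
  have hB1 : (1 : ℝ) ≤ max b 1 := le_max_right _ _
  have hBb : b ≤ max b 1 := le_max_left _ _
  refine ⟨Fin m × Fin m, Fin nb × Fin nb, inferInstance, inferInstance, inferInstance,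
    ff (2 ^ i), bc hN (2 ^ i), Aq Q (2 ^ i), ?_, ?_, ?_, ?_, ?_⟩
  · refine ⟨ht, ?_, by positivity, by norm_num, Aq_tr hQs _, ?_, ?_, ?_, ?_, ?_⟩
    · refine le_trans (mul_le_mul_of_nonneg_left (pow_le_pow_left₀ (by positivity) hr1 2) ht.le) ?_
      push_cast
      exact ht1
    · intro a
      rw [qf_Aq, hqQ, sub_nonneg]
      exact gm_le_vk hb hN hr hMs hm0 hMl (Dr_Yf hNm hrN a)
    · intro a ha
      have h1 := lg_le hb hN hr hMs hm0 hMl (Dr_Yf hNm hrN a) (fun x => by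
        have := Yf_small hNm hrN ha (by norm_num) x
        linarith)
      rw [qf_Aq, hqQ]
      have h2 : ∑ k : Fin nb × Fin nb,
          (((2 ^ i : ℕ) : ℝ) ^ 2 * nk (2 ^ j) k (Yf (ff (N := N) (2 ^ i)) a)) ^ 2 ≤
          ((2 ^ i : ℕ) : ℝ) ^ 4 * ∑ k, (∑ c with bc hN (2 ^ i) c = k, a c ^ 2) ^ 2 := by
        rw [Finset.mul_sum]
        refine Finset.sum_le_sum fun k _ => ?_
        have h3 := nk_Yf hNm hN hr a k
        have h4 := nk_nonneg (2 ^ j) k (Yf (ff (N := N) (2 ^ i)) a)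
        rw [mul_pow, ← pow_mul]
        exact mul_le_mul_of_nonneg_left (pow_le_pow_left₀ h4 h3 2) (by positivity)
      have h3 := mul_le_mul_of_nonneg_left h2 (show 0 ≤ 768 * max b 1 ^ 2 by positivity)
      unfold Rs
      linarith
    · intro a
      rw [qf_Aq, hqQ]
      have h1 : ∑ k : Fin nb × Fin nb, vk b (2 ^ j) k (Yf (ff (N := N) (2 ^ i)) a) ≤
          64 * b * ((2 ^ i : ℕ) : ℝ) ^ 2 * ∑ c, a c ^ 2 := by
        refine (Finset.sum_le_sum fun k _ => vk_le hb hN hr (Dr_Yf hNm hrN a) k).trans ?_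
        rw [← Finset.mul_sum, sum_nk hN]
        exact mul_le_mul_of_nonneg_left (sq_Yf hNm hN hr a) (by positivity)
      have h2 := hG0 (Yf (ff (N := N) (2 ^ i)) a)
      have h3 : 64 * b * ((2 ^ i : ℕ) : ℝ) ^ 2 * ∑ c, a c ^ 2 ≤
          768 * max b 1 ^ 2 * ((2 ^ i : ℕ) : ℝ) ^ 2 * ∑ c, a c ^ 2 := by
        have h4 : 0 ≤ ∑ c, a c ^ 2 := Finset.sum_nonneg fun _ _ => sq_nonneg _
        have h5 : 64 * b ≤ 768 * max b 1 ^ 2 := by nlinarith
        gcongr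
      linarith
    · intro a
      have h1 := hlarge _ (Dr_Yf hNm hrN a)
      have h2 := hG0 (Yf (ff (N := N) (2 ^ i)) a)
      have h3 : (∑ x, Yf (ff (N := N) (2 ^ i)) a x ^ 2) / (2 * t) ≤ (∑ c, a c ^ 2) / (2 * t) :=
        div_le_div_of_nonneg_right (sq_Yf hNm hN hr a) (by positivity)
      unfold Rs
      linarith
    · intro a
      exact sq_Yf hNm hN hr a
  · have hr0' : (0 : ℝ) < ((2 ^ i : ℕ) : ℝ) := by exact_mod_cast hr0
    have h1 : (N : ℝ) / ((2 ^ i : ℕ) : ℝ) = m := by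
      rw [div_eq_iff hr0'.ne']
      exact_mod_cast hNm
    rw [h1, Fintype.card_prod, Fintype.card_fin]
    push_cast
    exact le_of_eq (by ring)
  · exact fun k => card_bc hNm hN hr k
  · have h1 := hT N i j nb hij hN t ht1 m0 M hm0 hMs hMl hMu
    have h2 : ∑ c : Fin m × Fin m, Aq Q (2 ^ i) c c =
        ∑ c ∈ range (N / 2 ^ i) ×ˢ range (N / 2 ^ i),
          (H340.vk b (2 ^ j) (H340.pk (2 ^ (j - i)) (2 ^ j) c) (H340.fc (N := N) (2 ^ i) c) -
            qf (Gm μ) (H340.fc (2 ^ i) c)) := by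
      rw [← hm, ← sum_nc (fun c => H340.vk b (2 ^ j) (H340.pk (2 ^ (j - i)) (2 ^ j) c)
        (H340.fc (N := N) (2 ^ i) c) - qf (Gm μ) (H340.fc (2 ^ i) c))]
      refine Finset.sum_congr rfl fun c _ => ?_
      rw [Aq_diag, hqQ, sum_vk_ff b hNm hN hr]
      have h3 : 2 ^ j / 2 ^ i = 2 ^ (j - i) := Nat.pow_div hij' (by norm_num)
      rw [h3]
      rfl
    rw [h2]
    refine h1.trans ?_
    have h3 : ((2 : ℝ) ^ i / 2 ^ j) ^ c ≤ ((2 : ℝ) ^ i / 2 ^ j) ^ (min c 1) := by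
      refine Real.rpow_le_rpow_of_exponent_ge (by positivity) ?_ (min_le_left _ _)
      rw [div_le_one (by positivity)]
      exact pow_le_pow_right₀ (by norm_num) hij'
    have h4 : ((2 : ℝ) ^ i / 2 ^ j) ^ c ≤ (((2 ^ i : ℕ) : ℝ) / ((2 ^ j : ℕ) : ℝ)) ^ (min c 1) +
        t * ((2 ^ j : ℕ) : ℝ) ^ 2 := by
      have h5 : 0 ≤ t * ((2 ^ j : ℕ) : ℝ) ^ 2 := by positivity
      push_cast
      push_cast at h5
      linarith
    exact mul_le_mul_of_nonneg_left h4 (by positivity)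
  · exact fun z => Yf_dot hNm hrN z

/-! ### large sources -/

/-- a function of the level `r` is neutral in the cells of side `l`, `2 r ∣ l` -/
lemma cellP_level {r l : ℕ} (hr : 2 * r ∣ l) (hl : l ∣ N) {y : V N → ℝ} (hy : Dr N r *ᵥ y = y) :
    cellP N l *ᵥ y = 0 := by
  have h1 : cellP N l * Dr N r = 0 := by
    have h2 := congrArg Matrix.transpose (Dr_mul_cellP hr hl)
    rwa [Matrix.transpose_mul, Dr_tr, cellP_tr, Matrix.transpose_zero] at h2
  rw [← hy, Matrix.mulVec_mulVec, h1, Matrix.zero_mulVec]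


/-- **domination of an eigenvector of the mass form** -/
theorem lg_eig {b t : ℝ} (hb : 0 ≤ b) (ht : 0 < t) {M : Matrix (V N) (V N) ℝ} (hMs : Mᵀ = M)
    {m0 : ℝ} (hm0 : 0 < m0) (hM : ∀ u : V N → ℝ, m0 * ∑ x, u x ^ 2 ≤ qf M u) {y : V N → ℝ}
    (hy : M *ᵥ y = t • y) :
    Lg (wM (wT b N) M) y - Lg (wM (wT b N) M) 0 ≤ (∑ x, y x ^ 2) / (2 * t) := by
  obtain ⟨Wb, hwb⟩ := (TM.H41.wt_wT (N := N) hb).bdd
  have hE := H789.em_wM_wT hb hm0 hM
  refine (Lg_dom (wT_nonneg hb) hwb hMs hm0 hM hE (H789.ev_wM_wT M)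
    (H789.pk_wM_wT' hb hm0 hM) y).trans (le_of_eq ?_)
  have h1 : M⁻¹ *ᵥ y = t⁻¹ • y := by
    have h2 : M⁻¹ *ᵥ (M *ᵥ y) = y := by
      rw [Matrix.mulVec_mulVec, Matrix.nonsing_inv_mul _ (coer_det hm0 hM), Matrix.one_mulVec]
    rw [hy, Matrix.mulVec_smul] at h2
    have h3 := congrArg (fun v => t⁻¹ • v) h2
    simp only [smul_smul] at h3
    rwa [inv_mul_cancel₀ ht.ne', one_smul] at h3
  rw [H37.qf_eq, h1, dotProduct_smul, smul_eq_mul]
  have h2 : y ⬝ᵥ y = ∑ x, y x ^ 2 := by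
    unfold dotProduct
    exact Finset.sum_congr rfl fun x _ => (pow_two _).symm
  rw [h2]
  field_simp

/-- **large sources of a level**: `M = t` on the functions which are neutral in the cells -/
theorem hlarge_gen {b t : ℝ} (hb : 0 ≤ b) (ht : 0 < t) {M : Matrix (V N) (V N) ℝ} (hMs : Mᵀ = M)
    {m0 : ℝ} (hm0 : 0 < m0) (hM : ∀ u : V N → ℝ, m0 * ∑ x, u x ^ 2 ≤ qf M u) {l r : ℕ}
    (hl : l ∣ N) (hfix : ∀ y : V N → ℝ, cellP N l *ᵥ y = 0 → M *ᵥ y = t • y)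
    (hr : 2 * r ∣ l) {y : V N → ℝ} (hy : Dr N r *ᵥ y = y) :
    Lg (wM (wT b N) M) y - Lg (wM (wT b N) M) 0 ≤ (∑ x, y x ^ 2) / (2 * t) :=
  lg_eig hb ht hMs hm0 hM (hfix y (cellP_level hr hl hy))

/-- **LEVOK, mass `t` on the functions which are neutral in the cells of side `2^n`** -/
theorem levok_gen {b : ℝ} (hb : 0 ≤ b) : ∃ C0 C1 κ c : ℝ, 0 ≤ C0 ∧ 0 ≤ C1 ∧ 0 < κ ∧ 0 < c ∧
    c ≤ 1 ∧ ∀ (N : ℕ) [NeZero N] (i j n : ℕ), i + 1 ≤ j → i + 1 ≤ n → 2 ^ j ∣ N → 2 ^ n ∣ N →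
    ∀ t : ℝ, 0 < t → t * ((2 : ℝ) ^ j) ^ 2 ≤ 1 →
    ∀ (m0 : ℝ) (M : Matrix (V N) (V N) ℝ), 0 < m0 → Mᵀ = M →
      (∀ u : V N → ℝ, m0 * ∑ x, u x ^ 2 ≤ qf M u) → (∀ u : V N → ℝ, qf M u ≤ t * ∑ x, u x ^ 2) →
      (∀ y : V N → ℝ, cellP N (2 ^ n) *ᵥ y = 0 → M *ᵥ y = t • y) →
    LevOK (wM (wT b N) M) (Dr N (2 ^ i)) N (2 ^ i) (2 ^ j) t C0 C1 κ c := by
  obtain ⟨C0, C1, κ, c, h1, h2, h3, h4, h5, h⟩ := levok hb
  refine ⟨C0, C1, κ, c, h1, h2, h3, h4, h5, ?_⟩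
  intro N _ i j n hij hin hj hn t ht ht1 m0 M hm0 hMs hMl hMu hfix
  refine h N i j (N / 2 ^ j) hij (Nat.div_mul_cancel hj).symm t ht ht1 m0 M hm0 hMs hMl hMu
    fun y hy => hlarge_gen hb ht hMs hm0 hMl hn hfix ?_ hy
  rw [← pow_succ']
  exact pow_dvd_pow 2 hin

/-- the cell masses -/
lemma MC_fix {l : ℕ} (t τ : ℝ) {y : V N → ℝ} (hy : cellP N l *ᵥ y = 0) :
    MC N l t τ *ᵥ y = t • y := by
  unfold MC
  rw [Matrix.add_mulVec, Matrix.smul_mulVec, Matrix.smul_mulVec, Matrix.sub_mulVec,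
    Matrix.one_mulVec, hy, sub_zero, smul_zero, add_zero]

/-- **large sources of a level**: the fine mass -/
theorem hlarge {b t τ : ℝ} (hb : 0 ≤ b) {l r : ℕ} (hl : l ∣ N) (hτ : 0 < τ) (h : τ ≤ t)
    (hr : 2 * r ∣ l) {y : V N → ℝ} (hy : Dr N r *ᵥ y = y) :
    Lg (wM (wT b N) (MC N l t τ)) y - Lg (wM (wT b N) (MC N l t τ)) 0 ≤
      (∑ x, y x ^ 2) / (2 * t) :=
  have := ne_div hl
  hlarge_gen hb (hτ.trans_le h) (MC_tr N l t τ) hτ (fun u => qf_MC_ge hl h u) hl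
    (fun _ hz => MC_fix t τ hz) hr hy

/-- **LEVOK for the masses of the massive scheme** -/
theorem levok_MC {b : ℝ} (hb : 0 ≤ b) : ∃ C0 C1 κ c : ℝ, 0 ≤ C0 ∧ 0 ≤ C1 ∧ 0 < κ ∧ 0 < c ∧
    c ≤ 1 ∧ ∀ (N : ℕ) [NeZero N] (i j n : ℕ), i + 1 ≤ j → i + 1 ≤ n → 2 ^ j ∣ N → 2 ^ n ∣ N →
    ∀ t τ : ℝ, 0 < τ → τ ≤ t → t * ((2 : ℝ) ^ j) ^ 2 ≤ 1 →
    LevOK (wM (wT b N) (MC N (2 ^ n) t τ)) (Dr N (2 ^ i)) N (2 ^ i) (2 ^ j) t C0 C1 κ c := by
  obtain ⟨C0, C1, κ, c, h1, h2, h3, h4, h5, h⟩ := levok_gen hb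
  refine ⟨C0, C1, κ, c, h1, h2, h3, h4, h5, ?_⟩
  intro N _ i j n hij hin hj hn t τ hτ htτ ht1
  have := ne_div hn
  exact h N i j n hij hin hj hn t (hτ.trans_le htτ) ht1 τ
    (MC N (2 ^ n) t τ) hτ (MC_tr N _ t τ) (fun u => qf_MC_ge hn htτ u) (fun u => qf_MC_le hn htτ u)
    fun _ hz => MC_fix t τ hz

end

end Vale.Agent.P159.H864
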