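import Vale.Agent.P159.H864.Cel0

/-!
P159, module FN (helper864), part 1: local flows.

`s ∣ N`, cells of side `s` of the torus. For `y : V N → ℝ` the edge field `flo s y` vanishes on the
edges between the cells, is linear in `y` and has divergence `y - cellP N s y`.
-/

set_option linter.unusedSectionVars false

namespace Vale.Agent.P159.H864

open Finset Matrix MeasureTheory
open Vale.Agent.P159.H37
open Vale.Agent.P159.TM.Spec (V)

noncomputable section

/-! ### one dimension -/

section one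

variable {N : ℕ} [NeZero N]

/-- the cell of `i` -/
def ic (s : ℕ) (i : ZMod N) : Finset (ZMod N) := univ.filter fun j => j.val / s = i.val / s

/-- the part of the cell of `i` up to `i` -/
def ip' (s : ℕ) (i : ZMod N) : Finset (ZMod N) :=
  univ.filter fun j => j.val / s = i.val / s ∧ j.val ≤ i.val

/-- mean over the cell of `i` -/
def av1 (s : ℕ) (f : ZMod N → ℝ) (i : ZMod N) : ℝ := (∑ j ∈ ic s i, f j) / s

/-- the flow -/
def fl1 (s : ℕ) (f : ZMod N → ℝ) (i : ZMod N) : ℝ := -∑ j ∈ ip' s i, (f j - av1 s f i)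

lemma mem_ic {s : ℕ} {i j : ZMod N} : j ∈ ic s i ↔ j.val / s = i.val / s := by
  unfold ic; simp

lemma mem_ip' {s : ℕ} {i j : ZMod N} : j ∈ ip' s i ↔ j.val / s = i.val / s ∧ j.val ≤ i.val := by
  unfold ip'; simp

lemma ic_congr {s : ℕ} {i j : ZMod N} (h : j.val / s = i.val / s) : (ic s j : Finset (ZMod N)) = ic s i := by
  ext k
  rw [mem_ic, mem_ic, h]

lemma av1_congr {s : ℕ} {f : ZMod N → ℝ} {i j : ZMod N} (h : j.val / s = i.val / s) :
    av1 s f j = av1 s f i := by
  unfold av1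
  rw [ic_congr h]

lemma card_ic {s : ℕ} (hs : s ∣ N) (i : ZMod N) : (ic s i).card = s := by
  have hs0 : 0 < s := Nat.pos_of_dvd_of_pos hs (NeZero.pos N)
  have hi := ZMod.val_lt i
  have h1 : (i.val / s + 1) * s ≤ N := by
    obtain ⟨q, hq⟩ := hs
    have : i.val / s < q := by
      rw [Nat.div_lt_iff_lt_mul hs0, mul_comm, ← hq]
      exact hi
    calc (i.val / s + 1) * s ≤ q * s := Nat.mul_le_mul_right _ this
      _ = N := by rw [hq]; ring
  have h2 : ic s i = (Finset.range s).image fun k => ((i.val / s * s + k : ℕ) : ZMod N) := by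
    ext j
    rw [mem_ic, Finset.mem_image]
    constructor
    · intro h
      refine ⟨j.val % s, Finset.mem_range.2 (Nat.mod_lt _ hs0), ?_⟩
      rw [← h, Nat.mul_comm, Nat.div_add_mod, ZMod.natCast_zmod_val]
    · rintro ⟨k, hk, rfl⟩
      have hk := Finset.mem_range.1 hk
      rw [ZMod.val_natCast, Nat.mod_eq_of_lt (by nlinarith), Nat.mul_comm, Nat.mul_add_div hs0,
        Nat.div_eq_of_lt hk, add_zero]
  rw [h2, Finset.card_image_of_injOn, Finset.card_range]
  intro a ha b hb hab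
  have ha := Finset.mem_range.1 (Finset.mem_coe.1 ha)
  have hb := Finset.mem_range.1 (Finset.mem_coe.1 hb)
  have h3 := congrArg ZMod.val hab
  simp only at h3
  rw [ZMod.val_natCast, ZMod.val_natCast, Nat.mod_eq_of_lt (by nlinarith),
    Nat.mod_eq_of_lt (by nlinarith)] at h3
  omega

lemma sum_sub_av1 {s : ℕ} (hs : s ∣ N) (f : ZMod N → ℝ) (i : ZMod N) :
    ∑ j ∈ ic s i, (f j - av1 s f i) = 0 := by
  have hs0 : (s : ℝ) ≠ 0 := by
    have : 0 < s := Nat.pos_of_dvd_of_pos hs (NeZero.pos N)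
    positivity
  rw [Finset.sum_sub_distrib, Finset.sum_const, card_ic hs, nsmul_eq_mul]
  unfold av1
  field_simp
  ring

/-- the flow vanishes on the last edge of a cell -/
lemma fl1_last {s : ℕ} (hs : s ∣ N) (f : ZMod N → ℝ) {i : ZMod N} (h : (i.val + 1) % s = 0) :
    fl1 s f i = 0 := by
  have hs0 : 0 < s := Nat.pos_of_dvd_of_pos hs (NeZero.pos N)
  have e : (ip' s i : Finset (ZMod N)) = ic s i := by
    ext j
    rw [mem_ip', mem_ic]
    refine ⟨fun h => h.1, fun h' => ⟨h', ?_⟩⟩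
    obtain ⟨q, hq⟩ := Nat.dvd_of_mod_eq_zero h
    have h1 : i.val = s * q - 1 := by omega
    have hq0 : 0 < q := by
      rcases Nat.eq_zero_or_pos q with rfl | h0
      · omega
      · exact h0
    have h2 : i.val / s = q - 1 := by
      have : i.val = s * (q - 1) + (s - 1) := by
        obtain ⟨q', rfl⟩ : ∃ q', q = q' + 1 := ⟨q - 1, by omega⟩
        rw [Nat.add_sub_cancel, h1]
        have : s * (q' + 1) = s * q' + s := by ring
        omega
      rw [this, Nat.mul_add_div hs0, Nat.div_eq_of_lt (by omega), add_zero]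
    have h3 : j.val < s * (j.val / s + 1) := Nat.lt_mul_div_succ _ hs0
    rw [h', h2, Nat.sub_add_cancel hq0] at h3
    omega
  unfold fl1
  rw [e, sum_sub_av1 hs, neg_zero]

/-- divergence of the flow -/
lemma fl1_div {s : ℕ} (hs : s ∣ N) (f : ZMod N → ℝ) (i : ZMod N) :
    fl1 s f (i - 1) - fl1 s f i = f i - av1 s f i := by
  have hs0 : 0 < s := Nat.pos_of_dvd_of_pos hs (NeZero.pos N)
  have hN0 : 0 < N := NeZero.pos N
  by_cases h0 : i.val % s = 0
  · -- first site of a cell
    have h1 : fl1 s f (i - 1) = 0 := by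
      refine fl1_last hs f ?_
      by_cases hi : i = 0
      · subst hi
        rw [zero_sub]
        have : (-1 : ZMod N).val + 1 = N := by
          obtain ⟨m, rfl⟩ : ∃ m, N = m + 1 := ⟨N - 1, by omega⟩
          rw [ZMod.val_neg_one]
        rw [this]
        exact Nat.mod_eq_zero_of_dvd hs
      · have h2 : i.val ≠ 0 := fun h => hi ((ZMod.val_eq_zero i).1 h)
        rcases Nat.lt_or_ge 1 N with h1 | h1
        · have : Fact (1 < N) := ⟨h1⟩
          have h3 : (i - 1).val = i.val - 1 := by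
            rw [ZMod.val_sub (by rw [ZMod.val_one]; omega), ZMod.val_one]
          rw [h3]
          have : i.val - 1 + 1 = i.val := by omega
          rw [this]
          exact h0
        · have h3 : N = 1 := by omega
          subst h3
          exact absurd (Subsingleton.elim i 0) hi
    have e : (ip' s i : Finset (ZMod N)) = {i} := by
      ext j
      rw [mem_ip', Finset.mem_singleton]
      constructor
      · rintro ⟨h2, h3⟩
        have h4 := Nat.div_add_mod i.val s
        have h5 := Nat.div_add_mod j.val s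
        rw [h2] at h5
        exact ZMod.val_injective N (by omega)
      · rintro rfl
        exact ⟨rfl, le_rfl⟩
    rw [h1]
    unfold fl1
    rw [e, Finset.sum_singleton]
    ring
  · have h2 : i.val ≠ 0 := fun h => h0 (by rw [h, Nat.zero_mod])
    have h1 : 1 < N := by
      have := ZMod.val_lt i
      omega
    have : Fact (1 < N) := ⟨h1⟩
    have h3 : (i - 1).val = i.val - 1 := by
      rw [ZMod.val_sub (by rw [ZMod.val_one]; omega), ZMod.val_one]
    have h4 : (i - 1).val / s = i.val / s := by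
      rw [h3]
      have h5 := Nat.div_add_mod i.val s
      have h6 := Nat.mod_lt i.val hs0
      have h7 : i.val - 1 = s * (i.val / s) + (i.val % s - 1) := by omega
      rw [h7, Nat.mul_add_div hs0, Nat.div_eq_of_lt (show i.val % s - 1 < s by omega), add_zero]
    have e : (ip' s i : Finset (ZMod N)) = insert i (ip' s (i - 1)) := by
      ext j
      rw [Finset.mem_insert, mem_ip', mem_ip', h4, h3]
      constructor
      · rintro ⟨h5, h6⟩
        rcases Nat.lt_or_ge j.val i.val with h7 | h7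
        · exact Or.inr ⟨h5, by omega⟩
        · exact Or.inl (ZMod.val_injective N (by omega))
      · rintro (rfl | ⟨h5, h6⟩)
        · exact ⟨rfl, le_rfl⟩
        · exact ⟨h5, by omega⟩
    have hni : i ∉ (ip' s (i - 1) : Finset (ZMod N)) := by
      rw [mem_ip', h3]
      rintro ⟨-, h5⟩
      omega
    unfold fl1
    rw [e, Finset.sum_insert hni, av1_congr h4]
    ring

lemma ip'_sub (s : ℕ) (i : ZMod N) : (ip' s i : Finset (ZMod N)) ⊆ ic s i := fun j h => by
  rw [mem_ip'] at h
  rw [mem_ic]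
  exact h.1

lemma sum_sub_sq_le {s : ℕ} (hs : s ∣ N) (f : ZMod N → ℝ) (i : ZMod N) :
    ∑ j ∈ ic s i, (f j - av1 s f i) ^ 2 ≤ ∑ j ∈ ic s i, f j ^ 2 := by
  have h1 := sum_sub_av1 hs f i
  have h2 : ∑ j ∈ ic s i, (f j - av1 s f i) ^ 2 =
      ∑ j ∈ ic s i, f j ^ 2 - av1 s f i * (2 * ∑ j ∈ ic s i, (f j - av1 s f i)) -
        (ic s i).card * av1 s f i ^ 2 := by
    rw [Finset.mul_sum, Finset.mul_sum, ← Finset.sum_sub_distrib, ← nsmul_eq_mul, ← Finset.sum_const,
      ← Finset.sum_sub_distrib]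
    exact Finset.sum_congr rfl fun j _ => by ring
  rw [h2, h1]
  have : 0 ≤ ((ic s i).card : ℝ) * av1 s f i ^ 2 := by positivity
  linarith

/-- size of the flow -/
lemma fl1_sq_le {s : ℕ} (hs : s ∣ N) (f : ZMod N → ℝ) (i : ZMod N) :
    fl1 s f i ^ 2 ≤ s * ∑ j ∈ ic s i, f j ^ 2 := by
  unfold fl1
  rw [neg_sq]
  have h1 := sq_sum_le_card_mul_sum_sq (s := ip' s i) (f := fun j => f j - av1 s f i)
  have h2 : ∑ j ∈ ip' s i, (f j - av1 s f i) ^ 2 ≤ ∑ j ∈ ic s i, (f j - av1 s f i) ^ 2 :=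
    Finset.sum_le_sum_of_subset_of_nonneg (ip'_sub s i) fun _ _ _ => sq_nonneg _
  have h3 : ((ip' s i).card : ℝ) ≤ s := by
    have := Finset.card_le_card (ip'_sub s i)
    rw [card_ic hs] at this
    exact_mod_cast this
  have h4 := sum_sub_sq_le hs f i
  have h5 : 0 ≤ ∑ j ∈ ip' s i, (f j - av1 s f i) ^ 2 := Finset.sum_nonneg fun _ _ => sq_nonneg _
  calc (∑ j ∈ ip' s i, (f j - av1 s f i)) ^ 2 ≤ (ip' s i).card * ∑ j ∈ ip' s i, (f j - av1 s f i) ^ 2 := h1
    _ ≤ s * ∑ j ∈ ip' s i, (f j - av1 s f i) ^ 2 := mul_le_mul_of_nonneg_right h3 h5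
    _ ≤ s * ∑ j ∈ ic s i, f j ^ 2 := mul_le_mul_of_nonneg_left (h2.trans h4) (Nat.cast_nonneg _)

/-- the square of a mean -/
lemma av1_sq_le {s : ℕ} (hs : s ∣ N) (f : ZMod N → ℝ) (i : ZMod N) :
    s * av1 s f i ^ 2 ≤ ∑ j ∈ ic s i, f j ^ 2 := by
  have hs0 : (0 : ℝ) < s := by
    have : 0 < s := Nat.pos_of_dvd_of_pos hs (NeZero.pos N)
    positivity
  have h1 := sq_sum_le_card_mul_sum_sq (s := ic s i) (f := f)
  rw [card_ic hs] at h1
  unfold av1
  rw [div_pow, mul_div_assoc', div_le_iff₀ (by positivity)]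
  nlinarith

lemma av1_add (s : ℕ) (f g : ZMod N → ℝ) (i : ZMod N) :
    av1 s (fun j => f j + g j) i = av1 s f i + av1 s g i := by
  unfold av1
  rw [Finset.sum_add_distrib, add_div]

lemma av1_smul (s : ℕ) (a : ℝ) (f : ZMod N → ℝ) (i : ZMod N) :
    av1 s (fun j => a * f j) i = a * av1 s f i := by
  unfold av1
  rw [← Finset.mul_sum, mul_div_assoc]

lemma fl1_add (s : ℕ) (f g : ZMod N → ℝ) (i : ZMod N) :
    fl1 s (fun j => f j + g j) i = fl1 s f i + fl1 s g i := by
  unfold fl1
  rw [av1_add, ← neg_add, ← Finset.sum_add_distrib]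
  congr 1
  refine Finset.sum_congr rfl fun j _ => ?_
  ring

lemma fl1_smul (s : ℕ) (a : ℝ) (f : ZMod N → ℝ) (i : ZMod N) :
    fl1 s (fun j => a * f j) i = a * fl1 s f i := by
  unfold fl1
  rw [av1_smul, mul_neg, Finset.mul_sum]
  congr 1
  refine Finset.sum_congr rfl fun j _ => ?_
  ring

end one

/-! ### two dimensions -/

section two

variable {N : ℕ} [NeZero N]

/-- the local flow -/
def flo (s : ℕ) (y : V N → ℝ) (x : V N) : Bool → ℝ
  | true => fl1 s (fun i => y (i, x.2)) x.1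
  | false => fl1 s (fun j => av1 s (fun i => y (i, j)) x.1) x.2

/-- the cell of `x` -/
def cc (s : ℕ) (x : V N) : Finset (V N) := ic s x.1 ×ˢ ic s x.2

lemma mem_cc {s : ℕ} {x z : V N} : z ∈ cc s x ↔
    z.1.val / s = x.1.val / s ∧ z.2.val / s = x.2.val / s := by
  unfold cc
  rw [Finset.mem_product, mem_ic, mem_ic]

lemma cc_eq {s : ℕ} [NeZero (N / s)] (hs : s ∣ N) (x : V N) :
    cc s x = univ.filter fun z : V N => (cl z : V (N / s)) = cl x := by
  ext z
  rw [mem_cc, Finset.mem_filter]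
  have h1 : ∀ a b : ZMod N, (cl1 a : ZMod (N / s)) = cl1 b ↔ a.val / s = b.val / s := fun a b => by
    constructor
    · intro h
      have := congrArg ZMod.val h
      rwa [cl1_val hs, cl1_val hs] at this
    · intro h
      unfold cl1
      rw [h]
  unfold cl
  rw [Prod.mk.injEq, h1, h1]
  simp

/-- the mean over the cell of `x` -/
lemma cellP_cc {s : ℕ} [NeZero (N / s)] (hs : s ∣ N) (y : V N → ℝ) (x : V N) :
    (cellP N s *ᵥ y) x = ((s : ℝ) ^ 2)⁻¹ * ∑ z ∈ cc s x, y z := by
  rw [cellP_mulVec hs, cc_eq hs]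

lemma sub_e1 (a b : ZMod N) : ((a, b) : V N) - (1, 0) = (a - 1, b) := by
  rw [Prod.mk_sub_mk, sub_zero]

lemma sub_e2 (a b : ZMod N) : ((a, b) : V N) - (0, 1) = (a, b - 1) := by
  rw [Prod.mk_sub_mk, sub_zero]

/-- divergence of the local flow -/
theorem flo_div {s : ℕ} [NeZero (N / s)] (hs : s ∣ N) (y : V N → ℝ) (x : V N) :
    (flo s y (x - (1, 0)) true - flo s y x true) + (flo s y (x - (0, 1)) false - flo s y x false) =
      y x - (cellP N s *ᵥ y) x := by
  obtain ⟨a, b⟩ := x
  have hs0 : (s : ℝ) ≠ 0 := by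
    have : 0 < s := Nat.pos_of_dvd_of_pos hs (NeZero.pos N)
    positivity
  have h1 := fl1_div hs (fun i => y (i, b)) a
  have h2 := fl1_div hs (fun j => av1 s (fun i => y (i, j)) a) b
  have h3 : av1 s (fun j => av1 s (fun i => y (i, j)) a) b = (cellP N s *ᵥ y) (a, b) := by
    rw [cellP_cc hs]
    unfold av1 cc
    rw [Finset.sum_product_right, ← Finset.sum_div]
    field_simp
  rw [sub_e1, sub_e2]
  unfold flo
  simp only
  rw [h3] at h2
  linarith

lemma flo_add (s : ℕ) (y z : V N → ℝ) (x : V N) (t : Bool) :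
    flo s (y + z) x t = flo s y x t + flo s z x t := by
  cases t
  · show fl1 s (fun j => av1 s (fun i => y (i, j) + z (i, j)) x.1) x.2 = _
    simp only [av1_add]
    rw [fl1_add]
    rfl
  · show fl1 s (fun i => y (i, x.2) + z (i, x.2)) x.1 = _
    rw [fl1_add]
    rfl

lemma flo_smul (s : ℕ) (a : ℝ) (y : V N → ℝ) (x : V N) (t : Bool) :
    flo s (a • y) x t = a * flo s y x t := by
  cases t
  · show fl1 s (fun j => av1 s (fun i => a * y (i, j)) x.1) x.2 = _
    simp only [av1_smul]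
    rw [fl1_smul]
    rfl
  · show fl1 s (fun i => a * y (i, x.2)) x.1 = _
    rw [fl1_smul]
    rfl

/-- the flow of the vertical edges -/
lemma flo_false_sq {s : ℕ} (hs : s ∣ N) (y : V N → ℝ) (x : V N) :
    flo s y x false ^ 2 ≤ ∑ z ∈ cc s x, y z ^ 2 := by
  refine (fl1_sq_le hs _ x.2).trans ?_
  unfold cc
  rw [Finset.sum_product_right, Finset.mul_sum]
  refine Finset.sum_le_sum fun j _ => ?_
  exact av1_sq_le hs (fun i => y (i, j)) x.1

/-- the flow of the horizontal edges -/
lemma flo_true_sq {s : ℕ} (hs : s ∣ N) (y : V N → ℝ) (x : V N) :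
    flo s y x true ^ 2 ≤ s * ∑ i ∈ ic s x.1, y (i, x.2) ^ 2 :=
  fl1_sq_le hs _ x.1

/-- the flow of a function vanishing on the cell vanishes -/
lemma flo_zero_of {s : ℕ} (hs : s ∣ N) {y : V N → ℝ} {x : V N} (h : ∀ z ∈ cc s x, y z = 0)
    (t : Bool) : flo s y x t = 0 := by
  cases t
  · have h1 := flo_false_sq hs y x
    rw [Finset.sum_eq_zero fun z hz => by rw [h z hz]; ring] at h1
    exact pow_eq_zero_iff two_ne_zero |>.1 (le_antisymm h1 (sq_nonneg _))
  · have h1 := flo_true_sq hs y x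
    rw [Finset.sum_eq_zero fun i hi => by
      rw [h (i, x.2) (by
        rw [mem_cc]
        exact ⟨mem_ic.1 hi, rfl⟩)]
      ring, mul_zero] at h1
    exact pow_eq_zero_iff two_ne_zero |>.1 (le_antisymm h1 (sq_nonneg _))

end two

end

end Vale.Agent.P159.H864
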