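import Vale.Agent.P159.H864.Fn1
import Vale.Agent.P159.H513.Cor
import Vale.Agent.P159.TM.H574.Geo

/-!
P159, module FN (helper864), part 3: the currents of a square.

`Gs p L` : the integer gradients on the edges of the square `bx p L`. They are in bijection with the
heights pinned outside of the square and at its corner; `n + n ∈ Gs → n ∈ Gs`; the variance `vG` of a
tilt is the variance of the corresponding functional in the free square.
-/

set_option linter.unusedSectionVars false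

namespace Vale.Agent.P159.H864

open Finset Matrix MeasureTheory
open Vale.Agent.P159.H353 (wI wI_neg wI_nonneg)
open Vale.Agent.P159.H37 (qf bf re wM Zs Gm)
open Vale.Agent.P159.TM.Spec (V)
open Vale.Agent.P159.TM.SpecI (tgt inn ex pr)
open Vale.Agent.P159.TM.H574 (bx eb cnr pt eq_pt mem_bx pt_mem_bx pt_val1 pt_val2 tgt_false tgt_true
  mem_eb_false mem_eb_true)
open Vale.Agent.P159.H513 (rat vG gw' tsum_gw' SG_eq)
open Vale.Agent.P159.TM.H129 (ip)

noncomputable section

section sq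

variable {N : ℕ} [NeZero N]

/-- a function without gradient on the square is constant -/
lemma const_of_grad {α : Type*} {p : ℕ × ℕ} {L : ℕ} (h1 : p.1 + L ≤ N) (h2 : p.2 + L ≤ N)
    {f : V N → α} (hf : ∀ e ∈ (eb p L : Finset (V N × Bool)), f (tgt e) = f e.1) {x : V N}
    (hx : x ∈ (bx p L : Finset (V N))) : f x = f (cnr p) := by
  rw [mem_bx] at hx
  obtain ⟨a1, a2, a3, a4⟩ := hx
  obtain ⟨a, ha⟩ := Nat.exists_eq_add_of_le a1
  obtain ⟨c, hc⟩ := Nat.exists_eq_add_of_le a3
  have e1 : ∀ m : ℕ, p.1 + m < p.1 + L → ∀ j : ℕ, p.2 ≤ j → j < p.2 + L →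
      f (pt (p.1 + m) j) = f (pt p.1 j) := by
    intro m
    induction m with
    | zero => intro _ j _ _; rfl
    | succ m ih =>
      intro hm j hj hj'
      rw [← ih (by omega) j hj hj']
      have h3 := hf _ (mem_eb_false (n := N) (i := p.1 + m) h1 h2 (by omega) (by omega) hj hj')
      rw [tgt_false] at h3
      exact h3
  have e2 : ∀ m : ℕ, p.2 + m < p.2 + L → f (pt p.1 (p.2 + m)) = f (pt p.1 p.2) := by
    intro m
    induction m with
    | zero => intro _; rfl
    | succ m ih =>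
      intro hm
      rw [← ih (by omega)]
      have h3 := hf _ (mem_eb_true (n := N) (i := p.1) (j := p.2 + m) h1 h2 le_rfl (by omega)
        (by omega) (by omega))
      rw [tgt_true] at h3
      exact h3
  have h5 : x = pt (p.1 + a) (p.2 + c) := by
    rw [← ha, ← hc]; exact eq_pt x
  rw [h5, e1 a (by omega) _ (by omega) (by omega), e2 c (by omega)]
  rfl

/-- the difference operator of an edge -/
def Dg (S : Finset (V N × Bool)) (e : ↥S) (x : V N) : ℤ :=
  (if x = tgt (e : V N × Bool) then 1 else 0) - (if x = (e : V N × Bool).1 then 1 else 0)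

lemma nn_Dg (S : Finset (V N × Bool)) (h : V N → ℤ) (e : ↥S) :
    TM.H129.nn (Dg S) h e = h (tgt (e : V N × Bool)) - h (e : V N × Bool).1 := by
  unfold Vale.Agent.P159.TM.H129.nn Dg
  simp [sub_mul, Finset.sum_sub_distrib]

/-- the gradient -/
def gh (S : Finset (V N × Bool)) : (V N → ℤ) →+ (↥S → ℤ) where
  toFun h := TM.H129.nn (Dg S) h
  map_zero' := by
    funext e
    rw [nn_Dg]
    simp
  map_add' g h := by
    funext e
    rw [Pi.add_apply, nn_Dg, nn_Dg, nn_Dg, Pi.add_apply, Pi.add_apply]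
    ring

/-- the gradients of integer heights -/
def Gs (S : Finset (V N × Bool)) : AddSubgroup (↥S → ℤ) := (gh S).range

lemma nn_mem (S : Finset (V N × Bool)) (h : V N → ℤ) : TM.H129.nn (Dg S) h ∈ Gs S := ⟨h, rfl⟩

lemma eb_mem {p : ℕ × ℕ} {L : ℕ} {e : V N × Bool} (he : e ∈ (eb p L : Finset (V N × Bool))) :
    e.1 ∈ (bx p L : Finset (V N)) ∧ tgt e ∈ (bx p L : Finset (V N)) := by
  unfold Vale.Agent.P159.TM.H574.eb at he
  rw [Finset.mem_filter] at he
  exact he.2

/-- **halving** -/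
lemma Gs_half {p : ℕ × ℕ} {L : ℕ} (h1 : p.1 + L ≤ N) (h2 : p.2 + L ≤ N)
    (m : ↥(eb p L : Finset (V N × Bool)) → ℤ) (hm : m + m ∈ Gs (eb p L)) : m ∈ Gs (eb p L) := by
  classical
  obtain ⟨h, hh⟩ := hm
  have h3 : ∀ e : ↥(eb p L : Finset (V N × Bool)),
      h (tgt (e : V N × Bool)) - h (e : V N × Bool).1 = m e + m e := by
    intro e
    rw [← nn_Dg]
    exact congrFun hh e
  have h4 : ∀ x ∈ (bx p L : Finset (V N)), ((h x : ℤ) : ZMod 2) = ((h (cnr p) : ℤ) : ZMod 2) := by
    intro x hx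
    refine const_of_grad (f := fun x => ((h x : ℤ) : ZMod 2)) h1 h2 (fun e he => ?_) hx
    have h5 := h3 ⟨e, he⟩
    simp only at h5
    have h6 : h (tgt e) = h e.1 + 2 * m ⟨e, he⟩ := by linarith
    rw [h6]
    push_cast
    have : (2 : ZMod 2) = 0 := rfl
    rw [this, zero_mul, add_zero]
  have h5 : ∀ x ∈ (bx p L : Finset (V N)), ∃ k : ℤ, h x - h (cnr p) = 2 * k := by
    intro x hx
    have h6 := h4 x hx
    rw [← sub_eq_zero, ← Int.cast_sub, ZMod.intCast_zmod_eq_zero_iff_dvd] at h6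
    exact h6
  choose! k hk using h5
  refine ⟨fun x => if x ∈ (bx p L : Finset (V N)) then k x else 0, ?_⟩
  funext e
  show TM.H129.nn (Dg (eb p L)) _ e = m e
  rw [nn_Dg]
  obtain ⟨e1, e2⟩ := eb_mem e.2
  simp only [e1, e2, if_true]
  have h6 := hk _ e1
  have h7 := hk _ e2
  have h8 := h3 e
  omega

/-- the pinned set of the free square -/
def Xs (N : ℕ) [NeZero N] (p : ℕ × ℕ) (L : ℕ) : Finset (V N) := (bx p L)ᶜ ∪ {cnr p}

/-- pinned heights and currents -/
def eqv {p : ℕ × ℕ} {L : ℕ} (h1 : p.1 + L ≤ N) (h2 : p.2 + L ≤ N) :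
    {h : V N → ℤ // ∀ x ∈ Xs N p L, h x = 0} ≃ Gs (N := N) (eb p L) :=
  Equiv.ofBijective (fun h => ⟨TM.H129.nn (Dg (eb p L)) h.1, nn_mem _ _⟩) (by
    classical
    constructor
    · rintro ⟨g, hg⟩ ⟨h, hh⟩ hgh
      have h3 : TM.H129.nn (Dg (eb p L : Finset (V N × Bool))) g = TM.H129.nn (Dg (eb p L)) h :=
        congrArg Subtype.val hgh
      refine Subtype.ext (funext fun x => ?_)
      show g x = h x
      by_cases hx : x ∈ (bx p L : Finset (V N))
      · have h4 := const_of_grad (f := fun x => g x - h x) h1 h2 (fun e he => by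
          have h5 := congrFun h3 ⟨e, he⟩
          rw [nn_Dg, nn_Dg] at h5
          simp only at h5 ⊢
          linarith) hx
        have h6 : g (cnr p) = 0 := hg _ (Finset.mem_union_right _ (Finset.mem_singleton_self _))
        have h7 : h (cnr p) = 0 := hh _ (Finset.mem_union_right _ (Finset.mem_singleton_self _))
        simp only [h6, h7] at h4
        linarith
      · rw [hg x (Finset.mem_union_left _ (Finset.mem_compl.2 hx)),
          hh x (Finset.mem_union_left _ (Finset.mem_compl.2 hx))]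
    · rintro ⟨m, g, hg⟩
      refine ⟨⟨fun x => if x ∈ (bx p L : Finset (V N)) then g x - g (cnr p) else 0, fun x hx => ?_⟩,
        Subtype.ext ?_⟩
      · rcases Finset.mem_union.1 hx with h | h
        · exact if_neg (Finset.mem_compl.1 h)
        · rw [Finset.mem_singleton.1 h]
          simp
      · funext e
        show TM.H129.nn (Dg (eb p L)) _ e = m e
        obtain ⟨e1, e2⟩ := eb_mem e.2
        rw [nn_Dg]
        simp only [e1, e2, if_true]
        have h8 := congrFun hg e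
        have h9 : (gh (eb p L)) g e = TM.H129.nn (Dg (eb p L)) g e := rfl
        rw [h9, nn_Dg] at h8
        linarith)

lemma tsum_pin (b : ℝ) (es : Finset (V N × Bool)) (X : Finset (V N)) (F : (V N → ℤ) → ℝ) :
    ∑' h, TM.SpecI.wt b es X (fun _ => 0) h * F h =
      ∑' h : {h : V N → ℤ // ∀ x ∈ X, h x = 0},
        (∏ e ∈ es, wI b ((h : V N → ℤ) (tgt e) - (h : V N → ℤ) e.1)) * F h := by
  classical
  have h1 := tsum_subtype {h : V N → ℤ | ∀ x ∈ X, h x = 0} (fun h : V N → ℤ =>
    (∏ e ∈ es, wI b (h (tgt e) - h e.1)) * F h)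
  refine Eq.trans (tsum_congr fun h => ?_) h1.symm
  unfold TM.SpecI.wt Set.indicator
  simp only [Set.mem_ofPred_eq]
  split_ifs
  · simp
  · simp

/-- **the bridge**: a sum over the currents of the square is a sum over the pinned heights -/
lemma tsum_cur (b : ℝ) {p : ℕ × ℕ} {L : ℕ} (h1 : p.1 + L ≤ N) (h2 : p.2 + L ≤ N)
    (F : (↥(eb p L : Finset (V N × Bool)) → ℤ) → ℝ) :
    ∑' m, gw' (fun _ => b) (Gs (eb p L)) 0 m * F m =
      ∑' h, TM.SpecI.wt b (eb p L) (Xs N p L) (fun _ => 0) h * F (TM.H129.nn (Dg (eb p L)) h) := by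
  rw [tsum_gw', tsum_pin, ← (eqv h1 h2).tsum_eq]
  refine tsum_congr fun h => ?_
  congr 1
  unfold T1.H731.wt
  have e : ((eqv h1 h2 h : ↥(Gs (N := N) (eb p L))) : ↥(eb p L : Finset (V N × Bool)) → ℤ) =
      TM.H129.nn (Dg (eb p L)) h.1 := rfl
  rw [e]
  simp only [nn_Dg, Pi.zero_apply, zero_mul, Finset.sum_const_zero, Real.exp_zero, mul_one]
  exact Finset.prod_coe_sort (eb p L : Finset (V N × Bool))
    (fun e => wI b ((h : V N → ℤ) (tgt e) - (h : V N → ℤ) e.1))

/-- tilt and functional -/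
lemma ip_nn {S : Finset (V N × Bool)} (c : ↥S → ℝ) {u : V N → ℝ}
    (hu : ∀ x, u x = ∑ e, c e * (Dg S e x : ℝ)) (h : V N → ℤ) :
    ip c (TM.H129.nn (Dg S) h) = pr u h := by
  unfold Vale.Agent.P159.TM.H129.ip TM.SpecI.pr Vale.Agent.P159.TM.H129.nn
  simp only [hu]
  push_cast
  simp only [Finset.mul_sum, Finset.sum_mul]
  rw [Finset.sum_comm]
  refine Finset.sum_congr rfl fun x _ => Finset.sum_congr rfl fun e _ => ?_
  ring

/-- **the variance of the tilt is the variance in the free square** -/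
theorem vG_eq (b : ℝ) {p : ℕ × ℕ} {L : ℕ} (h1 : p.1 + L ≤ N) (h2 : p.2 + L ≤ N)
    (c : ↥(eb p L : Finset (V N × Bool)) → ℝ) {u : V N → ℝ}
    (hu : ∀ x, u x = ∑ e, c e * (Dg (eb p L) e x : ℝ)) :
    vG (fun _ => b) (Gs (eb p L)) c =
      ex b (eb p L) (Xs N p L) (fun _ => 0) (fun h => pr u h ^ 2) := by
  have e1 := tsum_cur b h1 h2 (fun m => ip c m ^ 2)
  have e2 := tsum_cur (N := N) b (p := p) (L := L) h1 h2 (fun _ => 1)
  simp only [mul_one] at e2
  unfold vG TM.SpecI.ex
  rw [e1, SG_eq, e2]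
  simp only [ip_nn c hu]

end sq

end

end Vale.Agent.P159.H864
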