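import Vale.Agent.P159.H864.Fn2

/-!
P159, module FN (helper864), part 4: free blocks. `N = n L`, the blocks are the squares
`bx (pk L k) L`; the edges between the blocks are cut. For a source `y` which is neutral in every
cell of side `s ∣ L`: `Z(y) / Z(0) ≤ ∏ rat` over the blocks, tilts = local flow of `y`.
-/

set_option linter.unusedSectionVars false

namespace Vale.Agent.P159.H864

open Finset Matrix MeasureTheory
open Vale.Agent.P159.H353 (wI wI_neg wI_nonneg)
open Vale.Agent.P159.H37 (qf bf re wM Zs Gm cellP)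
open Vale.Agent.P159.TM.Spec (V)
open Vale.Agent.P159.TM.SpecC (wT)
open Vale.Agent.P159.TM.SpecI (tgt inn ex pr)
open Vale.Agent.P159.TM.H574 (bx eb cnr pt eq_pt mem_bx pt_mem_bx pt_val1 pt_val2 tgt_false tgt_true
  mem_eb_false mem_eb_true mem_inn_false mem_inn_true)
open Vale.Agent.P159.H513 (rat vG gw' tsum_gw' SG_eq wB src_dom SG_pos rat_pos)
open Vale.Agent.P159.TM.H129 (ip)

noncomputable section

variable {N L n s : ℕ} [NeZero N]

/-- the corner of the block `k` -/
def pk (L : ℕ) {n : ℕ} (k : Fin n × Fin n) : ℕ × ℕ := ((k.1 : ℕ) * L, (k.2 : ℕ) * L)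

lemma L_pos (hN : N = n * L) : 0 < L := by
  rcases Nat.eq_zero_or_pos L with rfl | h
  · exact absurd hN (by rw [mul_zero]; exact NeZero.ne N)
  · exact h

lemma pk_le1 (hN : N = n * L) (k : Fin n × Fin n) : (pk L k).1 + L ≤ N := by
  have h : (k.1 : ℕ) + 1 ≤ n := k.1.2
  calc (k.1 : ℕ) * L + L = ((k.1 : ℕ) + 1) * L := by ring
    _ ≤ n * L := Nat.mul_le_mul_right _ h
    _ = N := hN.symm

lemma pk_le2 (hN : N = n * L) (k : Fin n × Fin n) : (pk L k).2 + L ≤ N := by
  have h : (k.2 : ℕ) + 1 ≤ n := k.2.2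
  calc (k.2 : ℕ) * L + L = ((k.2 : ℕ) + 1) * L := by ring
    _ ≤ n * L := Nat.mul_le_mul_right _ h
    _ = N := hN.symm

lemma div_iff (hL : 0 < L) (v k : ℕ) : (k * L ≤ v ∧ v < k * L + L) ↔ v / L = k := by
  constructor
  · rintro ⟨h1, h2⟩
    refine Nat.div_eq_of_lt_le h1 ?_
    calc v < k * L + L := h2
      _ = (k + 1) * L := by ring
  · rintro rfl
    have h1 := Nat.div_add_mod v L
    have h2 := Nat.mod_lt v hL
    have h3 : v / L * L = L * (v / L) := Nat.mul_comm _ _
    omega

lemma mem_bk (hN : N = n * L) {k : Fin n × Fin n} {x : V N} :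
    x ∈ (bx (pk L k) L : Finset (V N)) ↔ x.1.val / L = (k.1 : ℕ) ∧ x.2.val / L = (k.2 : ℕ) := by
  have hL := L_pos hN
  rw [mem_bx, ← div_iff hL, ← div_iff hL]
  unfold pk
  tauto

/-- the block of a site -/
def bk (hN : N = n * L) (x : V N) : Fin n × Fin n :=
  (⟨x.1.val / L, by
    rw [Nat.div_lt_iff_lt_mul (L_pos hN), ← hN]; exact ZMod.val_lt _⟩,
   ⟨x.2.val / L, by
    rw [Nat.div_lt_iff_lt_mul (L_pos hN), ← hN]; exact ZMod.val_lt _⟩)

lemma mem_bk_iff (hN : N = n * L) {k : Fin n × Fin n} {x : V N} :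
    x ∈ (bx (pk L k) L : Finset (V N)) ↔ bk hN x = k := by
  rw [mem_bk hN]
  unfold bk
  constructor
  · rintro ⟨h1, h2⟩
    exact Prod.ext (Fin.ext h1) (Fin.ext h2)
  · rintro rfl
    exact ⟨rfl, rfl⟩

/-- a sum over the blocks -/
lemma sum_blocks (hN : N = n * L) (f : V N → ℝ) :
    ∑ k : Fin n × Fin n, ∑ x ∈ (bx (pk L k) L : Finset (V N)), f x = ∑ x, f x := by
  have h : ∀ k : Fin n × Fin n, (bx (pk L k) L : Finset (V N)) = univ.filter fun x => bk hN x = k := by
    intro k
    ext x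
    rw [mem_bk_iff hN, Finset.mem_filter]
    simp
  simp only [h]
  exact Finset.sum_fiberwise univ (bk hN) f

/-- the edges of the blocks and the rest -/
def Sb (N L n : ℕ) [NeZero N] : Option (Fin n × Fin n) → Finset (V N × Bool)
  | some k => eb (pk L k) L
  | none => univ.filter fun e => ∀ k : Fin n × Fin n, e ∉ (eb (pk L k) L : Finset (V N × Bool))

lemma prod_Sb (hN : N = n * L) (f : V N × Bool → ℝ) :
    ∏ i : Option (Fin n × Fin n), ∏ e : ↥(Sb N L n i), f e = ∏ e, f e := by
  classical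
  have h1 : ∀ i, ∏ e : ↥(Sb N L n i), f e = ∏ e ∈ Sb N L n i, f e := fun i =>
    Finset.prod_coe_sort (Sb N L n i) f
  simp only [h1]
  rw [Fintype.prod_option]
  have h2 : ∏ k : Fin n × Fin n, ∏ e ∈ Sb N L n (some k), f e =
      ∏ e ∈ (univ : Finset (Fin n × Fin n)).biUnion fun k => Sb N L n (some k), f e := by
    rw [Finset.prod_biUnion]
    intro k _ k' _ hkk
    rw [Function.onFun, Finset.disjoint_left]
    intro e he he'
    apply hkk
    rw [← (mem_bk_iff hN).1 (eb_mem he).1, (mem_bk_iff hN).1 (eb_mem he').1]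
  have h3 : Sb N L n none = ((univ : Finset (Fin n × Fin n)).biUnion fun k => Sb N L n (some k))ᶜ := by
    ext e
    unfold Sb
    simp
  rw [h2, h3, Finset.prod_compl_mul_prod]

lemma wT_edges (b : ℝ) (h : V N → ℤ) : wT b N h = ∏ e : V N × Bool, wI b (h (tgt e) - h e.1) := by
  unfold wT
  conv_rhs => rw [Fintype.prod_prod_type]
  refine Finset.prod_congr rfl fun x _ => ?_
  rw [Fintype.prod_bool, mul_comm]
  have e1 : tgt (x, true) = x + (0, 1) := by
    unfold Vale.Agent.P159.TM.SpecI.tgt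
    refine Prod.ext ?_ ?_
    · simp
    · simp
  have e2 : tgt (x, false) = x + (1, 0) := by
    unfold Vale.Agent.P159.TM.SpecI.tgt
    refine Prod.ext ?_ ?_
    · simp
    · simp
  rw [e1, e2]

/-- the weight of the torus in the letters of the block family -/
lemma wT_wB (hN : N = n * L) (b : ℝ) :
    wT b N = wB (fun i => Dg (Sb N L n i)) (fun _ _ => b) := by
  funext h
  unfold wB
  simp only [nn_Dg]
  rw [prod_Sb hN (fun e => wI b (h (tgt e) - h e.1)), wT_edges]

/-! ### the tilt -/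

/-- the local flow on the edges of the library -/
def cf (s : ℕ) (y : V N → ℝ) (e : V N × Bool) : ℝ := flo s y e.1 (!e.2)

lemma div_succ_eq {v : ℕ} (h : ¬ L ∣ v + 1) : (v + 1) / L = v / L := by
  rw [Nat.succ_div, if_neg h, add_zero]

/-- the flow vanishes on the edges between the blocks -/
lemma cf_ne (hsL : s ∣ L) (hN : N = n * L) {y : V N → ℝ} {e : V N × Bool} (h : cf s y e ≠ 0) :
    e ∈ inn N ∧ (tgt e).1.val / L = e.1.1.val / L ∧ (tgt e).2.val / L = e.1.2.val / L := by
  have hLN : L ∣ N := ⟨n, by rw [hN]; ring⟩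
  have hsN : s ∣ N := hsL.trans hLN
  obtain ⟨⟨z1, z2⟩, o⟩ := e
  have key : ∀ (z : ZMod N), (z.val + 1) % s ≠ 0 → z.val + 1 < N ∧ (z + 1).val / L = z.val / L := by
    intro z hz
    have h1 : z.val + 1 < N := by
      have h2 := ZMod.val_lt z
      rcases Nat.lt_or_ge (z.val + 1) N with h3 | h3
      · exact h3
      · exfalso
        have : z.val + 1 = N := by omega
        rw [this] at hz
        exact hz (Nat.mod_eq_zero_of_dvd hsN)
    refine ⟨h1, ?_⟩
    have h2 : (z + 1).val = z.val + 1 := by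
      have : Fact (1 < N) := ⟨by omega⟩
      rw [ZMod.val_add_of_lt (by rw [ZMod.val_one]; exact h1), ZMod.val_one]
    rw [h2, div_succ_eq fun h3 => hz (Nat.mod_eq_zero_of_dvd (hsL.trans h3))]
  cases o
  · have h1 : (z1.val + 1) % s ≠ 0 := fun h0 => h (fl1_last hsN _ h0)
    obtain ⟨h2, h3⟩ := key z1 h1
    rw [mem_inn_false]
    exact ⟨h2, h3, rfl⟩
  · have h1 : (z2.val + 1) % s ≠ 0 := fun h0 => h (fl1_last hsN _ h0)
    obtain ⟨h2, h3⟩ := key z2 h1
    rw [mem_inn_true]
    exact ⟨h2, rfl, h3⟩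

lemma cf_mem (hsL : s ∣ L) (hN : N = n * L) {y : V N → ℝ} {e : V N × Bool} (h : cf s y e ≠ 0)
    (k : Fin n × Fin n) :
    (e ∈ (eb (pk L k) L : Finset (V N × Bool)) ↔ e.1 ∈ (bx (pk L k) L : Finset (V N))) ∧
      (e ∈ (eb (pk L k) L : Finset (V N × Bool)) ↔ tgt e ∈ (bx (pk L k) L : Finset (V N))) := by
  obtain ⟨h1, h2, h3⟩ := cf_ne hsL hN h
  have h4 : e.1 ∈ (bx (pk L k) L : Finset (V N)) ↔ tgt e ∈ (bx (pk L k) L : Finset (V N)) := by
    rw [mem_bk hN, mem_bk hN, h2, h3]
  have h5 : e ∈ (eb (pk L k) L : Finset (V N × Bool)) ↔ e.1 ∈ (bx (pk L k) L : Finset (V N)) ∧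
      tgt e ∈ (bx (pk L k) L : Finset (V N)) := by
    unfold Vale.Agent.P159.TM.H574.eb
    rw [Finset.mem_filter]
    exact ⟨fun h => h.2, fun h => ⟨h1, h⟩⟩
  rw [h5]
  tauto

/-- divergence on all the edges -/
lemma cf_div (hs : s ∣ N) (y : V N → ℝ) (x : V N) :
    ∑ e : V N × Bool, cf s y e * (((if x = tgt e then 1 else 0) - (if x = e.1 then 1 else 0) : ℤ) : ℝ) =
      y x - (cellP N s *ᵥ y) x := by
  have := ne_div hs
  rw [← flo_div hs y x, Fintype.sum_prod_type]
  simp only [Fintype.sum_bool]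
  have e1 : ∀ z : V N, (x = tgt (z, true)) ↔ z = x - (0, 1) := by
    intro z
    unfold Vale.Agent.P159.TM.SpecI.tgt
    simp only [if_true]
    constructor
    · intro h; rw [h]
      refine Prod.ext ?_ ?_ <;> simp
    · intro h; rw [h]
      refine Prod.ext ?_ ?_ <;> simp
  have e2 : ∀ z : V N, (x = tgt (z, false)) ↔ z = x - (1, 0) := by
    intro z
    unfold Vale.Agent.P159.TM.SpecI.tgt
    simp only [Bool.false_eq_true, if_false]
    constructor
    · intro h; rw [h]
      refine Prod.ext ?_ ?_ <;> simp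
    · intro h; rw [h]
      refine Prod.ext ?_ ?_ <;> simp
  simp only [e1, e2]
  push_cast
  simp only [mul_sub, Finset.sum_add_distrib, Finset.sum_sub_distrib, mul_ite, mul_one, mul_zero,
    Finset.sum_ite_eq, Finset.sum_ite_eq', Finset.mem_univ, if_true]
  unfold cf
  simp only [Bool.not_true, Bool.not_false]
  ring

/-- **divergence in one block** -/
lemma cf_block (hsL : s ∣ L) (hN : N = n * L) (y : V N → ℝ) (k : Fin n × Fin n) (x : V N) :
    ∑ e : ↥(eb (pk L k) L : Finset (V N × Bool)), cf s y e * (Dg (eb (pk L k) L) e x : ℝ) =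
      if x ∈ (bx (pk L k) L : Finset (V N)) then y x - (cellP N s *ᵥ y) x else 0 := by
  classical
  have hLN : L ∣ N := ⟨n, by rw [hN]; ring⟩
  unfold Dg
  rw [Finset.sum_coe_sort (eb (pk L k) L : Finset (V N × Bool)) (fun e : V N × Bool => cf s y e *
    (((if x = tgt e then 1 else 0) - (if x = e.1 then 1 else 0) : ℤ) : ℝ)),
    ← cf_div (hsL.trans hLN) y x]
  rw [← Finset.sum_filter_add_sum_filter_not univ
    (fun e : V N × Bool => e ∈ (eb (pk L k) L : Finset (V N × Bool)))]
  have h1 : ∑ e ∈ (eb (pk L k) L : Finset (V N × Bool)), cf s y e *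
      (((if x = tgt e then 1 else 0) - (if x = e.1 then 1 else 0) : ℤ) : ℝ) =
      ∑ e : V N × Bool, if e ∈ (eb (pk L k) L : Finset (V N × Bool)) then cf s y e *
      (((if x = tgt e then 1 else 0) - (if x = e.1 then 1 else 0) : ℤ) : ℝ) else 0 := by
    rw [← Finset.sum_filter]
    simp
  rw [Finset.sum_filter_add_sum_filter_not, h1]
  have h2 : ∀ e : V N × Bool, (if e ∈ (eb (pk L k) L : Finset (V N × Bool)) then cf s y e *
      (((if x = tgt e then 1 else 0) - (if x = e.1 then 1 else 0) : ℤ) : ℝ) else 0) =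
      if x ∈ (bx (pk L k) L : Finset (V N)) then cf s y e *
      (((if x = tgt e then 1 else 0) - (if x = e.1 then 1 else 0) : ℤ) : ℝ) else 0 := by
    intro e
    by_cases h0 : cf s y e = 0
    · rw [h0]
      simp
    · obtain ⟨h3, h4⟩ := cf_mem hsL hN h0 k
      by_cases ha : x = tgt e
      · have h5 : e ∈ (eb (pk L k) L : Finset (V N × Bool)) ↔ x ∈ (bx (pk L k) L : Finset (V N)) := by
          rw [ha]; exact h4
        by_cases hx : x ∈ (bx (pk L k) L : Finset (V N))
        · rw [if_pos hx, if_pos (h5.2 hx)]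
        · rw [if_neg hx, if_neg fun h => hx (h5.1 h)]
      · by_cases hc : x = e.1
        · have h5 : e ∈ (eb (pk L k) L : Finset (V N × Bool)) ↔
              x ∈ (bx (pk L k) L : Finset (V N)) := by
            rw [hc]; exact h3
          by_cases hx : x ∈ (bx (pk L k) L : Finset (V N))
          · rw [if_pos hx, if_pos (h5.2 hx)]
          · rw [if_neg hx, if_neg fun h => hx (h5.1 h)]
        · rw [if_neg ha, if_neg hc]
          simp
  rw [Finset.sum_congr rfl fun e _ => h2 e]
  split_ifs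
  · rfl
  · simp

/-- **BLOCK DOMINATION** of a source which is neutral in every cell of side `s ∣ L` -/
theorem fn_dom {b : ℝ} (hb : 0 ≤ b) (hN : N = n * L) (hsL : s ∣ L) {M : Matrix (V N) (V N) ℝ}
    (hMs : Mᵀ = M) {m0 : ℝ} (hm0 : 0 < m0) (hM : ∀ u : V N → ℝ, m0 * ∑ x, u x ^ 2 ≤ qf M u)
    {y : V N → ℝ} (hy : cellP N s *ᵥ y = 0) :
    Zs (wM (wT b N) M) y ≤
      (∏ k : Fin n × Fin n, rat (fun _ => b) (Gs (N := N) (eb (pk L k) L))
        (fun e => cf s y (e : V N × Bool))) * Zs (wM (wT b N) M) 0 := by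
  classical
  set Γ : ∀ i : Option (Fin n × Fin n), AddSubgroup (↥(Sb N L n i) → ℤ) := fun i =>
    match i with
    | some k => Gs (Sb N L n (some k))
    | none => ⊤ with hΓ
  set c : ∀ i : Option (Fin n × Fin n), ↥(Sb N L n i) → ℝ := fun i =>
    match i with
    | some k => fun e => cf s y e
    | none => fun _ => 0 with hc
  have h := src_dom (fun i => Dg (Sb N L n i)) (K := fun _ _ => b) (fun _ _ => hb) Γ
    (fun i h => by
      cases i with
      | none => exact AddSubgroup.mem_top _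
      | some k => exact nn_mem _ _) c hMs hm0 hM y 0 (fun x => by
      rw [Matrix.mulVec_zero, Pi.zero_apply, zero_add, Fintype.sum_option]
      have h0 : ∑ e, c none e * (Dg (Sb N L n none) e x : ℝ) = 0 :=
        Finset.sum_eq_zero fun e _ => by rw [hc]; simp
      rw [h0, zero_add]
      have h1 : ∀ k : Fin n × Fin n, ∑ e, c (some k) e * (Dg (Sb N L n (some k)) e x : ℝ) =
          if x ∈ (bx (pk L k) L : Finset (V N)) then y x else 0 := by
        intro k
        have h2 := cf_block hsL hN y k x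
        rw [hy] at h2
        simp only [Pi.zero_apply, sub_zero] at h2
        exact h2
      rw [Finset.sum_congr rfl fun k _ => h1 k]
      simp only [mem_bk_iff hN]
      simp)
  rw [← wT_wB hN b, H37.qf_zero_vec, zero_div, Real.exp_zero, one_mul, Fintype.prod_option] at h
  have h0 : rat (fun _ : ↥(Sb N L n none) => b) (Γ none) (c none) = 1 := by
    have e : c none = 0 := by
      rw [hc]
      rfl
    rw [e]
    unfold rat
    exact div_self (SG_pos (fun _ => hb) _ _).ne'
  rw [h0, one_mul] at h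
  exact h

end

end Vale.Agent.P159.H864
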