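import Vale.Agent.P159.H864.Fn3

/-!
P159, module FN (helper864), part 5: the theorem FNB in the letters of row 3471.

`vk b L k y` : variance of `<y_k, h>` in the free block `k` (pinned at its corner), `y_k` = `y` on the
block. For `y` in the range of the level `r`, `2 r ∣ L`:
* `vk_le`    : `vk b L k y ≤ 64 b r² |y_k|²`;
* `gm_le_vk` : `<y, G y> ≤ ∑ vk`;
* `lg_le`    : `log Z(y) - log Z(0) ≤ (1/2) ∑ vk + C ∑ (r² |y_k|²)²` if `r |y x| ≤ 1/6`.
-/

set_option linter.unusedSectionVars false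

namespace Vale.Agent.P159.H864

open Finset Matrix MeasureTheory
open Vale.Agent.P159.H353 (wI wI_neg wI_nonneg)
open Vale.Agent.P159.H37 (qf bf re wM Zs Gm cellP)
open Vale.Agent.P159.TM.Spec (V)
open Vale.Agent.P159.TM.SpecC (wT)
open Vale.Agent.P159.TM.SpecI (tgt inn ex pr)
open Vale.Agent.P159.TM.H574 (bx eb cnr)
open Vale.Agent.P159.H513 (rat vG rat_pos rat_bare rat_ge rat_upper vG_nonneg)
open Vale.Agent.P159.TM.H129 (ip)
open Vale.Agent.P159.TM.H104 (Lg)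

noncomputable section

variable {N L n r s : ℕ} [NeZero N]

/-- the restriction to the block -/
def yk (L : ℕ) {n : ℕ} (k : Fin n × Fin n) (y : V N → ℝ) (x : V N) : ℝ :=
  if x ∈ (bx (pk L k) L : Finset (V N)) then y x else 0

/-- squared norm in the block -/
def nk (L : ℕ) {n : ℕ} (k : Fin n × Fin n) (y : V N → ℝ) : ℝ :=
  ∑ x ∈ (bx (pk L k) L : Finset (V N)), y x ^ 2

/-- the variance in the free block -/
def vk (b : ℝ) (L : ℕ) {n : ℕ} (k : Fin n × Fin n) (y : V N → ℝ) : ℝ :=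
  ex b (eb (pk L k) L) ((bx (pk L k) L)ᶜ ∪ {cnr (pk L k)}) (fun _ => 0)
    (fun h => pr (yk L k y) h ^ 2)

lemma nk_nonneg (L : ℕ) (k : Fin n × Fin n) (y : V N → ℝ) : 0 ≤ nk L k y :=
  Finset.sum_nonneg fun _ _ => sq_nonneg _

lemma sum_nk (hN : N = n * L) (y : V N → ℝ) : ∑ k : Fin n × Fin n, nk L k y = ∑ x, y x ^ 2 :=
  sum_blocks hN fun x => y x ^ 2

lemma nk_smul (L : ℕ) (k : Fin n × Fin n) (a : ℝ) (y : V N → ℝ) :
    nk L k (a • y) = a ^ 2 * nk L k y := by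
  unfold nk
  rw [Finset.mul_sum]
  refine Finset.sum_congr rfl fun x _ => ?_
  rw [Pi.smul_apply, smul_eq_mul]
  ring

lemma vk_smul (b : ℝ) (L : ℕ) (k : Fin n × Fin n) (a : ℝ) (y : V N → ℝ) :
    vk b L k (a • y) = a ^ 2 * vk b L k y := by
  have e : ∀ h : V N → ℤ, pr (yk L k (a • y)) h ^ 2 = a ^ 2 * pr (yk L k y) h ^ 2 := by
    intro h
    have e1 : pr (yk L k (a • y)) h = a * pr (yk L k y) h := by
      unfold TM.SpecI.pr yk
      rw [Finset.mul_sum]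
      refine Finset.sum_congr rfl fun x _ => ?_
      rw [Pi.smul_apply, smul_eq_mul]
      split_ifs <;> ring
    rw [e1]
    ring
  unfold vk
  simp only [e]
  unfold TM.SpecI.ex
  have e2 : ∀ h : V N → ℤ, TM.SpecI.wt b (eb (pk L k) L) ((bx (pk L k) L)ᶜ ∪ {cnr (pk L k)})
      (fun _ => 0) h * (a ^ 2 * pr (yk L k y) h ^ 2) = a ^ 2 * (TM.SpecI.wt b (eb (pk L k) L)
        ((bx (pk L k) L)ᶜ ∪ {cnr (pk L k)}) (fun _ => 0) h * pr (yk L k y) h ^ 2) := fun h => by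
    ring
  rw [tsum_congr e2, tsum_mul_left, mul_div_assoc]

/-- the tilt of the block -/
def ck (L s : ℕ) {n : ℕ} (k : Fin n × Fin n) (y : V N → ℝ)
    (e : ↥(eb (pk L k) L : Finset (V N × Bool))) : ℝ := cf s y e

/-- **the bridge** -/
theorem vG_vk (b : ℝ) (hN : N = n * L) (hsL : s ∣ L) {y : V N → ℝ} (hy : cellP N s *ᵥ y = 0)
    (k : Fin n × Fin n) :
    vG (fun _ => b) (Gs (N := N) (eb (pk L k) L)) (ck L s k y) = vk b L k y := by
  refine vG_eq b (pk_le1 hN k) (pk_le2 hN k) _ fun x => ?_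
  have h := cf_block hsL hN y k x
  rw [hy] at h
  simp only [Pi.zero_apply, sub_zero] at h
  unfold ck yk
  exact h.symm

/-- **BLOCK DOMINATION**, logarithmic form -/
theorem fn_lg {b : ℝ} (hb : 0 ≤ b) (hN : N = n * L) (hsL : s ∣ L) {M : Matrix (V N) (V N) ℝ}
    (hMs : Mᵀ = M) {m0 : ℝ} (hm0 : 0 < m0) (hM : ∀ u : V N → ℝ, m0 * ∑ x, u x ^ 2 ≤ qf M u)
    {y : V N → ℝ} (hy : cellP N s *ᵥ y = 0) :
    Lg (wM (wT b N) M) y - Lg (wM (wT b N) M) 0 ≤
      ∑ k : Fin n × Fin n, Real.log (rat (fun _ => b) (Gs (N := N) (eb (pk L k) L)) (ck L s k y)) := by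
  have hE := H789.em_wM_wT hb hm0 hM
  have h := fn_dom hb hN hsL hMs hm0 hM hy
  have h1 := H37.Zs_pos hE y
  have h0 := H37.Zs_pos hE 0
  have h2 := Real.log_le_log h1 h
  have h3 : 0 < ∏ k : Fin n × Fin n, rat (fun _ => b) (Gs (N := N) (eb (pk L k) L))
      (fun e => cf s y (e : V N × Bool)) := Finset.prod_pos fun k _ => rat_pos (fun _ => hb) _ _
  rw [Real.log_mul h3.ne' h0.ne', Real.log_prod fun k _ => (rat_pos (fun _ => hb) _ _).ne'] at h2
  unfold Lg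
  unfold H37.Zs at h2
  unfold ck
  linarith

/-! ### energies -/

lemma cc_block (hN : N = n * L) (hsL : s ∣ L) {k : Fin n × Fin n} {x z : V N}
    (hx : x ∈ (bx (pk L k) L : Finset (V N))) (hz : z ∈ cc s x) :
    z ∈ (bx (pk L k) L : Finset (V N)) := by
  obtain ⟨q, rfl⟩ := hsL
  rw [mem_bk hN] at hx ⊢
  rw [mem_cc] at hz
  rw [← hx.1, ← hx.2, ← Nat.div_div_eq_div_mul, ← Nat.div_div_eq_div_mul, ← Nat.div_div_eq_div_mul,
    ← Nat.div_div_eq_div_mul, hz.1, hz.2]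
  exact ⟨rfl, rfl⟩

lemma sum_cc_block (hN : N = n * L) (hsL : s ∣ L) (k : Fin n × Fin n) {f : V N → ℝ}
    (hf : ∀ x, 0 ≤ f x) :
    ∑ x ∈ (bx (pk L k) L : Finset (V N)), ∑ z ∈ cc s x, f z ≤
      (s : ℝ) ^ 2 * ∑ z ∈ (bx (pk L k) L : Finset (V N)), f z := by
  classical
  have hLN : L ∣ N := ⟨n, by rw [hN]; ring⟩
  have h1 : ∀ x ∈ (bx (pk L k) L : Finset (V N)), ∑ z ∈ cc s x, f z =
      ∑ z ∈ (bx (pk L k) L : Finset (V N)), if x ∈ cc s z then f z else 0 := by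
    intro x hx
    rw [← Finset.sum_filter]
    refine Finset.sum_congr ?_ fun _ _ => rfl
    ext z
    rw [Finset.mem_filter]
    exact ⟨fun h => ⟨cc_block hN hsL hx h, cc_symm h⟩, fun h => cc_symm h.2⟩
  rw [Finset.sum_congr rfl h1, Finset.sum_comm, Finset.mul_sum]
  refine Finset.sum_le_sum fun z _ => ?_
  rw [← Finset.sum_filter, Finset.sum_const, nsmul_eq_mul]
  refine mul_le_mul_of_nonneg_right ?_ (hf z)
  have h2 : ((bx (pk L k) L : Finset (V N)).filter fun x => x ∈ cc s z).card ≤ s ^ 2 := by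
    rw [← card_cc (hsL.trans hLN) z]
    refine Finset.card_le_card fun x hx => ?_
    exact (Finset.mem_filter.1 hx).2
  exact_mod_cast h2

/-- the energy of the flow in a block -/
lemma sum_ck_sq (hN : N = n * L) (hr : 2 * r ∣ L) {y : V N → ℝ}
    (hy : ∀ x, ∀ z ∈ cc r x, y z = y x) (k : Fin n × Fin n) :
    ∑ e, ck L (2 * r) k y e ^ 2 ≤ 16 * (r : ℝ) ^ 2 * nk L k y := by
  classical
  have hLN : L ∣ N := ⟨n, by rw [hN]; ring⟩
  have h1 : ∀ e : V N × Bool, cf (2 * r) y e ^ 2 ≤ 2 * ∑ z ∈ cc (2 * r) e.1, y z ^ 2 := fun e =>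
    flo_sq_le (hr.trans hLN) hy e.1 (!e.2)
  have h2 : ∑ e, ck L (2 * r) k y e ^ 2 =
      ∑ e ∈ (eb (pk L k) L : Finset (V N × Bool)), cf (2 * r) y e ^ 2 :=
    Finset.sum_coe_sort (eb (pk L k) L : Finset (V N × Bool)) (fun e => cf (2 * r) y e ^ 2)
  rw [h2]
  have h3 : (eb (pk L k) L : Finset (V N × Bool)) ⊆ (bx (pk L k) L : Finset (V N)) ×ˢ univ := by
    intro e he
    rw [Finset.mem_product]
    exact ⟨(eb_mem he).1, Finset.mem_univ _⟩
  calc ∑ e ∈ (eb (pk L k) L : Finset (V N × Bool)), cf (2 * r) y e ^ 2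
      ≤ ∑ e ∈ (bx (pk L k) L : Finset (V N)) ×ˢ (univ : Finset Bool), cf (2 * r) y e ^ 2 :=
        Finset.sum_le_sum_of_subset_of_nonneg h3 fun _ _ _ => sq_nonneg _
    _ ≤ ∑ e ∈ (bx (pk L k) L : Finset (V N)) ×ˢ (univ : Finset Bool),
          2 * ∑ z ∈ cc (2 * r) e.1, y z ^ 2 := Finset.sum_le_sum fun e _ => h1 e
    _ = 4 * ∑ x ∈ (bx (pk L k) L : Finset (V N)), ∑ z ∈ cc (2 * r) x, y z ^ 2 := by
        rw [Finset.sum_product, Finset.mul_sum]
        refine Finset.sum_congr rfl fun x _ => ?_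
        rw [Fintype.sum_bool]
        ring
    _ ≤ 4 * (((2 * r : ℕ) : ℝ) ^ 2 * nk L k y) := by
        have := sum_cc_block (f := fun z => y z ^ 2) hN hr k (fun _ => sq_nonneg _)
        unfold nk
        linarith
    _ = 16 * (r : ℝ) ^ 2 * nk L k y := by
        push_cast
        ring

/-- the flow is small for small sources -/
lemma ck_small (hN : N = n * L) (hr : 2 * r ∣ L) {y : V N → ℝ} {δ : ℝ}
    (hy : ∀ x, ∀ z ∈ cc r x, y z = y x) (hδ : ∀ x, (r : ℝ) * |y x| ≤ δ) (k : Fin n × Fin n)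
    (e : ↥(eb (pk L k) L : Finset (V N × Bool))) : ck L (2 * r) k y e ^ 2 ≤ 8 * δ ^ 2 := by
  have hLN : L ∣ N := ⟨n, by rw [hN]; ring⟩
  have h1 : ck L (2 * r) k y e ^ 2 ≤ 2 * ∑ z ∈ cc (2 * r) (e : V N × Bool).1, y z ^ 2 :=
    flo_sq_le (hr.trans hLN) hy _ _
  have hr0 : (0 : ℝ) < r := by
    have h2 : 0 < 2 * r := Nat.pos_of_dvd_of_pos hr (L_pos hN)
    have : 0 < r := by omega
    exact_mod_cast this
  have h2 : ∀ z ∈ cc (2 * r) (e : V N × Bool).1, y z ^ 2 ≤ (δ / r) ^ 2 := by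
    intro z _
    rw [← sq_abs]
    refine pow_le_pow_left₀ (abs_nonneg _) ?_ 2
    rw [le_div_iff₀ hr0]
    linarith [hδ z]
  have h3 := Finset.sum_le_sum h2
  rw [Finset.sum_const, card_cc (hr.trans hLN), nsmul_eq_mul] at h3
  have h4 : (((2 * r) ^ 2 : ℕ) : ℝ) * (δ / r) ^ 2 = 4 * δ ^ 2 := by
    push_cast
    field_simp
    ring
  linarith

/-! ### the theorem -/

lemma level_const (hN : N = n * L) (hr : 2 * r ∣ L) {y : V N → ℝ} (hy : Dr N r *ᵥ y = y) :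
    ∀ x, ∀ z ∈ cc r x, y z = y x := by
  have hLN : L ∣ N := ⟨n, by rw [hN]; ring⟩
  intro x z hz
  rw [← hy]
  exact Dr_const (hr.trans hLN) y hz

lemma level_neutral (hN : N = n * L) (hr : 2 * r ∣ L) {y : V N → ℝ} (hy : Dr N r *ᵥ y = y) :
    cellP N (2 * r) *ᵥ y = 0 := by
  have hLN : L ∣ N := ⟨n, by rw [hN]; ring⟩
  rw [← hy]
  exact cellP_Dr (hr.trans hLN) y

lemma Gs_half' (hN : N = n * L) (k : Fin n × Fin n) (m : ↥(eb (pk L k) L : Finset (V N × Bool)) → ℤ)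
    (hm : m + m ∈ Gs (eb (pk L k) L)) : m ∈ Gs (eb (pk L k) L) :=
  Gs_half (pk_le1 hN k) (pk_le2 hN k) m hm

/-- the ratio of a block, small tilt -/
lemma rat_small {b : ℝ} (hb : 0 ≤ b) (hN : N = n * L) (k : Fin n × Fin n)
    (c : ↥(eb (pk L k) L : Finset (V N × Bool)) → ℝ) (hc : ∀ e, |c e| ≤ 1) {E : ℝ}
    (hE : ∑ e, c e ^ 2 ≤ E) :
    rat (fun _ => b) (Gs (N := N) (eb (pk L k) L)) c ≤
      Real.exp (vG (fun _ => b) (Gs (N := N) (eb (pk L k) L)) c / 2 + 3 * (max b 1 * E) ^ 2) := by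
  have h0 : 0 ≤ ∑ e, c e ^ 2 := Finset.sum_nonneg fun _ _ => sq_nonneg _
  have hE0 : 0 ≤ E := h0.trans hE
  refine rat_upper (fun _ => hb) (Gs_half' hN k) c hc ?_ ?_ (by positivity)
  · rw [← Finset.mul_sum]
    exact mul_le_mul (le_max_left _ _) hE h0 (by positivity)
  · intro e
    have h2 : c e ^ 2 ≤ ∑ e, c e ^ 2 :=
      Finset.single_le_sum (f := fun e => c e ^ 2) (fun _ _ => sq_nonneg _) (Finset.mem_univ e)
    have h3 : 1 * E ≤ max b 1 * E := mul_le_mul_of_nonneg_right (le_max_right _ _) hE0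
    linarith

/-- the variance of a tilt is at most the bare one -/
lemma vG_bare {b : ℝ} (hb : 0 ≤ b) (hN : N = n * L) (k : Fin n × Fin n)
    (c : ↥(eb (pk L k) L : Finset (V N × Bool)) → ℝ) {E : ℝ} (hE : ∑ e, c e ^ 2 ≤ E) :
    vG (fun _ => b) (Gs (N := N) (eb (pk L k) L)) c ≤ 4 * b * E := by
  have h0 : 0 ≤ ∑ e, c e ^ 2 := Finset.sum_nonneg fun _ _ => sq_nonneg _
  have hE0 : 0 ≤ E := h0.trans hE
  -- a small multiple
  set σ : ℝ := (1 + E + b * E)⁻¹ with hσ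
  have hd : 0 < 1 + E + b * E := by positivity
  have hσ0 : 0 < σ := inv_pos.2 hd
  have hσ1 : σ ≤ 1 := inv_le_one_of_one_le₀ (by nlinarith [mul_nonneg hb hE0])
  have hσE : σ * (1 + E + b * E) = 1 := inv_mul_cancel₀ hd.ne'
  have h1 := rat_ge (fun _ => hb) (Gs (N := N) (eb (pk L k) L)) (σ • c)
  have h2 := rat_bare (fun _ => hb) (Gs_half' hN k) (σ • c)
  have h3 : vG (fun _ => b) (Gs (N := N) (eb (pk L k) L)) (σ • c) =
      σ ^ 2 * vG (fun _ => b) (Gs (N := N) (eb (pk L k) L)) c := by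
    unfold vG
    have e : ∀ m : ↥(eb (pk L k) L : Finset (V N × Bool)) → ℤ,
        ip (σ • c) m ^ 2 = σ ^ 2 * ip c m ^ 2 := fun m => by
      rw [H513.ip_smul_left]; ring
    simp only [e]
    rw [← mul_div_assoc, ← tsum_mul_left]
    congr 1
    exact tsum_congr fun m => by ring
  have h4 : ∑ e, b * (Real.cosh ((σ • c) e) - 1) ≤ σ ^ 2 * (b * E) := by
    have h5 : ∀ e, b * (Real.cosh ((σ • c) e) - 1) ≤ σ ^ 2 * (b * c e ^ 2) := by
      intro e
      have h6 : |(σ • c) e| ≤ 1 := by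
        have h7 : c e ^ 2 ≤ E := (Finset.single_le_sum (f := fun e => c e ^ 2)
          (fun _ _ => sq_nonneg _) (Finset.mem_univ e)).trans hE
        rw [Pi.smul_apply, smul_eq_mul]
        refine abs_le_one_iff_mul_self_le_one.2 ?_
        have h8 : σ * c e * (σ * c e) = σ * (σ * c e ^ 2) := by ring
        rw [h8]
        have h9 : σ * c e ^ 2 ≤ 1 := by
          rw [← hσE]
          exact mul_le_mul_of_nonneg_left (by nlinarith [mul_nonneg hb hE0]) hσ0.le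
        nlinarith [mul_nonneg hσ0.le (sq_nonneg (c e))]
      have h7 := H513.cosh_sub_le_sq h6
      rw [Pi.smul_apply, smul_eq_mul] at h7 ⊢
      calc b * (Real.cosh (σ * c e) - 1) ≤ b * (σ * c e) ^ 2 := mul_le_mul_of_nonneg_left h7 hb
        _ = σ ^ 2 * (b * c e ^ 2) := by ring
    refine (Finset.sum_le_sum fun e _ => h5 e).trans ?_
    rw [← Finset.mul_sum, ← Finset.mul_sum]
    exact mul_le_mul_of_nonneg_left (mul_le_mul_of_nonneg_left hE hb) (sq_nonneg _)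
  have h5 : Real.exp (∑ e, b * (Real.cosh ((σ • c) e) - 1)) ≤ 1 + 2 * (σ ^ 2 * (b * E)) := by
    have hx0 : 0 ≤ σ ^ 2 * (b * E) := by positivity
    have hx1 : σ ^ 2 * (b * E) ≤ 1 := by
      have h9 : σ * (b * E) ≤ 1 := by
        rw [← hσE]
        exact mul_le_mul_of_nonneg_left (by linarith) hσ0.le
      have : σ ^ 2 * (b * E) = σ * (σ * (b * E)) := by ring
      rw [this]
      have h10 : 0 ≤ σ * (b * E) := by positivity
      nlinarith
    refine (Real.exp_le_exp.2 h4).trans ?_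
    have h10 := (abs_le.1 (Real.abs_exp_sub_one_sub_id_le
      (show |σ ^ 2 * (b * E)| ≤ 1 by rw [abs_of_nonneg hx0]; exact hx1))).2
    nlinarith
  have h6 : 1 + σ ^ 2 * vG (fun _ => b) (Gs (N := N) (eb (pk L k) L)) c / 2 ≤
      1 + 2 * (σ ^ 2 * (b * E)) := by
    rw [← h3]
    exact h1.trans (h2.trans h5)
  have h7 : σ ^ 2 * vG (fun _ => b) (Gs (N := N) (eb (pk L k) L)) c ≤ σ ^ 2 * (4 * b * E) := by
    linarith
  exact le_of_mul_le_mul_left h7 (by positivity)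

/-- **FNB (i)** -/
theorem vk_le {b : ℝ} (hb : 0 ≤ b) (hN : N = n * L) (hr : 2 * r ∣ L) {y : V N → ℝ}
    (hy : Dr N r *ᵥ y = y) (k : Fin n × Fin n) : vk b L k y ≤ 64 * b * (r : ℝ) ^ 2 * nk L k y := by
  have h1 := vG_bare hb hN k (ck L (2 * r) k y) (sum_ck_sq hN hr (level_const hN hr hy) k)
  rw [vG_vk b hN hr (level_neutral hN hr hy)] at h1
  linarith

lemma vk_nonneg {b : ℝ} (hb : 0 ≤ b) (hN : N = n * L) (hr : 2 * r ∣ L) {y : V N → ℝ}
    (hy : Dr N r *ᵥ y = y) (k : Fin n × Fin n) : 0 ≤ vk b L k y := by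
  rw [← vG_vk b hN hr (level_neutral hN hr hy)]
  exact vG_nonneg (fun _ => hb) _ _

/-- **FNB (iii)** -/
theorem lg_le {b : ℝ} (hb : 0 ≤ b) (hN : N = n * L) (hr : 2 * r ∣ L) {M : Matrix (V N) (V N) ℝ}
    (hMs : Mᵀ = M) {m0 : ℝ} (hm0 : 0 < m0) (hM : ∀ u : V N → ℝ, m0 * ∑ x, u x ^ 2 ≤ qf M u)
    {y : V N → ℝ} (hy : Dr N r *ᵥ y = y) (hy1 : ∀ x, (r : ℝ) * |y x| ≤ 1 / 6) :
    Lg (wM (wT b N) M) y - Lg (wM (wT b N) M) 0 ≤
      1 / 2 * ∑ k : Fin n × Fin n, vk b L k y +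
        768 * max b 1 ^ 2 * ∑ k : Fin n × Fin n, ((r : ℝ) ^ 2 * nk L k y) ^ 2 := by
  refine (fn_lg hb hN hr hMs hm0 hM (level_neutral hN hr hy)).trans ?_
  rw [Finset.mul_sum, Finset.mul_sum, ← Finset.sum_add_distrib]
  refine Finset.sum_le_sum fun k _ => ?_
  have h1 := rat_small hb hN k (ck L (2 * r) k y) (fun e => by
    have h2 := ck_small hN hr (level_const hN hr hy) hy1 k e
    refine abs_le_one_iff_mul_self_le_one.2 ?_
    rw [← pow_two]
    refine h2.trans (by norm_num)) (sum_ck_sq hN hr (level_const hN hr hy) k)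
  rw [vG_vk b hN hr (level_neutral hN hr hy)] at h1
  have h2 := Real.log_le_log (rat_pos (fun _ => hb) _ _) h1
  rw [Real.log_exp] at h2
  refine h2.trans (le_of_eq ?_)
  ring

/-- **FNB (ii)** -/
theorem gm_le_vk {b : ℝ} (hb : 0 ≤ b) (hN : N = n * L) (hr : 2 * r ∣ L)
    {M : Matrix (V N) (V N) ℝ} (hMs : Mᵀ = M) {m0 : ℝ} (hm0 : 0 < m0)
    (hM : ∀ u : V N → ℝ, m0 * ∑ x, u x ^ 2 ≤ qf M u) {y : V N → ℝ} (hy : Dr N r *ᵥ y = y) :
    qf (Gm (wM (wT b N) M)) y ≤ ∑ k : Fin n × Fin n, vk b L k y := by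
  set S : ℝ := 1 + 6 * ((r : ℝ) * ∑ x, |y x|) with hS
  have hS0 : 0 < S := by positivity
  refine H513.gm_of_small hb hm0 hM y (s0 := S⁻¹) (inv_pos.2 hS0)
    (Y := 768 * max b 1 ^ 2 * ∑ k : Fin n × Fin n, ((r : ℝ) ^ 2 * nk L k y) ^ 2) fun σ h0 h1 => ?_
  have h2 := lg_le hb hN hr hMs hm0 hM (y := σ • y) (by rw [Matrix.mulVec_smul, hy]) (fun x => by
    rw [Pi.smul_apply, smul_eq_mul, abs_mul, abs_of_pos h0]
    have h3 : |y x| ≤ ∑ x, |y x| :=
      Finset.single_le_sum (f := fun x => |y x|) (fun _ _ => abs_nonneg _) (Finset.mem_univ x)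
    have h4 : σ * S ≤ 1 := by
      calc σ * S ≤ S⁻¹ * S := mul_le_mul_of_nonneg_right h1 hS0.le
        _ = 1 := inv_mul_cancel₀ hS0.ne'
    have h5 : 6 * ((r : ℝ) * |y x|) ≤ S := by
      have := mul_le_mul_of_nonneg_left h3 (Nat.cast_nonneg r : (0 : ℝ) ≤ r)
      rw [hS]
      linarith
    have h6 := mul_le_mul_of_nonneg_left h5 h0.le
    linarith)
  simp only [vk_smul, nk_smul] at h2
  refine h2.trans (le_of_eq ?_)
  have e1 : ∀ k : Fin n × Fin n, ((r : ℝ) ^ 2 * (σ ^ 2 * nk L k y)) ^ 2 =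
      σ ^ 4 * ((r : ℝ) ^ 2 * nk L k y) ^ 2 := fun k => by ring
  simp only [e1]
  rw [← Finset.mul_sum, ← Finset.mul_sum]
  ring

end

end Vale.Agent.P159.H864
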