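import Vale.Agent.P159.H864.Fn4
import Vale.Agent.P159.TM.H574.Muv

/-!
P159, module FN (helper864), part 6: the Haar frame and the trace lemma.

`hf r c = r * dc r c` (`dc` of TM/H574: average over the cell `c` of side `r` minus the average over
its parent). `∑ hf fcᵀ = Dr`, `|hf| ≤ 1`. The matrix `Vm` of the free blocks. Trace lemma: for `A ≥ 0`
on the range of the level, `∫ qf A (Dr z) ≤ τ ∑ qf A (hf c)`.
-/

set_option linter.unusedSectionVars false

namespace Vale.Agent.P159.H864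

open Finset Matrix MeasureTheory
open Vale.Agent.P159.H37 (qf bf re wM Zs Gm cellP)
open Vale.Agent.P159.TM.Spec (V)
open Vale.Agent.P159.TM.SpecC (wT)
open Vale.Agent.P159.TM.SpecI (tgt inn ex pr)
open Vale.Agent.P159.TM.H574 (bx eb cnr dc avc avc_eq)
open Vale.Agent.P159.TM.H104 (Lg)

noncomputable section

variable {N L n m r s : ℕ} [NeZero N]

/-- the entries of the projection on the cells -/
lemma cellP_entry {s : ℕ} (hs : s ∣ N) (x z : V N) :
    cellP N s x z = if z ∈ cc s x then ((s : ℝ) ^ 2)⁻¹ else 0 := by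
  have := ne_div hs
  rw [cellP_apply hs]
  have h : ((cl x : V (N / s)) = cl z) ↔ z ∈ cc s x := by
    rw [cc_eq hs, Finset.mem_filter]
    constructor
    · intro h; exact ⟨Finset.mem_univ _, h.symm⟩
    · intro h; exact h.2.symm
  simp only [h]

/-- the coefficients of the Haar functions -/
def hf (r : ℕ) (c : ℕ × ℕ) (x : V N) : ℝ := r * dc r c x

/-- the pair of natural numbers of a cell index -/
def nc {m : ℕ} (c : Fin m × Fin m) : ℕ × ℕ := ((c.1 : ℕ), (c.2 : ℕ))

lemma half_lt {m : ℕ} (hN : N = m * r) (hr : 2 * r ∣ N) (c : Fin m) :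
    ((c : ℕ) / 2 + 1) * (2 * r) ≤ N := by
  have hr0 : 0 < r := L_pos hN
  obtain ⟨q, hq⟩ := hr
  have h1 : m = 2 * q := by
    have : m * r = (2 * q) * r := by rw [← hN, hq]; ring
    exact Nat.eq_of_mul_eq_mul_right hr0 this
  have h2 : (c : ℕ) < 2 * q := by rw [← h1]; exact c.2
  have h3 : (c : ℕ) / 2 + 1 ≤ q := by omega
  calc ((c : ℕ) / 2 + 1) * (2 * r) ≤ q * (2 * r) := Nat.mul_le_mul_right _ h3
    _ = N := by rw [hq]; ring

/-- **the Haar functions are the columns of the level** -/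
lemma hf_eq (hN : N = m * r) (hr : 2 * r ∣ N) (c : Fin m × Fin m) {z : V N}
    (hz : z ∈ (bx (pk r c) r : Finset (V N))) (x : V N) :
    hf r (nc c) x = r * Dr N r x z := by
  have hr0 : 0 < r := L_pos hN
  have hrN : r ∣ N := ⟨m, by rw [hN]; ring⟩
  have h1 : (nc c).1 * r + r ≤ N := pk_le1 hN c
  have h2 : (nc c).2 * r + r ≤ N := pk_le2 hN c
  have k1 : ((nc c).1 + 1) * r ≤ N := by
    calc ((nc c).1 + 1) * r = (nc c).1 * r + r := by ring
      _ ≤ N := h1
  have k2 : ((nc c).2 + 1) * r ≤ N := by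
    calc ((nc c).2 + 1) * r = (nc c).2 * r + r := by ring
      _ ≤ N := h2
  have k3 := half_lt hN hr c.1
  have k4 := half_lt hN hr c.2
  have e1 : avc r (nc c) x = cellP N r x z := by
    rw [avc_eq k1 k2, cellP_entry hrN, one_div]
    have h3 : (x ∈ (bx ((nc c).1 * r, (nc c).2 * r) r : Finset (V N))) ↔ z ∈ cc r x := by
      have h4 := mem_bk hN (k := c) (x := x)
      have h5 := (mem_bk hN (k := c) (x := z)).1 hz
      rw [mem_cc, h5.1, h5.2]
      unfold pk at h4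
      rw [show ((nc c).1 * r, (nc c).2 * r) = ((c.1 : ℕ) * r, (c.2 : ℕ) * r) from rfl, h4]
      exact ⟨fun h => ⟨h.1.symm, h.2.symm⟩, fun h => ⟨h.1.symm, h.2.symm⟩⟩
    simp only [h3]
  have e2 : avc (2 * r) ((nc c).1 / 2, (nc c).2 / 2) x = cellP N (2 * r) x z := by
    rw [avc_eq (c := ((nc c).1 / 2, (nc c).2 / 2)) k3 k4, cellP_entry hr, one_div]
    have h3 : (x ∈ (bx ((nc c).1 / 2 * (2 * r), (nc c).2 / 2 * (2 * r)) (2 * r) :
        Finset (V N))) ↔ z ∈ cc (2 * r) x := by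
      have h5 := (mem_bk hN (k := c) (x := z)).1 hz
      have h6 : ∀ v : ℕ, v / (2 * r) = v / r / 2 := fun v => by
        rw [Nat.div_div_eq_div_mul, Nat.mul_comm r 2]
      have hr2 : 0 < 2 * r := by omega
      rw [TM.H574.mem_bx, mem_cc, h6 z.1.val, h6 z.2.val, h5.1, h5.2]
      have h7 := div_iff hr2 x.1.val ((nc c).1 / 2)
      have h8 := div_iff hr2 x.2.val ((nc c).2 / 2)
      constructor
      · rintro ⟨a1, a2, a3, a4⟩
        exact ⟨(h7.1 ⟨a1, a2⟩).symm, (h8.1 ⟨a3, a4⟩).symm⟩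
      · rintro ⟨a1, a2⟩
        have b1 := h7.2 a1.symm
        have b2 := h8.2 a2.symm
        exact ⟨b1.1, b1.2, b2.1, b2.2⟩
    simp only [h3]
  unfold hf TM.H574.dc Dr
  rw [e1, e2, Matrix.sub_apply]

lemma Dr_symm (r : ℕ) (x z : V N) : Dr N r x z = Dr N r z x := by
  have := congrFun (congrFun (Dr_tr (N := N) r) x) z
  rw [Matrix.transpose_apply] at this
  exact this.symm

/-- the corner is in the cell -/
lemma cnr_mem (hN : N = m * r) (c : Fin m × Fin m) :
    (cnr (pk r c) : V N) ∈ (bx (pk r c) r : Finset (V N)) := by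
  have hr0 : 0 < r := L_pos hN
  have h1 := pk_le1 hN c
  have h2 := pk_le2 hN c
  unfold TM.H574.cnr
  show (TM.H574.pt (pk r c).1 (pk r c).2 : V N) ∈ _
  rw [TM.H574.pt_mem_bx (by omega) (by omega)]
  omega

/-- pairing with a Haar function -/
lemma hf_dot (hN : N = m * r) (hr : 2 * r ∣ N) (c : Fin m × Fin m) {z : V N}
    (hz : z ∈ (bx (pk r c) r : Finset (V N))) (u : V N → ℝ) :
    ∑ x, hf r (nc c) x * u x = r * (Dr N r *ᵥ u) z := by
  simp only [hf_eq hN hr c hz]
  show _ = (r : ℝ) * ∑ x, Dr N r z x * u x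
  rw [Finset.mul_sum]
  refine Finset.sum_congr rfl fun x _ => ?_
  rw [Dr_symm r x z]
  ring

lemma card_bk (hN : N = m * r) (c : Fin m × Fin m) :
    ((bx (pk r c) r : Finset (V N)).card : ℝ) = (r : ℝ) ^ 2 := by
  have hrN : r ∣ N := ⟨m, by rw [hN]; ring⟩
  have h : (bx (pk r c) r : Finset (V N)) = cc r (cnr (pk r c)) := by
    ext x
    have h5 := (mem_bk hN (k := c) (x := (cnr (pk r c) : V N))).1 (cnr_mem hN c)
    rw [mem_bk hN, mem_cc, h5.1, h5.2]
  rw [h, card_cc hrN]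
  push_cast
  rfl

/-- sums over the cells of functions which are constant on the cells -/
lemma sum_cellv (hN : N = m * r) {G : V N → ℝ} (hG : ∀ x, ∀ z ∈ cc r x, G z = G x) :
    ∑ c : Fin m × Fin m, (r : ℝ) ^ 2 * G (cnr (pk r c)) = ∑ x, G x := by
  rw [← sum_blocks hN G]
  refine Finset.sum_congr rfl fun c _ => ?_
  have h : ∀ x ∈ (bx (pk r c) r : Finset (V N)), G x = G (cnr (pk r c)) := by
    intro x hx
    refine hG _ _ ?_
    have h5 := (mem_bk hN (k := c) (x := (cnr (pk r c) : V N))).1 (cnr_mem hN c)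
    have h6 := (mem_bk hN (k := c) (x := x)).1 hx
    rw [mem_cc, h5.1, h5.2]
    exact h6
  rw [Finset.sum_congr rfl h, Finset.sum_const, nsmul_eq_mul, card_bk hN]

/-- **the frame identity with weights** (blocks, parent cells, ...) -/
theorem sum_hf_dot_sq (hN : N = m * r) (hr : 2 * r ∣ N) {χ : V N → ℝ}
    (hχ : ∀ x, ∀ z ∈ cc r x, χ z = χ x) (u : V N → ℝ) :
    ∑ c : Fin m × Fin m, χ (cnr (pk r c)) * (∑ x, hf r (nc c) x * u x) ^ 2 =
      ∑ x, χ x * (Dr N r *ᵥ u) x ^ 2 := by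
  rw [← sum_cellv hN (G := fun x => χ x * (Dr N r *ᵥ u) x ^ 2) (fun x z hz => by
    show χ z * (Dr N r *ᵥ u) z ^ 2 = χ x * (Dr N r *ᵥ u) x ^ 2
    rw [hχ x z hz, Dr_const hr u hz])]
  refine Finset.sum_congr rfl fun c _ => ?_
  rw [hf_dot hN hr c (cnr_mem hN c)]
  ring

/-- **the frame** -/
theorem sum_hf_hf (hN : N = m * r) (hr : 2 * r ∣ N) (x z : V N) :
    ∑ c : Fin m × Fin m, hf r (nc c) x * hf r (nc c) z = Dr N r x z := by
  have h1 : Dr N r x z = ∑ w, Dr N r x w * Dr N r w z := by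
    conv_lhs => rw [← Dr_mul_self hr]
    rfl
  have hcol : ∀ z w w' : V N, w' ∈ cc r w → Dr N r w' z = Dr N r w z := by
    intro z w w' hw
    have h3 := Dr_const hr (Pi.single z 1) hw
    rw [Matrix.mulVec_single_one] at h3
    exact h3
  rw [h1, ← sum_cellv hN (G := fun w => Dr N r x w * Dr N r w z) (fun w w' hw => by
    show Dr N r x w' * Dr N r w' z = Dr N r x w * Dr N r w z
    rw [hcol z w w' hw, Dr_symm r x w', Dr_symm r x w, hcol x w w' hw])]
  refine Finset.sum_congr rfl fun c _ => ?_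
  rw [hf_eq hN hr c (cnr_mem hN c), hf_eq hN hr c (cnr_mem hN c), Dr_symm r z]
  ring

/-- the Haar functions are in the range -/
lemma Dr_hf (hN : N = m * r) (hr : 2 * r ∣ N) (c : Fin m × Fin m) :
    Dr N r *ᵥ hf r (nc c) = hf r (nc c) := by
  funext x
  show ∑ w, Dr N r x w * hf r (nc c) w = _
  simp only [hf_eq hN hr c (cnr_mem hN c)]
  have h1 : Dr N r x (cnr (pk r c)) = ∑ w, Dr N r x w * Dr N r w (cnr (pk r c)) := by
    conv_lhs => rw [← Dr_mul_self hr]
    rfl
  rw [h1, Finset.mul_sum]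
  refine Finset.sum_congr rfl fun w _ => ?_
  ring

/-- the norm of a Haar function -/
lemma hf_sq (hN : N = m * r) (hr : 2 * r ∣ N) (c : Fin m × Fin m) :
    ∑ x : V N, hf r (nc c) x ^ 2 ≤ 1 := by
  have hr0 : (0 : ℝ) < r := by exact_mod_cast L_pos hN
  have hrN : r ∣ N := ⟨m, by rw [hN]; ring⟩
  have h1 : ∑ x : V N, hf r (nc c) x ^ 2 = (r : ℝ) ^ 2 * Dr N r (cnr (pk r c)) (cnr (pk r c)) := by
    have h2 : Dr N r (cnr (pk r c)) (cnr (pk r c)) =
        ∑ w, Dr N r (cnr (pk r c)) w * Dr N r w (cnr (pk r c)) := by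
      conv_lhs => rw [← Dr_mul_self hr]
      rfl
    rw [h2, Finset.mul_sum]
    refine Finset.sum_congr rfl fun x _ => ?_
    rw [hf_eq hN hr c (cnr_mem hN c), Dr_symm r (cnr (pk r c)) x]
    ring
  rw [h1]
  unfold Dr
  rw [Matrix.sub_apply, cellP_entry hrN, cellP_entry hr, if_pos (self_mem_cc _ _),
    if_pos (self_mem_cc _ _)]
  push_cast
  have h3 : (r : ℝ) ^ 2 * (((r : ℝ) ^ 2)⁻¹ - ((2 * r : ℝ) ^ 2)⁻¹) = 3 / 4 := by
    field_simp
    norm_num
  rw [h3]
  norm_num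

/-! ### the trace lemma -/

lemma qf_sandwich {D : Matrix (V N) (V N) ℝ} (hD : Dᵀ = D) (A : Matrix (V N) (V N) ℝ)
    (u : V N → ℝ) : qf (D * A * D) u = qf A (D *ᵥ u) := by
  rw [H37.qf_eq, H37.qf_eq, ← Matrix.mulVec_mulVec, ← Matrix.mulVec_mulVec,
    Matrix.dotProduct_mulVec, ← Matrix.mulVec_transpose, hD]

/-- the trace in the frame -/
lemma trace_frame (hN : N = m * r) (hr : 2 * r ∣ N) (A : Matrix (V N) (V N) ℝ) :
    (Dr N r * A * Dr N r).trace = ∑ c : Fin m × Fin m, qf A (hf r (nc c)) := by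
  rw [Matrix.trace_mul_comm, ← Matrix.mul_assoc, Dr_mul_self hr]
  unfold Matrix.trace H37.qf
  simp only [Matrix.diag_apply, Matrix.mul_apply]
  rw [Finset.sum_comm]
  have h1 : ∀ x w : V N, Dr N r x w * A w x =
      ∑ c : Fin m × Fin m, hf r (nc c) w * A w x * hf r (nc c) x := by
    intro x w
    rw [← sum_hf_hf hN hr x w, Finset.sum_mul]
    exact Finset.sum_congr rfl fun c _ => by ring
  simp only [h1]
  rw [Finset.sum_comm]
  conv_lhs =>
    enter [2, x]
    rw [Finset.sum_comm]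
  rw [Finset.sum_comm]
  refine Finset.sum_congr rfl fun c _ => ?_
  rw [Finset.sum_comm]

/-- **TRACE LEMMA**: a form which is nonnegative on the range of the level -/
theorem trace_level (hN : N = m * r) (hr : 2 * r ∣ N) {A : Matrix (V N) (V N) ℝ} (hA : Aᵀ = A)
    (h0 : ∀ u, Dr N r *ᵥ u = u → 0 ≤ qf A u) {ν : Measure (V N → ℝ)} {τ : ℝ}
    (hi : ∀ v : V N → ℝ, Integrable (fun z => (∑ x, v x * z x) ^ 2) ν)
    (hτ : ∀ v : V N → ℝ, ∫ z, (∑ x, v x * z x) ^ 2 ∂ν ≤ τ * ∑ x, v x ^ 2) :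
    Integrable (fun z => qf A (Dr N r *ᵥ z)) ν ∧
      ∫ z, qf A (Dr N r *ᵥ z) ∂ν ≤ τ * ∑ c : Fin m × Fin m, qf A (hf r (nc c)) := by
  have hB : (Dr N r * A * Dr N r)ᵀ = Dr N r * A * Dr N r := by
    rw [Matrix.transpose_mul, Matrix.transpose_mul, Dr_tr, hA, Matrix.mul_assoc]
  have hq : ∀ u, qf (Dr N r * A * Dr N r) u = qf A (Dr N r *ᵥ u) :=
    qf_sandwich (Dr_tr r) A
  have hB0 : ∀ u, 0 ≤ qf (Dr N r * A * Dr N r) u := fun u => by
    rw [hq]
    exact h0 _ (by rw [Matrix.mulVec_mulVec, Dr_mul_self hr])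
  obtain ⟨v, ρ, hv, hrep⟩ := H513.psd_rep hB hB0
  have e1 : ∀ z, qf A (Dr N r *ᵥ z) = ∑ i, v i * (∑ x, ρ i x * z x) ^ 2 := fun z => by
    rw [← hq, hrep]
  have hI : ∀ i ∈ (univ : Finset (V N)), Integrable (fun z => v i * (∑ x, ρ i x * z x) ^ 2) ν :=
    fun i _ => (hi (ρ i)).const_mul _
  simp only [e1]
  refine ⟨integrable_finsetSum _ hI, ?_⟩
  rw [integral_finsetSum _ hI, ← trace_frame hN hr]
  have h2 : (Dr N r * A * Dr N r).trace = ∑ i, v i * ∑ x, ρ i x ^ 2 := by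
    have h3 : ∀ x, (Dr N r * A * Dr N r) x x = ∑ i, v i * ρ i x ^ 2 := by
      intro x
      have h4 := hrep (Pi.single x 1)
      have h5 : qf (Dr N r * A * Dr N r) (Pi.single x 1) = (Dr N r * A * Dr N r) x x := by
        unfold H37.qf
        simp [Pi.single_apply]
      rw [h5] at h4
      rw [h4]
      refine Finset.sum_congr rfl fun i _ => ?_
      congr 2
      simp [Pi.single_apply]
    unfold Matrix.trace
    simp only [Matrix.diag_apply, h3]
    rw [Finset.sum_comm]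
    exact Finset.sum_congr rfl fun i _ => by rw [Finset.mul_sum]
  rw [h2, Finset.mul_sum]
  refine Finset.sum_le_sum fun i _ => ?_
  rw [integral_const_mul]
  have := mul_le_mul_of_nonneg_left (hτ (ρ i)) (hv i)
  linarith

/-! ### the matrix of the free blocks -/

/-- covariances in the free block `k` -/
def cvk (b : ℝ) (L : ℕ) {n : ℕ} (k : Fin n × Fin n) (x z : V N) : ℝ :=
  ex b (eb (pk L k) L) ((bx (pk L k) L)ᶜ ∪ {cnr (pk L k)}) (fun _ => 0)
    (fun h => (h x : ℝ) * (h z : ℝ))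

variable (N) in
/-- the direct sum of the covariance matrices of the free blocks -/
def Vm (b : ℝ) (L n : ℕ) : Matrix (V N) (V N) ℝ :=
  Matrix.of fun x z => ∑ k : Fin n × Fin n,
    if x ∈ (bx (pk L k) L : Finset (V N)) ∧ z ∈ (bx (pk L k) L : Finset (V N)) then
      cvk b L k x z else 0

lemma Vm_tr (b : ℝ) (L n : ℕ) : (Vm N b L n)ᵀ = Vm N b L n := by
  ext x z
  unfold Vm
  rw [Matrix.transpose_apply, Matrix.of_apply, Matrix.of_apply]
  refine Finset.sum_congr rfl fun k _ => ?_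
  have e : cvk b L k z x = cvk b L k x z := by
    unfold cvk
    congr 1
    funext h
    ring
  rw [e]
  by_cases h : x ∈ (bx (pk L k) L : Finset (V N)) ∧ z ∈ (bx (pk L k) L : Finset (V N))
  · rw [if_pos h, if_pos h.symm]
  · rw [if_neg h, if_neg fun h' => h h'.symm]

/-- the form of the free blocks -/
theorem qf_Vm {b : ℝ} (hb : 0 ≤ b) (hN : N = n * L) (y : V N → ℝ) :
    qf (Vm N b L n) y = ∑ k : Fin n × Fin n, vk b L k y := by
  have hk : ∀ k : Fin n × Fin n, vk b L k y = ∑ x, ∑ z, y x *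
      (if x ∈ (bx (pk L k) L : Finset (V N)) ∧ z ∈ (bx (pk L k) L : Finset (V N)) then
        cvk b L k x z else 0) * y z := by
    intro k
    have sg : TM.H22.SG (TM.SpecI.wt b (eb (pk L k) L : Finset (V N × Bool))
        ((bx (pk L k) L)ᶜ ∪ {cnr (pk L k)}) (fun _ => 0)) :=
      TM.H574.sg_wt hb (fun _ => le_rfl) (fun _ => rfl)
        (TM.H574.coe_sq (pk_le1 hN k) (pk_le2 hN k) _)
    have g1 : ∀ x : V N, TM.H22.Gr fun h : V N → ℤ => (h x : ℝ) := by
      intro x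
      have h1 := TM.H22.Gr.lin (V := V N) (Pi.single x 1)
      have e : (fun h : V N → ℤ => TM.H22.lin (Pi.single x 1) h) = fun h => (h x : ℝ) := by
        funext h
        unfold TM.H22.lin
        simp [Pi.single_apply]
      rwa [e] at h1
    have e1 : (fun h : V N → ℤ => pr (yk L k y) h ^ 2) = fun h => ∑ x, ∑ z,
        (yk L k y x * yk L k y z) * ((h x : ℝ) * (h z : ℝ)) := by
      funext h
      unfold TM.SpecI.pr
      rw [pow_two, Finset.sum_mul_sum]
      refine Finset.sum_congr rfl fun x _ => Finset.sum_congr rfl fun z _ => ?_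
      ring
    unfold vk
    rw [e1, TM.H574.ex_sum sg univ (fun x _ => TM.H574.gr_sum univ fun z _ =>
      ((g1 x).mul (g1 z)).const_mul _)]
    refine Finset.sum_congr rfl fun x _ => ?_
    rw [TM.H574.ex_sum sg univ (fun z _ => ((g1 x).mul (g1 z)).const_mul _)]
    refine Finset.sum_congr rfl fun z _ => ?_
    rw [TM.H574.ex_smul]
    unfold yk cvk
    by_cases h1 : x ∈ (bx (pk L k) L : Finset (V N))
    · by_cases h2 : z ∈ (bx (pk L k) L : Finset (V N))
      · rw [if_pos h1, if_pos h2, if_pos ⟨h1, h2⟩]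
        ring
      · rw [if_pos h1, if_neg h2, if_neg fun h => h2 h.2]
        ring
    · rw [if_neg h1, zero_mul, zero_mul, if_neg (fun h => h1 (And.left h)), mul_zero, zero_mul]
  simp only [hk]
  unfold H37.qf Vm
  simp only [Matrix.of_apply]
  conv_rhs => rw [Finset.sum_comm]
  refine Finset.sum_congr rfl fun x _ => ?_
  conv_rhs => rw [Finset.sum_comm]
  refine Finset.sum_congr rfl fun z _ => ?_
  rw [Finset.mul_sum, Finset.sum_mul]

end

end Vale.Agent.P159.H864
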