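import Vale.Agent.P159.H864.Fn5

/-!
P159, module FN (helper864), part 7: one level without a smallness condition. Expectation of the
non quadratic part of a level under a law with exponential moments.
-/

set_option linter.unusedSectionVars false

namespace Vale.Agent.P159.H864

open Finset Matrix MeasureTheory
open Vale.Agent.P159.H37 (qf bf re wM Zs Gm cellP Rs)
open Vale.Agent.P159.TM.Spec (V)
open Vale.Agent.P159.TM.SpecC (wT)
open Vale.Agent.P159.TM.SpecI (tgt inn ex pr)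
open Vale.Agent.P159.TM.H574 (bx eb cnr)
open Vale.Agent.P159.H513 (rat vG rat_pos rat_bare rat_ge rat_upper vG_nonneg)
open Vale.Agent.P159.TM.H104 (Lg EM)

noncomputable section

variable {N L n m r s : ℕ} [NeZero N]

/-- the energy of a tilt -/
def ce2 {E : Type*} [Fintype E] (c : E → ℝ) : ℝ := ∑ e, 2 * (Real.cosh (c e) - 1)

lemma sq_le_cosh (x : ℝ) : x ^ 2 ≤ 2 * (Real.cosh x - 1) := by
  have := H513.one_add_le_cosh x
  linarith

/-- the ratio of a block, every tilt -/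
lemma rat_all {b : ℝ} (hb : 0 ≤ b) (hN : N = n * L) (k : Fin n × Fin n)
    (c : ↥(eb (pk L k) L : Finset (V N × Bool)) → ℝ) :
    rat (fun _ => b) (Gs (N := N) (eb (pk L k) L)) c ≤
      Real.exp (vG (fun _ => b) (Gs (N := N) (eb (pk L k) L)) c / 2 + 3 * (max b 1 * ce2 c) ^ 2) := by
  have hE : ∑ e, c e ^ 2 ≤ ce2 c := Finset.sum_le_sum fun e _ => sq_le_cosh (c e)
  by_cases hc : ∀ e, |c e| ≤ 1
  · exact rat_small hb hN k c hc hE
  · push Not at hc
    obtain ⟨e0, he0⟩ := hc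
    have h1 : 1 ≤ ce2 c := by
      have h2 : 2 * (Real.cosh (c e0) - 1) ≤ ce2 c :=
        Finset.single_le_sum (f := fun e => 2 * (Real.cosh (c e) - 1))
          (fun e _ => le_trans (sq_nonneg _) (sq_le_cosh (c e))) (Finset.mem_univ e0)
      have h3 := sq_le_cosh (c e0)
      have h4 : 1 ≤ c e0 ^ 2 := by
        rw [← sq_abs]
        nlinarith [abs_nonneg (c e0)]
      linarith
    have h2 := rat_bare (fun _ => hb) (Gs_half' hN k) c
    have h3 := vG_nonneg (fun _ => hb) (Gs (N := N) (eb (pk L k) L)) c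
    refine h2.trans (Real.exp_le_exp.2 ?_)
    have h4 : ∑ e, b * (Real.cosh (c e) - 1) = b * ce2 c / 2 := by
      unfold ce2
      rw [Finset.mul_sum, Finset.sum_div]
      exact Finset.sum_congr rfl fun e _ => by ring
    have h5 : b * ce2 c ≤ max b 1 * ce2 c := mul_le_mul_of_nonneg_right (le_max_left _ _) (by linarith)
    have h6 : 1 ≤ max b 1 * ce2 c := by
      have := mul_le_mul (le_max_right b 1) h1 zero_le_one (by positivity)
      linarith
    rw [h4]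
    nlinarith

/-- **one level, no smallness** -/
theorem lg_all {b : ℝ} (hb : 0 ≤ b) (hN : N = n * L) (hsL : s ∣ L) {M : Matrix (V N) (V N) ℝ}
    (hMs : Mᵀ = M) {m0 : ℝ} (hm0 : 0 < m0) (hM : ∀ u : V N → ℝ, m0 * ∑ x, u x ^ 2 ≤ qf M u)
    {y : V N → ℝ} (hy : cellP N s *ᵥ y = 0) :
    Lg (wM (wT b N) M) y - Lg (wM (wT b N) M) 0 ≤
      1 / 2 * ∑ k : Fin n × Fin n, vk b L k y +
        3 * max b 1 ^ 2 * ∑ k : Fin n × Fin n, ce2 (ck L s k y) ^ 2 := by
  refine (fn_lg hb hN hsL hMs hm0 hM hy).trans ?_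
  rw [Finset.mul_sum, Finset.mul_sum, ← Finset.sum_add_distrib]
  refine Finset.sum_le_sum fun k _ => ?_
  have h1 := rat_all hb hN k (ck L s k y)
  rw [vG_vk b hN hsL hy] at h1
  have h2 := Real.log_le_log (rat_pos (fun _ => hb) _ _) h1
  rw [Real.log_exp] at h2
  refine h2.trans (le_of_eq ?_)
  ring

/-- the non quadratic part of a level -/
theorem rs_level {b : ℝ} (hb : 0 ≤ b) (hN : N = n * L) (hr : 2 * r ∣ L) {M : Matrix (V N) (V N) ℝ}
    (hMs : Mᵀ = M) {m0 : ℝ} (hm0 : 0 < m0) (hM : ∀ u : V N → ℝ, m0 * ∑ x, u x ^ 2 ≤ qf M u)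
    (a : ℝ) (z : V N → ℝ) :
    Rs (wM (wT b N) M) (a • (Dr N r *ᵥ z)) ≤
      a ^ 2 / 2 * qf (Vm N b L n - Gm (wM (wT b N) M)) (Dr N r *ᵥ z) +
        3 * max b 1 ^ 2 * ∑ k : Fin n × Fin n, ce2 (ck L (2 * r) k (a • (Dr N r *ᵥ z))) ^ 2 := by
  have hLN : L ∣ N := ⟨n, by rw [hN]; ring⟩
  have hy : cellP N (2 * r) *ᵥ (a • (Dr N r *ᵥ z)) = 0 := by
    rw [Matrix.mulVec_smul, cellP_Dr (hr.trans hLN), smul_zero]
  have h1 := lg_all hb hN hr hMs hm0 hM hy
  simp only [vk_smul] at h1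
  rw [← Finset.mul_sum, ← qf_Vm hb hN] at h1
  unfold H37.Rs
  rw [H37.qf_smul, qf_sub_mat]
  linarith

/-! ### the fourth order term -/

lemma cosh_sub_sq {σ : ℝ} (hσ : 2 ≤ σ) (x : ℝ) :
    (Real.cosh x - 1) ^ 2 ≤ 8 * (σ⁻¹) ^ 4 * Real.cosh (σ * x) := by
  have h1 := H513.cosh_quart (s := σ / 2) (by linarith) (2 * x)
  have h2 := H513.one_add_le_cosh x
  have h3 : Real.cosh (2 * x) = 2 * Real.cosh x ^ 2 - 1 := by
    rw [Real.cosh_two_mul, Real.cosh_sq]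
    ring
  have h4 : (σ / 2) * (2 * x) = σ * x := by ring
  have h5 : ((σ / 2)⁻¹) ^ 4 = 16 * (σ⁻¹) ^ 4 := by
    rw [inv_div, div_eq_mul_inv, mul_pow]
    norm_num
  rw [h4, h5] at h1
  nlinarith

/-- the number of edges of a block -/
lemma card_eb (hN : N = n * L) (k : Fin n × Fin n) :
    (Fintype.card ↥(eb (pk L k) L : Finset (V N × Bool)) : ℝ) ≤ 2 * (L : ℝ) ^ 2 := by
  rw [Fintype.card_coe]
  have h3 : (eb (pk L k) L : Finset (V N × Bool)) ⊆ (bx (pk L k) L : Finset (V N)) ×ˢ univ := by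
    intro e he
    rw [Finset.mem_product]
    exact ⟨(eb_mem he).1, Finset.mem_univ _⟩
  have h4 := Finset.card_le_card h3
  rw [Finset.card_product, Finset.card_univ, Fintype.card_bool] at h4
  have h5 := card_bk hN k
  have h6 : ((eb (pk L k) L : Finset (V N × Bool)).card : ℝ) ≤
      ((bx (pk L k) L : Finset (V N)).card : ℝ) * 2 := by exact_mod_cast h4
  rw [h5] at h6
  linarith

/-- exponential moments of all the linear functionals -/
structure MEx (ν : Measure (V N → ℝ)) (τ : ℝ) : Prop where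
  pos : 0 < τ
  int : ∀ v : V N → ℝ, Integrable (fun z => Real.cosh (∑ x, v x * z x)) ν
  le : ∀ v : V N → ℝ, ∫ z, Real.cosh (∑ x, v x * z x) ∂ν ≤ 2 * Real.exp (τ * ∑ x, v x ^ 2)

lemma exp_one_le : Real.exp 1 ≤ 11 / 4 := by
  have := Real.exp_one_lt_d9
  linarith

lemma MEx.meas {ν : Measure (V N → ℝ)} (v : V N → ℝ) :
    AEStronglyMeasurable (fun z : V N → ℝ => ∑ x, v x * z x) ν := by
  refine Continuous.aestronglyMeasurable ?_
  fun_prop

/-- second moments -/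
lemma MEx.sq {ν : Measure (V N → ℝ)} {τ : ℝ} (h : MEx ν τ) (v : V N → ℝ) :
    Integrable (fun z => (∑ x, v x * z x) ^ 2) ν ∧
      ∫ z, (∑ x, v x * z x) ^ 2 ∂ν ≤ 11 * τ * ∑ x, v x ^ 2 := by
  have hle : ∀ z : V N → ℝ, (∑ x, v x * z x) ^ 2 ≤ 2 * Real.cosh (∑ x, v x * z x) := fun z => by
    have := sq_le_cosh (∑ x, v x * z x)
    linarith
  have hI : Integrable (fun z => (∑ x, v x * z x) ^ 2) ν := by
    refine ((h.int v).const_mul 2).mono' ((MEx.meas v).pow 2) (Filter.Eventually.of_forall fun z => ?_)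
    rw [Real.norm_eq_abs, abs_of_nonneg (sq_nonneg _)]
    exact hle z
  refine ⟨hI, ?_⟩
  have hS : 0 ≤ ∑ x, v x ^ 2 := Finset.sum_nonneg fun _ _ => sq_nonneg _
  rcases hS.eq_or_lt with h0 | h0
  · have hv : ∀ x, v x = 0 := fun x => by
      have := (Finset.sum_eq_zero_iff_of_nonneg fun x _ => sq_nonneg (v x)).1 h0.symm x
        (Finset.mem_univ x)
      exact pow_eq_zero_iff two_ne_zero |>.1 this
    simp [hv]
  · set σ : ℝ := Real.sqrt (τ * ∑ x, v x ^ 2) with hσ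
    have hp : 0 < τ * ∑ x, v x ^ 2 := mul_pos h.pos h0
    have hσ0 : 0 < σ := Real.sqrt_pos.2 hp
    have hσ2 : σ ^ 2 = τ * ∑ x, v x ^ 2 := Real.sq_sqrt hp.le
    set w : V N → ℝ := fun x => σ⁻¹ * v x with hw
    have e1 : ∀ z : V N → ℝ, ∑ x, w x * z x = σ⁻¹ * ∑ x, v x * z x := fun z => by
      rw [Finset.mul_sum]
      exact Finset.sum_congr rfl fun x _ => by rw [hw]; ring
    have e2 : ∑ x, w x ^ 2 = (σ ^ 2)⁻¹ * ∑ x, v x ^ 2 := by
      rw [Finset.mul_sum]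
      refine Finset.sum_congr rfl fun x _ => ?_
      rw [hw]
      simp only
      rw [mul_pow, inv_pow]
    have h1 := h.le w
    have h2 : τ * ∑ x, w x ^ 2 = 1 := by
      have hτ := h.pos
      rw [e2, hσ2]
      field_simp
    rw [h2] at h1
    have h3 : ∀ z : V N → ℝ, (∑ x, v x * z x) ^ 2 ≤ σ ^ 2 * (2 * Real.cosh (∑ x, w x * z x)) := by
      intro z
      have h4 := sq_le_cosh (∑ x, w x * z x)
      have h5 : (∑ x, v x * z x) ^ 2 = σ ^ 2 * (∑ x, w x * z x) ^ 2 := by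
        rw [e1]
        field_simp
      rw [h5]
      refine mul_le_mul_of_nonneg_left ?_ (sq_nonneg _)
      linarith
    calc ∫ z, (∑ x, v x * z x) ^ 2 ∂ν ≤ ∫ z, σ ^ 2 * (2 * Real.cosh (∑ x, w x * z x)) ∂ν :=
          integral_mono hI (((h.int w).const_mul 2).const_mul _) h3
      _ = σ ^ 2 * (2 * ∫ z, Real.cosh (∑ x, w x * z x) ∂ν) := by
          rw [integral_const_mul, integral_const_mul]
      _ ≤ σ ^ 2 * (2 * (2 * (11 / 4))) := by
          refine mul_le_mul_of_nonneg_left ?_ (sq_nonneg _)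
          have := exp_one_le
          linarith
      _ = _ := by
          rw [hσ2]
          ring

/-- fourth order moments of the edge tilts -/
lemma MEx.edge {ν : Measure (V N → ℝ)} {τ : ℝ} (h : MEx ν τ) {v : V N → ℝ} (hv : ∑ x, v x ^ 2 ≤ 2)
    {a : ℝ} (ha : 0 < a) (ha1 : 8 * τ * a ^ 2 ≤ 1) :
    Integrable (fun z => (Real.cosh (a * ∑ x, v x * z x) - 1) ^ 2) ν ∧
      ∫ z, (Real.cosh (a * ∑ x, v x * z x) - 1) ^ 2 ∂ν ≤ 176 * a ^ 4 * τ ^ 2 := by
  have hτ := h.pos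
  set q : ℝ := Real.sqrt (2 * τ) with hq
  have hq0 : 0 < q := Real.sqrt_pos.2 (by linarith)
  have hq2 : q ^ 2 = 2 * τ := Real.sq_sqrt (by linarith)
  set σ : ℝ := (a * q)⁻¹ with hσ
  have haq : 0 < a * q := mul_pos ha hq0
  have hσ2 : 2 ≤ σ := by
    rw [hσ, le_inv_comm₀ two_pos haq]
    have h1 : (a * q) ^ 2 ≤ (2⁻¹) ^ 2 := by
      rw [mul_pow, hq2]
      norm_num
      linarith
    exact (pow_le_pow_iff_left₀ haq.le (by norm_num) two_ne_zero).1 h1
  set w : V N → ℝ := fun x => σ * a * v x with hw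
  have e1 : ∀ z : V N → ℝ, ∑ x, w x * z x = σ * (a * ∑ x, v x * z x) := fun z => by
    rw [Finset.mul_sum, Finset.mul_sum]
    exact Finset.sum_congr rfl fun x _ => by rw [hw]; ring
  have e2 : τ * ∑ x, w x ^ 2 ≤ 1 := by
    have h1 : ∑ x, w x ^ 2 = (σ * a) ^ 2 * ∑ x, v x ^ 2 := by
      rw [Finset.mul_sum]
      exact Finset.sum_congr rfl fun x _ => by rw [hw]; ring
    have h2 : (σ * a) ^ 2 = (2 * τ)⁻¹ := by
      rw [hσ, mul_inv, mul_comm a⁻¹, mul_assoc, inv_mul_cancel₀ ha.ne', mul_one, inv_pow, hq2]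
    rw [h1, h2]
    have h3 : τ * ((2 * τ)⁻¹ * ∑ x, v x ^ 2) = (∑ x, v x ^ 2) / 2 := by
      field_simp
    rw [h3]
    linarith
  have h1 := (h.le w).trans (mul_le_mul_of_nonneg_left (Real.exp_le_exp.2 e2) two_pos.le)
  have hb : ∀ z : V N → ℝ, (Real.cosh (a * ∑ x, v x * z x) - 1) ^ 2 ≤
      8 * (σ⁻¹) ^ 4 * Real.cosh (∑ x, w x * z x) := fun z => by
    rw [e1]
    exact cosh_sub_sq hσ2 _
  have hI : Integrable (fun z => (Real.cosh (a * ∑ x, v x * z x) - 1) ^ 2) ν := by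
    refine ((h.int w).const_mul (8 * (σ⁻¹) ^ 4)).mono' ?_ (Filter.Eventually.of_forall fun z => ?_)
    · refine Continuous.aestronglyMeasurable ?_
      have : Continuous fun z : V N → ℝ => ∑ x, v x * z x := by fun_prop
      exact ((Real.continuous_cosh.comp (continuous_const.mul this)).sub continuous_const).pow 2
    · rw [Real.norm_eq_abs, abs_of_nonneg (sq_nonneg _)]
      exact hb z
  refine ⟨hI, ?_⟩
  calc ∫ z, (Real.cosh (a * ∑ x, v x * z x) - 1) ^ 2 ∂ν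
      ≤ ∫ z, 8 * (σ⁻¹) ^ 4 * Real.cosh (∑ x, w x * z x) ∂ν :=
        integral_mono hI ((h.int w).const_mul _) hb
    _ = 8 * (σ⁻¹) ^ 4 * ∫ z, Real.cosh (∑ x, w x * z x) ∂ν := integral_const_mul _ _
    _ ≤ 8 * (σ⁻¹) ^ 4 * (2 * (11 / 4)) := by
        refine mul_le_mul_of_nonneg_left ?_ (by positivity)
        have := exp_one_le
        linarith
    _ = 176 * a ^ 4 * τ ^ 2 := by
        have h5 : (σ⁻¹) ^ 4 = a ^ 4 * (2 * τ) ^ 2 := by
          rw [hσ, inv_inv, mul_pow, show q ^ 4 = (q ^ 2) ^ 2 by ring, hq2]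
        rw [h5]
        ring

/-- **fourth order term of a level** -/
theorem MEx.quart {ν : Measure (V N → ℝ)} {τ : ℝ} (h : MEx ν τ) (hN : N = n * L) (hr : 2 * r ∣ L)
    {a : ℝ} (ha : 0 < a) (ha1 : 8 * τ * a ^ 2 ≤ 1) :
    Integrable (fun z => ∑ k : Fin n × Fin n, ce2 (ck L (2 * r) k (a • (Dr N r *ᵥ z))) ^ 2) ν ∧
      ∫ z, ∑ k : Fin n × Fin n, ce2 (ck L (2 * r) k (a • (Dr N r *ᵥ z))) ^ 2 ∂ν ≤
        2816 * (N : ℝ) ^ 2 * (L : ℝ) ^ 2 * a ^ 4 * τ ^ 2 := by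
  have hLN : L ∣ N := ⟨n, by rw [hN]; ring⟩
  have hrN : 2 * r ∣ N := hr.trans hLN
  have hc : ∀ (k : Fin n × Fin n) (e : ↥(eb (pk L k) L : Finset (V N × Bool))) (z : V N → ℝ),
      ck L (2 * r) k (a • (Dr N r *ᵥ z)) e =
        a * ∑ x, ph r (e : V N × Bool).1 (!(e : V N × Bool).2) x * z x := by
    intro k e z
    unfold ck cf
    rw [flo_smul, flo_eq_sum]
    congr 1
    exact Finset.sum_congr rfl fun x _ => mul_comm _ _
  have he : ∀ (k : Fin n × Fin n) (e : ↥(eb (pk L k) L : Finset (V N × Bool))),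
      Integrable (fun z => (Real.cosh (ck L (2 * r) k (a • (Dr N r *ᵥ z)) e) - 1) ^ 2) ν ∧
      ∫ z, (Real.cosh (ck L (2 * r) k (a • (Dr N r *ᵥ z)) e) - 1) ^ 2 ∂ν ≤
        176 * a ^ 4 * τ ^ 2 := by
    intro k e
    simp only [hc]
    exact h.edge (ph_sq hrN _ _) ha ha1
  have hb : ∀ (k : Fin n × Fin n) (z : V N → ℝ), ce2 (ck L (2 * r) k (a • (Dr N r *ᵥ z))) ^ 2 ≤
      2 * (L : ℝ) ^ 2 * ∑ e, 4 * (Real.cosh (ck L (2 * r) k (a • (Dr N r *ᵥ z)) e) - 1) ^ 2 := by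
    intro k z
    have h1 := sq_sum_le_card_mul_sum_sq (s := (univ : Finset ↥(eb (pk L k) L : Finset (V N × Bool))))
      (f := fun e => 2 * (Real.cosh (ck L (2 * r) k (a • (Dr N r *ᵥ z)) e) - 1))
    rw [Finset.card_univ] at h1
    have h2 := card_eb hN k
    unfold ce2
    refine h1.trans ?_
    have e1 : ∀ e : ↥(eb (pk L k) L : Finset (V N × Bool)),
        (2 * (Real.cosh (ck L (2 * r) k (a • (Dr N r *ᵥ z)) e) - 1)) ^ 2 =
        4 * (Real.cosh (ck L (2 * r) k (a • (Dr N r *ᵥ z)) e) - 1) ^ 2 := fun e => by ring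
    simp only [e1]
    exact mul_le_mul_of_nonneg_right h2 (Finset.sum_nonneg fun e _ => by positivity)
  have hIk : ∀ k : Fin n × Fin n, Integrable (fun z => 2 * (L : ℝ) ^ 2 * ∑ e, 4 *
      (Real.cosh (ck L (2 * r) k (a • (Dr N r *ᵥ z)) e) - 1) ^ 2) ν := fun k =>
    (integrable_finsetSum _ fun e _ => ((he k e).1.const_mul 4)).const_mul _
  have hIc : ∀ k : Fin n × Fin n,
      Integrable (fun z => ce2 (ck L (2 * r) k (a • (Dr N r *ᵥ z))) ^ 2) ν := by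
    intro k
    refine (hIk k).mono' ?_ (Filter.Eventually.of_forall fun z => ?_)
    · refine Continuous.aestronglyMeasurable ?_
      unfold ce2
      simp only [hc]
      have : ∀ e : ↥(eb (pk L k) L : Finset (V N × Bool)), Continuous fun z : V N → ℝ =>
          ∑ x, ph r (e : V N × Bool).1 (!(e : V N × Bool).2) x * z x := fun e => by fun_prop
      refine Continuous.pow (continuous_finsetSum _ fun e _ => continuous_const.mul
        ((Real.continuous_cosh.comp (continuous_const.mul (this e))).sub continuous_const)) 2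
    · rw [Real.norm_eq_abs, abs_of_nonneg (sq_nonneg _)]
      exact hb k z
  refine ⟨integrable_finsetSum _ fun k _ => hIc k, ?_⟩
  rw [integral_finsetSum _ fun k _ => hIc k]
  have h1 : ∀ k : Fin n × Fin n, ∫ z, ce2 (ck L (2 * r) k (a • (Dr N r *ᵥ z))) ^ 2 ∂ν ≤
      2816 * (L : ℝ) ^ 4 * a ^ 4 * τ ^ 2 := by
    intro k
    refine (integral_mono (hIc k) (hIk k) (hb k)).trans ?_
    rw [integral_const_mul, integral_finsetSum _ fun e _ => ((he k e).1.const_mul 4)]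
    have h2 : ∑ e : ↥(eb (pk L k) L : Finset (V N × Bool)), ∫ z, 4 *
        (Real.cosh (ck L (2 * r) k (a • (Dr N r *ᵥ z)) e) - 1) ^ 2 ∂ν ≤
        ∑ _e : ↥(eb (pk L k) L : Finset (V N × Bool)), 4 * (176 * a ^ 4 * τ ^ 2) := by
      refine Finset.sum_le_sum fun e _ => ?_
      rw [integral_const_mul]
      exact mul_le_mul_of_nonneg_left (he k e).2 (by norm_num)
    rw [Finset.sum_const, Finset.card_univ, nsmul_eq_mul] at h2
    have h3 := card_eb hN k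
    have hτ := h.pos
    have h4 : (Fintype.card ↥(eb (pk L k) L : Finset (V N × Bool)) : ℝ) *
        (4 * (176 * a ^ 4 * τ ^ 2)) ≤ 2 * (L : ℝ) ^ 2 * (4 * (176 * a ^ 4 * τ ^ 2)) :=
      mul_le_mul_of_nonneg_right h3 (by positivity)
    calc 2 * (L : ℝ) ^ 2 * _ ≤ 2 * (L : ℝ) ^ 2 * (2 * (L : ℝ) ^ 2 * (4 * (176 * a ^ 4 * τ ^ 2))) :=
          mul_le_mul_of_nonneg_left (h2.trans h4) (by positivity)
      _ = _ := by ring
  refine (Finset.sum_le_sum fun k _ => h1 k).trans (le_of_eq ?_)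
  rw [Finset.sum_const, Finset.card_univ, Fintype.card_prod, Fintype.card_fin, nsmul_eq_mul, hN]
  push_cast
  ring

/-! ### the level -/

lemma cont_Rs {μ : (V N → ℤ) → ℝ} (hμ : EM μ) : Continuous (Rs μ) := by
  have h1 : Continuous (Lg μ) := by
    have h2 := H37.continuous_Zs hμ
    have h3 : ∀ J, Zs μ J ≠ 0 := fun J => (H37.Zs_pos hμ J).ne'
    exact h2.log h3
  have h2 : Continuous fun J : V N → ℝ => qf (Gm μ) J := by
    unfold H37.qf
    fun_prop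
  unfold H37.Rs
  exact (h1.sub continuous_const).sub (h2.div_const 2)

/-- **ONE LEVEL**: expectation of the non quadratic part -/
theorem level {b : ℝ} (hb : 0 ≤ b) (hN : N = n * L) (hNm : N = m * r) (hr : 2 * r ∣ L)
    {M : Matrix (V N) (V N) ℝ} (hMs : Mᵀ = M) {m0 : ℝ} (hm0 : 0 < m0)
    (hM : ∀ u : V N → ℝ, m0 * ∑ x, u x ^ 2 ≤ qf M u) {ν : Measure (V N → ℝ)} {τ : ℝ}
    (hν : MEx ν τ) {a : ℝ} (ha : 0 < a) (ha1 : 8 * τ * a ^ 2 ≤ 1) :
    Integrable (fun z => Rs (wM (wT b N) M) (a • (Dr N r *ᵥ z))) ν ∧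
      ∫ z, Rs (wM (wT b N) M) (a • (Dr N r *ᵥ z)) ∂ν ≤
        11 / 2 * τ * a ^ 2 * ∑ c : Fin m × Fin m, (∑ k : Fin n × Fin n, vk b L k (hf (N := N) r (nc c)) -
          qf (Gm (wM (wT b N) M)) (hf r (nc c))) +
        8448 * max b 1 ^ 2 * (N : ℝ) ^ 2 * (L : ℝ) ^ 2 * a ^ 4 * τ ^ 2 := by
  have hLN : L ∣ N := ⟨n, by rw [hN]; ring⟩
  have hE := H789.em_wM_wT (N := N) hb hm0 hM
  set A : Matrix (V N) (V N) ℝ := Vm N b L n - Gm (wM (wT b N) M) with hA
  have hAt : Aᵀ = A := by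
    rw [hA, Matrix.transpose_sub, Vm_tr]
    congr 1
    exact H789.Cm_symm _ _
  have hA0 : ∀ u, Dr N r *ᵥ u = u → 0 ≤ qf A u := fun u hu => by
    rw [hA, qf_sub_mat, qf_Vm hb hN]
    have := gm_le_vk hb hN hr hMs hm0 hM hu
    linarith
  obtain ⟨i1, i2⟩ := trace_level hNm (hr.trans hLN) hAt hA0 (τ := 11 * τ)
    (fun v => (hν.sq v).1) (fun v => (hν.sq v).2)
  obtain ⟨j1, j2⟩ := hν.quart hN hr ha ha1
  have hb1 : ∀ z, Rs (wM (wT b N) M) (a • (Dr N r *ᵥ z)) ≤ a ^ 2 / 2 * qf A (Dr N r *ᵥ z) +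
      3 * max b 1 ^ 2 * ∑ k : Fin n × Fin n, ce2 (ck L (2 * r) k (a • (Dr N r *ᵥ z))) ^ 2 :=
    fun z => rs_level hb hN hr hMs hm0 hM a z
  have hI2 := (i1.const_mul (a ^ 2 / 2)).add (j1.const_mul (3 * max b 1 ^ 2))
  have hI : Integrable (fun z => Rs (wM (wT b N) M) (a • (Dr N r *ᵥ z))) ν := by
    refine hI2.mono' ?_ (Filter.Eventually.of_forall fun z => ?_)
    · refine Continuous.aestronglyMeasurable ?_
      have h1 : Continuous fun z : V N → ℝ => a • (Dr N r *ᵥ z) :=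
        (continuous_const.matrix_mulVec continuous_id).const_smul a
      exact (cont_Rs hE).comp h1
    · rw [Real.norm_eq_abs, abs_of_nonneg
        (H789.Rs_nonneg hE (H789.ev_wM_wT M) (H789.pk_wM_wT' hb hm0 hM) _)]
      exact hb1 z
  refine ⟨hI, ?_⟩
  refine (integral_mono hI hI2 hb1).trans ?_
  have e1 : ∫ z, (a ^ 2 / 2 * qf A (Dr N r *ᵥ z) + 3 * max b 1 ^ 2 * ∑ k : Fin n × Fin n,
      ce2 (ck L (2 * r) k (a • (Dr N r *ᵥ z))) ^ 2) ∂ν = a ^ 2 / 2 * ∫ z, qf A (Dr N r *ᵥ z) ∂ν +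
      3 * max b 1 ^ 2 * ∫ z, ∑ k : Fin n × Fin n,
        ce2 (ck L (2 * r) k (a • (Dr N r *ᵥ z))) ^ 2 ∂ν := by
    rw [integral_add (i1.const_mul _) (j1.const_mul _), integral_const_mul, integral_const_mul]
  have e2 : ∀ c : Fin m × Fin m, qf A (hf r (nc c)) = ∑ k : Fin n × Fin n, vk b L k (hf (N := N) r (nc c)) -
      qf (Gm (wM (wT b N) M)) (hf r (nc c)) := fun c => by
    rw [hA, qf_sub_mat, qf_Vm hb hN]
  simp only [e2] at i2
  refine le_trans (le_of_eq e1) ?_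
  have h3 := mul_le_mul_of_nonneg_left i2 (show 0 ≤ a ^ 2 / 2 by positivity)
  have h4 := mul_le_mul_of_nonneg_left j2 (show 0 ≤ 3 * max b 1 ^ 2 by positivity)
  refine (add_le_add h3 h4).trans (le_of_eq ?_)
  ring

end

end Vale.Agent.P159.H864
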